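import Crest.Agent.R72.Main

/-! Row 72: one generation of fine atoms. -/

set_option autoImplicit false
set_option linter.unusedSectionVars false
set_option linter.unusedSimpArgs false

namespace Crest.Agent.R72.Core

open Matrix Finset MeasureTheory

lemma continuous_conv {u v : ℝ → ℝ} (hu : Continuous u) (hv : Continuous v) {L : ℝ}
    (h : ∀ y, L ≤ |y| → u y = 0) : Continuous (conv u v) := by
  have : conv u v = fun t => ∫ x in (-L)..L, u x * v (t - x) := by
    ext t
    exact integral_eq_of_zero fun y hy => by rw [h y hy, zero_mul]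
  rw [this]
  exact intervalIntegral.continuous_parametric_intervalIntegral_of_continuous'
    (f := fun t x => u x * v (t - x)) (by fun_prop) _ _

lemma conv_comm' (u v : ℝ → ℝ) : conv u v = conv v u := by
  ext t
  unfold conv
  rw [← integral_sub_left_eq_self _ _ t]
  simp only [sub_sub_cancel, mul_comm]

lemma conv_avg' {g u : ℝ → ℝ} (hg : Continuous g) (hu : Continuous u) {L : ℝ}
    (h : ∀ y, L ≤ |y| → u y = 0) : conv g (avg u) = avg (conv g u) := by
  ext t
  have := integral_window hu h 0 1 (fun s => g (t - s)) (by fun_prop)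
  rw [conv_comm']
  unfold conv avg
  simp only [mul_comm _ (g _)]
  rw [this]
  congr 1; ext y
  rw [← integral_sub_left_eq_self _ _ t]
  congr 1; ext x
  rw [sub_sub_cancel]; congr 2; ring

lemma conv_trap_ge {a ρ x : ℝ} (hρ : 0 < ρ) (h : ρ ≤ a) (hx : |x| ≤ 16 * a) :
    1 / a ≤ 648 * conv (trap (2 * (18 * a)) (2 * ρ)) (trap (2 * (18 * a)) (2 * ρ)) x := by
  have ha := hρ.trans_le h
  have h1 : 0 < 2 * ρ := by positivity
  have h2 : 2 * ρ ≤ 2 * (18 * a) := by linarith
  have hc := continuous_trap (2 * (18 * a)) (2 * ρ)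
  have i : Integrable fun y => trap (2 * (18 * a)) (2 * ρ) y * trap (2 * (18 * a)) (2 * ρ) (x - y) :=
    integrable_of_zero (by fun_prop) _ fun y hy => by rw [trap_zero h1 h2 hy, zero_mul]
  have e : ∫ y in Set.Ioc (-a) a, trap (2 * (18 * a)) (2 * ρ) y * trap (2 * (18 * a)) (2 * ρ) (x - y)
      = 1 / (648 * a) := by
    rw [← intervalIntegral.integral_of_le (by linarith),
      intervalIntegral.integral_congr (g := fun _ => 1 / (2 * (18 * a)) * (1 / (2 * (18 * a))))]
    · simp only [intervalIntegral.integral_const, smul_eq_mul]; field_simp; ring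
    · intro y hy
      rw [Set.uIcc_of_le (by linarith), Set.mem_Icc, ← abs_le] at hy
      have := abs_sub x y
      simp only
      rw [trap_flat h1 h2 (by linarith), trap_flat h1 h2 (by linarith)]
  have := setIntegral_le_integral (s := Set.Ioc (-a) a) i (Filter.Eventually.of_forall fun y =>
    mul_nonneg (trap_nonneg h1 h2 _) (trap_nonneg h1 h2 _))
  rw [e] at this
  calc 1 / a = 648 * (1 / (648 * a)) := by field_simp
    _ ≤ _ := mul_le_mul_of_nonneg_left this (by norm_num)

lemma plane_Y {Ω Y : ℝ → ℝ} (hΩ : Continuous Ω) {L : ℝ} (h : ∀ y, L ≤ |y| → Ω y = 0)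
    (hY : Measurable Y) {M : ℝ} (hM : ∀ w, |Y w| ≤ M) (α β : ℝ) :
    Integrable (fun z : ℝ × ℝ => Y (-z.1 - z.2) * (Ω (α - z.1) * Ω (β - z.2))) ∧
    ∫ z : ℝ × ℝ, Y (-z.1 - z.2) * (Ω (α - z.1) * Ω (β - z.2)) =
      ∫ w, Y w * conv Ω Ω (α + β + w) := by
  have i0 : Integrable (fun z : ℝ × ℝ => Ω (α - z.1) * Ω (β - z.2)) := by
    refine integrable_of_box (by fun_prop) (L + |α| + |β|) fun z hz => ?_
    have h1 := abs_sub α (α - z.1)
    have h2 := abs_sub β (β - z.2)
    rw [sub_sub_cancel] at h1 h2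
    rcases hz with hz | hz
    · rw [h (α - z.1) (by linarith [abs_nonneg β])]; simp
    · rw [h (β - z.2) (by linarith [abs_nonneg α])]; simp
  have i1 : Integrable (fun z : ℝ × ℝ => Y (-z.1 - z.2) * (Ω (α - z.1) * Ω (β - z.2))) :=
    i0.bdd_mul (c := M) (Measurable.aestronglyMeasurable (by fun_prop)) (Filter.Eventually.of_forall fun z => hM _)
  refine ⟨i1, ?_⟩
  have i2 := integrable_rot2 i1
  rw [← integral_rot2, Measure.volume_eq_prod, integral_prod _ i2]
  congr 1; ext w
  simp only [show ∀ x : ℝ, -x - (-w - x) = w from fun x => by ring]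
  rw [integral_const_mul]
  congr 1
  unfold conv
  rw [← integral_sub_left_eq_self _ _ α]
  congr 1; ext x
  rw [sub_sub_cancel]; congr 2; ring

lemma min_scale {r ρ : ℝ} (hρ : 0 < ρ) (h : ρ ≤ r) : min 1 (1 / ρ) ≤ r / ρ * min 1 (1 / r) := by
  have hr := hρ.trans_le h
  rw [mul_min_of_nonneg _ _ (by positivity)]
  refine le_min ((min_le_left _ _).trans ?_) ((min_le_right _ _).trans (le_of_eq ?_))
  · rw [mul_one, le_div_iff₀ hρ]; linarith
  · field_simp

variable {S : Finset ℤ}

lemma atom_scale {b c gb gc : ℤ → ℤ → ℝ} (Hb : SM S b gb) (Hc : SM S (fun i j => c j i) gc)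
    (h : ℤ → ℤ → ℝ) {a : ℝ} (ha : 0 < a) (m : ℕ) (d : ℤ → ℤ → ℝ → ℝ) (N : ℤ → ℤ → ℝ)
    (hc : ∀ i j, Continuous (d i j)) (hb : ∀ i j x, |d i j x| ≤ 1 / a)
    (hz : ∀ i j x, 16 * a ≤ |x| → d i j x = 0) (hN : ∀ i j, ∫ x, |d i j x| ≤ N i j / 2 ^ m) :
    2 * ∑ i : S, ∑ j : S, ∑ l : S, h i j * b j l * c l i *
        conv (avg (avg (d i j))) (avg (oddA (a / 2 ^ m))) (((i : ℤ) + j + l : ℤ) : ℝ) ≤
      2 / 3 * gapI S (mat S b) (mat S c) (18 * a) (a / 2 ^ m) +
        35640 * (3 / 4) ^ m * ∑ i : S, ∑ j : S, N i j *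
          (h i j ^ 2 * (gb j (-i - j) + gc i (-i - j))) := by
  set ρ := a / 2 ^ m with hρdef
  have h2m : (1 : ℝ) ≤ 2 ^ m := one_le_pow₀ one_le_two
  have hρ : 0 < ρ := by positivity
  have hρa : ρ ≤ a := div_le_self ha.le h2m
  have h1 : 0 < 2 * ρ := by positivity
  have h2 : 2 * ρ ≤ 2 * (18 * a) := by linarith
  set u := trap (2 * (18 * a)) (2 * ρ) with hu
  have cu : Continuous u := continuous_trap _ _
  have zu : ∀ y, 2 * (18 * a) ≤ |y| → u y = 0 := fun y hy => trap_zero h1 h2 hy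
  have nu : ∀ y, 0 ≤ u y := trap_nonneg h1 h2
  have cΩ := continuous_avg cu
  have zΩ : ∀ y, 2 * (18 * a) + 1 ≤ |y| → avg u y = 0 := fun y hy => avg_zero zu hy
  have cuu := continuous_conv cu cu zu
  have eΩ : conv (avg u) (avg u) = avg (avg (conv u u)) := by
    rw [conv_avg' cΩ cu zu, conv_comm' (avg u), conv_avg' cu cu zu]
  have cΩΩ := continuous_conv cΩ cΩ zΩ
  have bD : ∀ i j s, |avg (avg (d i j)) s| ≤ avg (avg fun x => |d i j x|) s := fun i j s => by
    have := hc i j
    exact (abs_avg_le s).trans (avg_mono (continuous_avg this).abs (continuous_avg this.abs)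
      (fun y => abs_avg_le y) s)
  have bD2 : ∀ i j s, |avg (avg (d i j)) s| ≤ 648 * conv (avg u) (avg u) s := fun i j s => by
    refine (bD i j s).trans ?_
    rw [eΩ, ← avg_mul]
    refine avg_mono (continuous_avg (hc i j).abs) (continuous_const.fun_mul (continuous_avg cuu))
      (fun y => ?_) s
    rw [← avg_mul]
    refine avg_mono (hc i j).abs (continuous_const.fun_mul cuu) (fun x => ?_) y
    rcases le_total (16 * a) |x| with hx | hx
    · rw [hz i j x hx, abs_zero]
      exact mul_nonneg (by norm_num) (integral_nonneg fun y => mul_nonneg (nu _) (nu _))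
    · exact (hb i j x).trans (conv_trap_ge hρ hρa hx)
  set X : ℤ → ℤ → ℝ → ℝ := fun i j s => avg (avg (d i j)) s / conv (avg u) (avg u) s with hX
  have nΩ : ∀ s, 0 ≤ conv (avg u) (avg u) s := fun s =>
    integral_nonneg fun y => mul_nonneg (avg_nonneg nu _) (avg_nonneg nu _)
  have mX : ∀ i j, Measurable (X i j) := fun i j =>
    (continuous_avg (continuous_avg (hc i j))).measurable.div cΩΩ.measurable
  have bX : ∀ i j s, |X i j s| ≤ 648 := fun i j s => by
    simp only [hX]
    rw [abs_div, abs_of_nonneg (nΩ s)]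
    exact div_le_of_le_mul₀ (nΩ s) (by norm_num) (bD2 i j s)
  have eX : ∀ i j s, X i j s * conv (avg u) (avg u) s = avg (avg (d i j)) s := fun i j s => by
    simp only [hX]
    by_cases h0 : conv (avg u) (avg u) s = 0
    · have := bD2 i j s
      rw [h0, mul_zero] at this ⊢
      exact (abs_nonpos_iff.1 this).symm
    · field_simp
  have cA := continuous_avg (continuous_oddA ρ)
  obtain ⟨MA, hMA⟩ : ∃ M, ∀ y, |avg (oddA ρ) y| ≤ M :=
    cA.bounded_above_of_compact_support (compact_of_zero (2 * ρ + 1) fun y hy =>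
      avg_zero (fun y hy => oddA_zero hρ hy) hy)
  -- the two plane integrals
  have p1 : ∀ i j l : S, Integrable (fun z : ℝ × ℝ =>
      (X i j ((j : ℤ) + (i : ℤ) + (-z.1 - z.2)) * avg (oddA ρ) ((l : ℤ) - (-z.1 - z.2))) *
        (avg u ((j : ℤ) - z.1) * avg u ((i : ℤ) - z.2))) ∧ ∫ z : ℝ × ℝ,
      (X i j ((j : ℤ) + (i : ℤ) + (-z.1 - z.2)) * avg (oddA ρ) ((l : ℤ) - (-z.1 - z.2))) *
        (avg u ((j : ℤ) - z.1) * avg u ((i : ℤ) - z.2)) =
      conv (avg (avg (d i j))) (avg (oddA ρ)) (((i : ℤ) + j + l : ℤ) : ℝ) := by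
    intro i j l
    have mx := mX i j
    have := plane_Y (Y := fun w => X i j ((j : ℤ) + (i : ℤ) + w) * avg (oddA ρ) ((l : ℤ) - w)) cΩ zΩ
      (by fun_prop) (M := 648 * MA) (fun w => by
        rw [abs_mul]; exact mul_le_mul (bX _ _ _) (hMA _) (abs_nonneg _) (by norm_num))
      (j : ℤ) (i : ℤ)
    refine ⟨this.1, this.2.trans ?_⟩
    simp only [mul_right_comm _ (avg (oddA ρ) _), eX]
    unfold conv
    symm
    rw [← integral_add_left_eq_self _ (((j : ℤ) : ℝ) + (i : ℤ))]
    congr 1; ext w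
    congr 2; push_cast; ring
  have p2 : ∀ i j : S, Integrable (fun z : ℝ × ℝ =>
      X i j ((j : ℤ) + (i : ℤ) + (-z.1 - z.2)) ^ 2 *
        (avg u ((j : ℤ) - z.1) * avg u ((i : ℤ) - z.2))) ∧ ∫ z : ℝ × ℝ,
      X i j ((j : ℤ) + (i : ℤ) + (-z.1 - z.2)) ^ 2 *
        (avg u ((j : ℤ) - z.1) * avg u ((i : ℤ) - z.2)) ≤ 648 * (N i j / 2 ^ m) := by
    intro i j
    have mx := mX i j
    have := plane_Y (Y := fun w => X i j ((j : ℤ) + (i : ℤ) + w) ^ 2) cΩ zΩ
      (by fun_prop) (M := 648 ^ 2) (fun w => by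
        rw [abs_pow]; exact pow_le_pow_left₀ (abs_nonneg _) (bX _ _ _) 2) (j : ℤ) (i : ℤ)
    refine ⟨this.1, this.2.trans_le ?_⟩
    rw [integral_add_left_eq_self (fun t => X i j t ^ 2 * conv (avg u) (avg u) t)]
    have zd : ∀ y, 16 * a ≤ |y| → |d i j y| = 0 := fun y hy => by rw [hz i j y hy, abs_zero]
    have zd1 : ∀ y, 16 * a + 1 ≤ |y| → avg (fun x => |d i j x|) y = 0 := fun y hy => avg_zero zd hy
    have cd := continuous_avg (hc i j).abs
    refine le_trans (integral_mono_of_nonneg (Filter.Eventually.of_forall fun t =>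
      mul_nonneg (sq_nonneg _) (nΩ _)) ((integrable_of_zero (continuous_avg cd) (16 * a + 1 + 1)
        fun y hy => avg_zero zd1 hy).const_mul 648) (Filter.Eventually.of_forall fun t => ?_)) ?_
    · simp only
      rw [pow_two, mul_assoc, eX]
      refine (le_abs_self _).trans ?_
      rw [abs_mul]
      exact mul_le_mul (bX _ _ _) (bD _ _ _) (abs_nonneg _) (by norm_num)
    · rw [integral_const_mul, integral_avg cd zd1, integral_avg (hc i j).abs zd]
      exact mul_le_mul_of_nonneg_left (hN i j) (by norm_num)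
  have w := wt1_trap S h1 h2
  have w0 := (wt1_trap S hρ le_rfl).toWt
  have w1 := w0.mid (ρ / 2)
  have ig := integrable_gapq (mat S b) (mat S c) w.toWt w1 w.toWt (ρ / 2)
  set G : S → S → ℝ := fun i j => h i j ^ 2 * (55 * (3 / 2) ^ m * (gb j (-i - j) + gc i (-i - j)))
    with hG
  have G0 : ∀ i j, 0 ≤ G i j := fun i j => by
    have := Hb.nonneg j (-i - j); have := Hc.nonneg i (-i - j); positivity
  have iL : Integrable fun z : ℝ × ℝ => ∑ i : S, ∑ j : S, ∑ l : S, h i j * b j l * c l i *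
      ((X i j ((j : ℤ) + (i : ℤ) + (-z.1 - z.2)) * avg (oddA ρ) ((l : ℤ) - (-z.1 - z.2))) *
        (avg u ((j : ℤ) - z.1) * avg u ((i : ℤ) - z.2))) :=
    integrable_finsetSum _ fun i _ => integrable_finsetSum _ fun j _ =>
      integrable_finsetSum _ fun l _ => (p1 i j l).1.const_mul _
  have iR : Integrable fun z : ℝ × ℝ => ∑ i : S, ∑ j : S, G i j *
      (X i j ((j : ℤ) + (i : ℤ) + (-z.1 - z.2)) ^ 2 *
        (avg u ((j : ℤ) - z.1) * avg u ((i : ℤ) - z.2))) :=
    integrable_finsetSum _ fun i _ => integrable_finsetSum _ fun j _ => (p2 i j).1.const_mul _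
  have key := integral_mono (iL.const_mul 2) ((ig.const_mul (2 / 3)).fun_add iR) fun z => by
    have t := crude_weights (mat S b) (mat S c)
      (fun j i => h i j * X i j ((j : ℤ) + (i : ℤ) + (-z.1 - z.2))) (w.nonneg z.1)
      (w1.nonneg (-z.1 - z.2 - ρ / 2)) (w1.nonneg (-z.1 - z.2 + ρ / 2)) (w.nonneg z.2)
    have at1 := wt_atom S ρ
    unfold hat at at1
    have at2 : ∀ l, (mid (ρ / 2) (wt S (trap ρ ρ)) (-z.1 - z.2 - ρ / 2) l +
        mid (ρ / 2) (wt S (trap ρ ρ)) (-z.1 - z.2 + ρ / 2) l) / 2 =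
        wt S (trap (2 * ρ) (2 * ρ)) (-z.1 - z.2) l := fun l => by
      rw [← wt_trap_two]; exact congrFun (mid_mid _ _ _) l
    simp only [at1, at2, ← hu] at t
    refine le_trans (le_of_eq ?_) (t.trans (add_le_add_right ?_ _))
    · simp only
      congr 1
      rw [sum_comm]
      refine sum_congr rfl fun j _ => sum_congr rfl fun i _ => sum_congr rfl fun l _ => ?_
      simp only [mat, of_apply, wt, hu]; ring
    · rw [sum_comm, sum_mul]
      refine sum_le_sum fun i _ => ?_
      rw [sum_mul]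
      refine sum_le_sum fun j _ => ?_
      by_cases hj : wt S u z.1 j = 0
      · have : avg u ((j : ℤ) - z.1) = 0 := hj
        simp [hj, this]
      by_cases hi : wt S u z.2 i = 0
      · have : avg u ((i : ℤ) - z.2) = 0 := hi
        simp [hi, this]
      have si := wt_supp S h1 h2 hi
      have sj := wt_supp S h1 h2 hj
      have hq : ∀ l, wt S (trap (2 * ρ) (2 * ρ)) (-z.1 - z.2) l ≤
          (18 * 2 ^ m) * min 1 (1 / (2 * (18 * a))) := fun l => by
        refine (wt_le S h1 le_rfl _ l).trans ((min_scale h1 h2).trans (le_of_eq ?_))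
        congr 1; rw [hρdef]; field_simp
      have sq : ∀ l, wt S (trap (2 * ρ) (2 * ρ)) (-z.1 - z.2) l ≠ 0 →
          |((l : ℤ) : ℝ) - ((-i - j : ℤ) : ℝ)| ≤ 3 * (2 * (18 * a) + 1) := fun l hl => by
        have := wt_supp S h1 le_rfl hl
        push_cast
        rw [abs_le] at *; constructor <;> linarith [this.1, this.2, sj.1, sj.2, si.1, si.2]
      have r1 := Hb.two (wt S u z.1) (wt S (trap (2 * ρ) (2 * ρ)) (-z.1 - z.2)) (β := 1) (D := 2)
        (r := 2 * (18 * a))
        zero_le_one (by positivity) (by norm_num) (by norm_num) (by positivity) (by positivity)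
        (w.nonneg _) (fun i => by rw [one_mul]; exact wt_le S h1 h2 _ i) hq j (-i - j)
        (fun j' hj' => by
          have := wt_supp S h1 h2 hj'
          rw [abs_le] at *; constructor <;> linarith [this.1, this.2, sj.1, sj.2]) sq
      have r2 := Hc.two (wt S u z.2) (wt S (trap (2 * ρ) (2 * ρ)) (-z.1 - z.2)) (β := 1) (D := 2)
        (r := 2 * (18 * a))
        zero_le_one (by positivity) (by norm_num) (by norm_num) (by positivity) (by positivity)
        (w.nonneg _) (fun i => by rw [one_mul]; exact wt_le S h1 h2 _ i) hq i (-i - j)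
        (fun j' hj' => by
          have := wt_supp S h1 h2 hj'
          rw [abs_le] at *; constructor <;> linarith [this.1, this.2, si.1, si.2]) sq
      have g1 := Hb.nonneg j (-i - j)
      have g2 := Hc.nonneg i (-i - j)
      have pw : (2 : ℝ) ^ m ≤ ((3 / 2) ^ m) ^ 2 := by
        rw [← pow_mul, mul_comm, pow_mul]; exact pow_le_pow_left₀ (by norm_num) (by norm_num) m
      have t1 : Real.sqrt (∑ i, ∑ j, wt S u z.1 i * wt S (trap (2 * ρ) (2 * ρ)) (-z.1 - z.2) j *
          mat S b i j ^ 2) ≤ 55 * (3 / 2) ^ m * gb j (-i - j) := by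
        refine Real.sqrt_le_iff.2 ⟨by positivity, r1.trans ?_⟩
        rw [mul_pow, mul_pow]
        exact mul_le_mul_of_nonneg_right (by nlinarith) (sq_nonneg _)
      have t2 : Real.sqrt (∑ j, ∑ l, wt S (trap (2 * ρ) (2 * ρ)) (-z.1 - z.2) j * wt S u z.2 l *
          mat S c j l ^ 2) ≤ 55 * (3 / 2) ^ m * gc i (-i - j) := by
        rw [sum_comm]
        simp only [mul_comm (wt S (trap (2 * ρ) (2 * ρ)) (-z.1 - z.2) _)]
        refine Real.sqrt_le_iff.2 ⟨by positivity, r2.trans ?_⟩
        rw [mul_pow, mul_pow]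
        exact mul_le_mul_of_nonneg_right (by nlinarith) (sq_nonneg _)
      refine (mul_le_mul_of_nonneg_left (add_le_add t1 t2)
        (mul_nonneg (sq_nonneg _) (mul_nonneg (w.nonneg _ _) (w.nonneg _ _)))).trans (le_of_eq ?_)
      simp only [hG, wt]; ring
  rw [integral_const_mul, integral_add (ig.const_mul _) iR, integral_const_mul,
    integral_finsetSum _ fun i _ => integrable_finsetSum _ fun j _ =>
      integrable_finsetSum _ fun l _ => (p1 i j l).1.const_mul _,
    integral_finsetSum _ fun i _ => integrable_finsetSum _ fun j _ => (p2 i j).1.const_mul _] at key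
  refine le_trans (le_of_eq ?_) (key.trans (add_le_add_right ?_ _))
  · congr 1
    refine sum_congr rfl fun i _ => ?_
    rw [integral_finsetSum _ fun j _ => integrable_finsetSum _ fun l _ => (p1 i j l).1.const_mul _]
    refine sum_congr rfl fun j _ => ?_
    rw [integral_finsetSum _ fun l _ => (p1 i j l).1.const_mul _]
    refine sum_congr rfl fun l _ => ?_
    rw [integral_const_mul, (p1 i j l).2]
  · rw [mul_sum]
    refine sum_le_sum fun i _ => ?_
    rw [integral_finsetSum _ fun j _ => (p2 i j).1.const_mul _, mul_sum]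
    refine sum_le_sum fun j _ => ?_
    rw [integral_const_mul]
    refine (mul_le_mul_of_nonneg_left (p2 i j).2 (G0 i j)).trans (le_of_eq ?_)
    simp only [hG]
    rw [show (3 / 4 : ℝ) = 3 / 2 / 2 by norm_num, div_pow (3 / 2 : ℝ)]
    ring

theorem atomStmt (hM : MaxStmt) : AtomStmt := by
  obtain ⟨C, hC, hS⟩ := exists_SM hM
  refine ⟨3 + 35640 * (2 + C), by positivity, fun n hn S a₀ ha K m d N hN hc hb hz hi h b c => ?_⟩
  obtain ⟨gb, Hb, cb⟩ := hS S b
  obtain ⟨gc, Hc, cc⟩ := hS S fun i j => c j i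
  rw [cube_swap S c] at cc
  have hn1 : (1 : ℝ) ≤ n := by exact_mod_cast hn
  set Λ := ∑ k ∈ range K, ∑ i ∈ S, ∑ j ∈ S, ∑ l ∈ S, h i j * b j l * c l i *
    conv (avg (avg (d k i j))) (avg (oddA (a₀ * 2 ^ k / 2 ^ m))) ((i + j + l : ℤ) : ℝ) with hΛ
  set T := cube S h + cube S b + cube S c with hT
  have c1 := cube_nonneg S h
  have c2 := cube_nonneg S b
  have c3 := cube_nonneg S c
  have y : ∑ i : S, ∑ j : S, h i j ^ 2 * (gb j (-i - j) + gc i (-i - j)) ≤ (2 + C) * T := by
    have a4 : ∑ i : S, ∑ j : S, h i j ^ 2 * (gb j (-i - j) + gc i (-i - j)) ≤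
        2 * ∑ i : S, ∑ j : S, |h i j| ^ 3 + ∑ i : S, ∑ j : S, gb j (-i - j) ^ 3 +
          ∑ i : S, ∑ j : S, gc i (-i - j) ^ 3 := by
      simp only [mul_sum, ← sum_add_distrib]
      refine sum_le_sum fun i _ => sum_le_sum fun j _ => ?_
      have g1 := Hb.nonneg j (-i - j)
      have g2 := Hc.nonneg i (-i - j)
      have y1 := young3 (abs_nonneg (h i j)) (abs_nonneg (h i j)) g1
      have y2 := young3 (abs_nonneg (h i j)) (abs_nonneg (h i j)) g2
      rw [← sq_abs]
      nlinarith [pow_nonneg (abs_nonneg (h i j)) 3, pow_nonneg g2 3, pow_nonneg g1 3]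
    have a5 := sum_reindex (S := S) cb (fun u => (u.2, -u.1 - u.2)) fun u v e => by
      simp only [Prod.mk.injEq] at e
      ext <;> omega
    have a6 := sum_reindex (S := S) cc (fun u => (u.1, -u.1 - u.2)) fun u v e => by
      simp only [Prod.mk.injEq] at e
      ext <;> omega
    have a7 : ∑ i : S, ∑ j : S, |h i j| ^ 3 = cube S h := mat_cube S h
    simp only at a5 a6
    rw [hT]
    nlinarith [mul_nonneg hC c1]
  have main : ∀ μ : ℝ, 2 * (μ * Λ) ≤ 3 * T + μ ^ 2 * (35640 * (3 / 4) ^ m * (n * ((2 + C) * T))) := by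
    intro μ
    have s := sum_le_sum (s := range K) fun k _ => atom_scale Hb Hc (fun i j => μ * h i j)
      (a := a₀ * 2 ^ k) (by positivity) m (d k) (fun i j => N k i j) (hc k) (hb k) (hz k) (hi k)
    have h2m : (1 : ℝ) ≤ 2 ^ m := one_le_pow₀ one_le_two
    have v2 := gapI_sum (fun _ => mat S b) (mat S c) (r := 18 * a₀) (ρ := a₀ / 2 ^ m)
      (by positivity) ((div_le_self ha.le h2m).trans (by linarith)) K
    simp only [sub_self, sum_const_zero, add_zero, mat_cube] at v2
    simp only [mul_assoc 18 a₀, div_mul_eq_mul_div a₀] at v2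
    rw [sum_add_distrib, ← mul_sum, ← mul_sum, ← mul_sum] at s
    have e1 : μ * Λ = ∑ k ∈ range K, ∑ i : S, ∑ j : S, ∑ l : S, μ * h i j * b j l * c l i *
        conv (avg (avg (d k i j))) (avg (oddA (a₀ * 2 ^ k / 2 ^ m))) (((i : ℤ) + j + l : ℤ) : ℝ) := by
      rw [hΛ, mul_sum]
      refine sum_congr rfl fun k _ => ?_
      rw [← sum_coe_sort S, mul_sum]
      refine sum_congr rfl fun i _ => ?_
      rw [← sum_coe_sort S, mul_sum]
      refine sum_congr rfl fun j _ => ?_
      rw [← sum_coe_sort S, mul_sum]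
      refine sum_congr rfl fun l _ => by ring
    have e2 : ∑ k ∈ range K, ∑ i : S, ∑ j : S, (N k i j : ℝ) *
        ((μ * h i j) ^ 2 * (gb j (-i - j) + gc i (-i - j))) ≤ μ ^ 2 * (n * ((2 + C) * T)) := by
      refine le_trans ?_ (mul_le_mul_of_nonneg_left (mul_le_mul_of_nonneg_left y (by positivity))
        (sq_nonneg μ))
      rw [sum_comm, mul_sum, mul_sum]
      refine sum_le_sum fun i _ => ?_
      rw [sum_comm, mul_sum, mul_sum]
      refine sum_le_sum fun j _ => ?_
      have g1 := Hb.nonneg j (-i - j)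
      have g2 := Hc.nonneg i (-i - j)
      have : ∑ k ∈ range K, (N k i j : ℝ) ≤ n := by exact_mod_cast hN i j
      rw [← sum_mul]
      exact (mul_le_mul_of_nonneg_right this (by positivity)).trans (le_of_eq (by ring))
    have e3 := mul_le_mul_of_nonneg_left e2 (show (0 : ℝ) ≤ 35640 * (3 / 4) ^ m by positivity)
    rw [e1, hT]
    rw [hT] at e3
    linarith
  set t := Real.sqrt n * (9 / 10) ^ m with ht
  have ht0 : 0 < t := by positivity
  have hT0 : 0 ≤ T := by positivity
  have b1 : (t⁻¹) ^ 2 * (35640 * (3 / 4) ^ m * (n * ((2 + C) * T))) ≤ 35640 * ((2 + C) * T) := by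
    have e : (t⁻¹) ^ 2 * (35640 * (3 / 4) ^ m * (n * ((2 + C) * T))) =
        ((3 / 4) / (9 / 10) ^ 2) ^ m * (35640 * ((2 + C) * T)) := by
      rw [ht, inv_pow, mul_pow, Real.sq_sqrt (by positivity), div_pow (3 / 4 : ℝ), ← pow_mul,
        ← pow_mul, mul_comm 2 m]
      field_simp
    rw [e]
    exact mul_le_of_le_one_left (by positivity) (pow_le_one₀ (by norm_num) (by norm_num))
  have m1 := main t⁻¹
  have m2 := main (-t⁻¹)
  rw [neg_sq] at m2
  have : |t⁻¹ * Λ| ≤ (3 + 35640 * (2 + C)) * T := by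
    have : 0 ≤ (2 + C) * T := by positivity
    rw [abs_le]; constructor <;> nlinarith
  rw [abs_mul, abs_of_pos (inv_pos.2 ht0), inv_mul_le_iff₀ ht0] at this
  refine this.trans (le_of_eq ?_)
  rw [ht]; ring

end Crest.Agent.R72.Core
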