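import Crest.Agent.R72.CoreAsmB

/-! Row 72: assembling the core inequality (`coreStmt_of`). -/

set_option autoImplicit false

namespace Crest.Agent.R72

open MeasureTheory Finset Crest.Agent.R72.Core

namespace Asm

lemma scale_split {f : ℝ → ℝ} (hf : Continuous f) {a₀ e R : ℝ} (ha : 0 < a₀) (he : a₀ < e)
    (heR : e < R) {K : ℕ} (hR : R ≤ a₀ * 2 ^ K) :
    (∀ k : ℕ, IntervalIntegrable (fun θ => (if e ≤ 2 * a₀ / θ * 2 ^ k ∧ 2 * a₀ / θ * 2 ^ k < R
      then (1 : ℝ) else 0) * f (1 / (2 * a₀ / θ * 2 ^ k)) / θ) volume 1 2) ∧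
    ∫ w in (1 / R)..(1 / e), f w / w = ∑ k ∈ range K, ∫ θ in (1 : ℝ)..2,
      (if e ≤ 2 * a₀ / θ * 2 ^ k ∧ 2 * a₀ / θ * 2 ^ k < R then (1 : ℝ) else 0) *
        f (1 / (2 * a₀ / θ * 2 ^ k)) / θ := by
  have he0 : 0 < e := ha.trans he
  have hR0 : 0 < R := he0.trans heR
  have hle : 1 / R ≤ 1 / e := one_div_le_one_div_of_le he0 heR.le
  set φ : ℝ → ℝ := (Set.Ioc (1 / R) (1 / e)).indicator fun w => f w / w with hφ
  have hii : IntervalIntegrable (fun w => f w / w) volume (1 / R) (1 / e) :=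
    ContinuousOn.intervalIntegrable (ContinuousOn.div hf.continuousOn continuousOn_id
      fun w hw => by
        rw [Set.uIcc_of_le hle] at hw
        exact (lt_of_lt_of_le (by positivity) hw.1).ne')
  have hφi : Integrable φ := (integrable_indicator_iff measurableSet_Ioc).2 hii.1
  set x : ℕ → ℝ := fun k => 1 / (a₀ * 2 ^ k) with hx
  have hx0 : ∀ k, 0 < x k := fun k => by simp only [hx]; positivity
  have hpt : ∀ (k : ℕ), ∀ θ ∈ Set.uIcc (1 : ℝ) 2, x (k + 1) * φ (θ * x (k + 1)) =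
      (if e ≤ 2 * a₀ / θ * 2 ^ k ∧ 2 * a₀ / θ * 2 ^ k < R then (1 : ℝ) else 0) *
        f (1 / (2 * a₀ / θ * 2 ^ k)) / θ := by
    intro k θ hθ
    rw [Set.uIcc_of_le one_le_two] at hθ
    have hθ0 : 0 < θ := lt_of_lt_of_le one_pos hθ.1
    have hr0 : 0 < 2 * a₀ / θ * 2 ^ k := by positivity
    have e1 : θ * x (k + 1) = 1 / (2 * a₀ / θ * 2 ^ k) := by
      simp only [hx]; field_simp; ring
    have hiff : θ * x (k + 1) ∈ Set.Ioc (1 / R) (1 / e) ↔
        e ≤ 2 * a₀ / θ * 2 ^ k ∧ 2 * a₀ / θ * 2 ^ k < R := by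
      rw [e1, Set.mem_Ioc, one_div_lt_one_div hR0 hr0, one_div_le_one_div hr0 he0, and_comm]
    by_cases h : e ≤ 2 * a₀ / θ * 2 ^ k ∧ 2 * a₀ / θ * 2 ^ k < R
    · rw [if_pos h, hφ, Set.indicator_of_mem (hiff.2 h), ← e1]
      have := (hx0 (k + 1)).ne'
      field_simp
    · rw [if_neg h, hφ, Set.indicator_of_notMem (fun h' => h (hiff.1 h'))]
      simp
  refine ⟨fun k => ?_, ?_⟩
  · have : IntervalIntegrable (fun θ => x (k + 1) * φ (θ * x (k + 1))) volume 1 2 :=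
      ((hφi.comp_mul_right' (hx0 (k + 1)).ne').const_mul _).intervalIntegrable
    exact this.congr fun θ hθ => hpt k θ (Set.uIoc_subset_uIcc hθ)
  · have h1 : ∫ w in (1 / R)..(1 / e), f w / w = ∫ w, φ w := by
      rw [intervalIntegral.integral_of_le hle, hφ, integral_indicator measurableSet_Ioc]
    have h2 : ∫ w in (x K)..(x 0), φ w = ∫ w, φ w := by
      refine intervalIntegral.integral_eq_integral_of_support_subset fun w hw => ?_
      have hw' : w ∈ Set.Ioc (1 / R) (1 / e) := Set.support_indicator_subset hw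
      refine ⟨lt_of_le_of_lt ?_ hw'.1, hw'.2.trans ?_⟩
      · exact one_div_le_one_div_of_le hR0 hR
      · simp only [hx, pow_zero, mul_one]
        exact one_div_le_one_div_of_le ha he.le
    have h3 := intervalIntegral.sum_integral_adjacent_intervals (f := φ) (μ := volume) (a := x)
      (n := K) fun k _ => hφi.intervalIntegrable
    rw [h1, ← h2, intervalIntegral.integral_symm, ← h3, ← Finset.sum_neg_distrib]
    refine Finset.sum_congr rfl fun k _ => ?_
    rw [← intervalIntegral.integral_symm, ← intervalIntegral.integral_congr (hpt k),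
      intervalIntegral.integral_const_mul, ← smul_eq_mul,
      intervalIntegral.smul_integral_comp_mul_right, one_mul]
    congr 1
    simp only [hx]; field_simp; ring

/-- the smooth part of the primitive -/
noncomputable def Mn (𝒦 : ℝ → ℝ) (g : Cfg) (t : ℝ) : ℝ :=
  ∑ j, g.sg j * ∫ w in (1 / g.R j)..(1 / g.ε j), 𝒦 (w * t) / w

lemma int_eq_max {e R : ℝ} (he : 0 < e) (heR : e < R) (u : ℝ → ℝ) :
    ∫ w in (1 / R)..(1 / e), u w / w = ∫ w in (1 / R)..(1 / e), (max w (1 / R))⁻¹ * u w := by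
  refine intervalIntegral.integral_congr fun w hw => ?_
  rw [Set.uIcc_of_le (one_div_le_one_div_of_le he heR.le)] at hw
  show u w / w = (max w (1 / R))⁻¹ * u w
  rw [max_eq_left hw.1, div_eq_inv_mul]

lemma continuous_G {𝒦 : ℝ → ℝ} (hc : Continuous 𝒦) {R : ℝ} (hR : 0 < R) :
    Continuous (Function.uncurry fun w t : ℝ => (max w (1 / R))⁻¹ * 𝒦 (w * t)) := by
  refine Continuous.mul (Continuous.inv₀ (by fun_prop) fun p => ?_) (by fun_prop)
  exact (lt_of_lt_of_le (by positivity) (le_max_right _ _)).ne'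

lemma continuous_piece {𝒦 : ℝ → ℝ} (hc : Continuous 𝒦) {e R : ℝ} (he : 0 < e) (heR : e < R) :
    Continuous fun t => ∫ w in (1 / R)..(1 / e), 𝒦 (w * t) / w := by
  simp_rw [int_eq_max he heR]
  exact continuous_integral_param (continuous_G hc (he.trans heR)) _ _

lemma pair_piece {𝒦 : ℝ → ℝ} (hc : Continuous 𝒦) {e R : ℝ} (he : 0 < e) (heR : e < R) (N : ℝ) :
    pair (fun t => ∫ w in (1 / R)..(1 / e), 𝒦 (w * t) / w) N =
      ∫ w in (1 / R)..(1 / e), pair (fun t => 𝒦 (w * t)) N / w := by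
  simp_rw [int_eq_max he heR]
  rw [pair_integral (continuous_G hc (he.trans heR))]
  simp_rw [pair_mul]

lemma continuous_Mn {𝒦 : ℝ → ℝ} (hc : Continuous 𝒦) (g : Cfg) : Continuous (Mn 𝒦 g) :=
  continuous_finsetSum _ fun j _ =>
    continuous_const.mul (continuous_piece hc (g.pos j).1 (g.pos j).2)

lemma sum_integral {ι : Type*} (T : Finset ι) {u : ι → ℝ → ℝ}
    (hu : ∀ i ∈ T, IntervalIntegrable (u i) volume 1 2) :
    IntervalIntegrable (fun θ => ∑ i ∈ T, u i θ) volume 1 2 ∧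
      ∑ i ∈ T, ∫ θ in (1 : ℝ)..2, u i θ = ∫ θ in (1 : ℝ)..2, ∑ i ∈ T, u i θ := by
  refine ⟨?_, (intervalIntegral.integral_finsetSum hu).symm⟩
  have e : (fun θ => ∑ i ∈ T, u i θ) = ∑ i ∈ T, u i := by
    ext θ
    simp
  rw [e]
  exact IntervalIntegrable.sum T hu

/-- the integrand after the dyadic splitting of the scales -/
noncomputable def U (𝒦 : ℝ → ℝ) (g : Cfg) (a₀ : ℝ) (K : ℕ) (N θ : ℝ) : ℝ :=
  (∑ k ∈ range K, sig g (2 * a₀ / θ * 2 ^ k) * pair (fun t => 𝒦 (t / (2 * a₀ / θ * 2 ^ k))) N) / θ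

lemma pair_Mn {𝒦 : ℝ → ℝ} (hc : Continuous 𝒦) (g : Cfg) {a₀ : ℝ} (ha : 0 < a₀) {K : ℕ}
    (h1 : ∀ j, a₀ < g.ε j) (h2 : ∀ j, g.R j ≤ a₀ * 2 ^ K) (N : ℝ) :
    IntervalIntegrable (U 𝒦 g a₀ K N) volume 1 2 ∧
      pair (Mn 𝒦 g) N = ∫ θ in (1 : ℝ)..2, U 𝒦 g a₀ K N θ := by
  set f : ℝ → ℝ := fun w => pair (fun t => 𝒦 (w * t)) N with hf
  have hfc : Continuous f :=
    continuous_pair_param (G := fun w t => 𝒦 (w * t)) (by unfold Function.uncurry; fun_prop) N
  have hs := fun j => scale_split hfc ha (h1 j) (g.pos j).2 (h2 j)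
  set T : Fin g.m → ℕ → ℝ → ℝ := fun j k θ =>
    (if g.ε j ≤ 2 * a₀ / θ * 2 ^ k ∧ 2 * a₀ / θ * 2 ^ k < g.R j then (1 : ℝ) else 0) *
      f (1 / (2 * a₀ / θ * 2 ^ k)) / θ with hT
  have eU : U 𝒦 g a₀ K N = fun θ => ∑ j, g.sg j * ∑ k ∈ range K, T j k θ := by
    ext θ
    unfold U sig
    simp_rw [Finset.mul_sum]
    rw [Finset.sum_comm, Finset.sum_div]
    refine Finset.sum_congr rfl fun k _ => ?_
    rw [Finset.sum_mul, Finset.sum_div]
    refine Finset.sum_congr rfl fun j _ => ?_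
    have : (fun t => 𝒦 (t / (2 * a₀ / θ * 2 ^ k))) =
        fun t => 𝒦 (1 / (2 * a₀ / θ * 2 ^ k) * t) := by
      ext t; congr 1; ring
    rw [this]
    simp only [hT, hf]
    ring
  have hi : ∀ j, IntervalIntegrable (fun θ => ∑ k ∈ range K, T j k θ) volume 1 2 := fun j =>
    (sum_integral (range K) (u := fun k => T j k) fun k _ => (hs j).1 k).1
  have hi' : ∀ j ∈ (univ : Finset (Fin g.m)),
      IntervalIntegrable (fun θ => g.sg j * ∑ k ∈ range K, T j k θ) volume 1 2 :=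
    fun j _ => (hi j).const_mul _
  refine ⟨?_, ?_⟩
  · rw [eU]
    exact (sum_integral univ hi').1
  · rw [eU, intervalIntegral.integral_finsetSum hi']
    unfold Mn
    rw [pair_sum univ (u := fun j t => g.sg j * ∫ w in (1 / g.R j)..(1 / g.ε j), 𝒦 (w * t) / w)
      fun j _ => continuous_const.mul (continuous_piece hc (g.pos j).1 (g.pos j).2)]
    refine Finset.sum_congr rfl fun j _ => ?_
    rw [pair_mul, pair_piece hc (g.pos j).1 (g.pos j).2, intervalIntegral.integral_const_mul,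
      intervalIntegral.integral_finsetSum fun k _ => (hs j).1 k]
    congr 1
    exact (hs j).2

lemma sum3_integral (S : Finset ℤ) {u : ℤ → ℤ → ℤ → ℝ → ℝ}
    (hu : ∀ i ∈ S, ∀ j ∈ S, ∀ l ∈ S, IntervalIntegrable (u i j l) volume 1 2) :
    ∑ i ∈ S, ∑ j ∈ S, ∑ l ∈ S, ∫ θ in (1 : ℝ)..2, u i j l θ =
      ∫ θ in (1 : ℝ)..2, ∑ i ∈ S, ∑ j ∈ S, ∑ l ∈ S, u i j l θ := by
  rw [← (sum_integral S fun i hi => (sum_integral S fun j hj =>
    (sum_integral S fun l hl => hu i hi j hj l hl).1).1).2]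
  refine Finset.sum_congr rfl fun i hi => ?_
  rw [← (sum_integral S fun j hj => (sum_integral S fun l hl => hu i hi j hj l hl).1).2]
  refine Finset.sum_congr rfl fun j hj => ?_
  rw [← (sum_integral S fun l hl => hu i hi j hj l hl).2]

lemma exists_scale (S : Finset ℤ) (cfg : ℤ → ℤ → Cfg) :
    ∃ (a₀ : ℝ) (K : ℕ), 0 < a₀ ∧ ∀ i ∈ S, ∀ j ∈ S,
      (∀ q, a₀ < (cfg i j).ε q) ∧ ∀ q, (cfg i j).R q ≤ a₀ * 2 ^ K := by
  have : ∀ᶠ P : ℕ in Filter.atTop, ∀ i ∈ S, ∀ j ∈ S,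
      (∀ q, (1 / 2 : ℝ) ^ P < (cfg i j).ε q) ∧ ∀ q, (cfg i j).R q ≤ 2 ^ P := by
    refine (Filter.eventually_all_finset S).2 fun i _ => (Filter.eventually_all_finset S).2
      fun j _ => Filter.Eventually.and (Filter.eventually_all.2 fun q => ?_)
        (Filter.eventually_all.2 fun q => ?_)
    · exact (tendsto_pow_atTop_nhds_zero_of_lt_one (by norm_num) (by norm_num)).eventually_lt_const
        ((cfg i j).pos q).1
    · exact (tendsto_pow_atTop_atTop_of_one_lt one_lt_two).eventually_ge_atTop _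
  obtain ⟨P, hP⟩ := this.exists
  refine ⟨(1 / 2) ^ P, 2 * P, by positivity, fun i hi j hj => ⟨(hP i hi j hj).1, fun q => ?_⟩⟩
  refine ((hP i hi j hj).2 q).trans (le_of_eq ?_)
  rw [two_mul, pow_add, ← mul_assoc, ← mul_pow]
  norm_num

lemma cube_nonneg (S : Finset ℤ) (f : ℤ → ℤ → ℝ) : 0 ≤ cube S f :=
  Finset.sum_nonneg fun _ _ => Finset.sum_nonneg fun _ _ => by positivity

end Asm

open Asm

theorem coreStmt_of (hK : KernelStmt) (hM : MainStmt) (hE : ErrStmt) : CoreStmt := by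
  obtain ⟨c₀, L, 𝒦, Θ, hL, h𝒦, hΘ, h0, h2, hconv, hlg⟩ := hK
  obtain ⟨C₁, hC₁, hM⟩ := hM
  obtain ⟨C₂, hC₂, hE⟩ := hE
  have h𝒦c := continuous_of_lip h𝒦
  have hΘc := continuous_of_lip hΘ
  set D : ℝ := 1 + |c₀| * L + 30 * L with hD
  have hcL : 0 ≤ |c₀| * L := by positivity
  have hD0 : 0 < D := by positivity
  refine ⟨|c₀| * C₁ + 2 * D * C₂, by positivity, fun n hn S cfg hm h b c => ?_⟩
  obtain ⟨a₀, K, ha, hS⟩ := exists_scale S cfg
  set Q := cube S h + cube S b + cube S c with hQ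
  have hQ0 : 0 ≤ Q := add_nonneg (add_nonneg (cube_nonneg _ _) (cube_nonneg _ _)) (cube_nonneg _ _)
  set E : ℕ → ℤ → ℤ → ℝ → ℝ := fun k i j t => D⁻¹ * Eb Θ (cfg i j) (a₀ * 2 ^ k) t with hEd
  -- the decomposition
  have hdec : ∀ i ∈ S, ∀ j ∈ S, ∀ N, pair (cfg i j).prim N =
      c₀ * pair (Mn 𝒦 (cfg i j)) N + D * ∑ k ∈ range K, pair (E k i j) N := by
    intro i hi j hj N
    have e : (cfg i j).prim = fun t => c₀ * Mn 𝒦 (cfg i j) t +
        ∑ k ∈ range K, Eb Θ (cfg i j) (a₀ * 2 ^ k) t := by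
      ext t
      rw [sum_Eb Θ _ ha (hS i hi j hj).1 (hS i hi j hj).2, Cfg.prim, Mn, Finset.mul_sum,
        ← Finset.sum_add_distrib]
      refine Finset.sum_congr rfl fun q _ => ?_
      rw [hlg _ _ ((cfg i j).pos q).1 ((cfg i j).pos q).2.le]
      ring
    rw [e, pair_add (u := fun t => c₀ * Mn 𝒦 (cfg i j) t)
      (continuous_const.mul (continuous_Mn h𝒦c _))
      (continuous_finsetSum _ fun k _ => continuous_Eb hΘc _ _), pair_mul,
      pair_sum _ fun k _ => continuous_Eb hΘc _ _, Finset.mul_sum]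
    congr 1
    refine Finset.sum_congr rfl fun k _ => ?_
    simp only [hEd]
    rw [pair_mul, ← mul_assoc, mul_inv_cancel₀ hD0.ne', one_mul]
  -- the error part
  have herr := hE (2 * n) (by omega) S a₀ ha K E (fun k i j => Nb (cfg i j) (a₀ * 2 ^ k))
    (fun i j => (sum_Nb_le _ ha K).trans (Nat.mul_le_mul_left 2 (hm i j)))
    (fun k i j hN x => by simp only [hEd]; rw [Eb_of_Nb Θ _ _ hN, mul_zero])
    (fun k i j x y => by
      have hak : 0 < a₀ * 2 ^ k := by positivity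
      have := Eb_lip hL h𝒦 hΘ hlg (cfg i j) hak x y
      have h3 : 0 ≤ |x - y| / (a₀ * 2 ^ k) := by positivity
      simp only [hEd]
      rw [← mul_sub, abs_mul, abs_of_pos (inv_pos.2 hD0), inv_mul_le_iff₀ hD0]
      refine this.trans (mul_le_mul_of_nonneg_right ?_ h3)
      rw [hD]; linarith)
    (fun k i j x hx => by
      simp only [hEd]; rw [Eb_supp h0 _ (by positivity) hx, mul_zero])
    (fun k i j t ht hta => by
      have hak : 0 < a₀ * 2 ^ k := by positivity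
      have := Eb_D2 hL hΘc h0 h2 (cfg i j) hak ht hta
      have e : ∀ x, |E k i j (x + t) + E k i j (x - t) - 2 * E k i j x| =
          D⁻¹ * |Eb Θ (cfg i j) (a₀ * 2 ^ k) (x + t) + Eb Θ (cfg i j) (a₀ * 2 ^ k) (x - t) -
            2 * Eb Θ (cfg i j) (a₀ * 2 ^ k) x| := fun x => by
        rw [← abs_of_pos (inv_pos.2 hD0), ← abs_mul]
        congr 1
        simp only [hEd]
        ring
      simp_rw [e]
      rw [integral_const_mul, inv_mul_le_iff₀ hD0]
      refine this.trans ?_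
      have h3 : 0 ≤ (Nb (cfg i j) (a₀ * 2 ^ k) : ℝ) * t ^ 2 / (a₀ * 2 ^ k) := by positivity
      calc _ = 28 * L * ((Nb (cfg i j) (a₀ * 2 ^ k) : ℝ) * t ^ 2 / (a₀ * 2 ^ k)) := by ring
        _ ≤ _ := mul_le_mul_of_nonneg_right (by rw [hD]; linarith) h3) h b c
  -- the main part
  have hmain : |∑ i ∈ S, ∑ j ∈ S, ∑ l ∈ S, h i j * b j l * c l i *
      pair (Mn 𝒦 (cfg i j)) ((i + j + l : ℤ) : ℝ)| ≤ C₁ * Real.sqrt n * Q := by
    have hU := fun i hi j hj N => pair_Mn h𝒦c (cfg i j) ha (hS i hi j hj).1 (hS i hi j hj).2 N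
    have e : ∑ i ∈ S, ∑ j ∈ S, ∑ l ∈ S, h i j * b j l * c l i *
        pair (Mn 𝒦 (cfg i j)) ((i + j + l : ℤ) : ℝ) = ∫ θ in (1 : ℝ)..2,
          ∑ i ∈ S, ∑ j ∈ S, ∑ l ∈ S, h i j * b j l * c l i *
            U 𝒦 (cfg i j) a₀ K ((i + j + l : ℤ) : ℝ) θ := by
      rw [← sum3_integral S fun i hi j hj l _ => (hU i hi j hj _).1.const_mul _]
      refine Finset.sum_congr rfl fun i hi => Finset.sum_congr rfl fun j hj =>
        Finset.sum_congr rfl fun l _ => ?_
      rw [(hU i hi j hj _).2, intervalIntegral.integral_const_mul]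
    rw [e, ← Real.norm_eq_abs]
    refine (intervalIntegral.norm_integral_le_of_norm_le_const (C := C₁ * Real.sqrt n * Q)
      fun θ hθ => ?_).trans (by norm_num)
    rw [Set.uIoc_of_le one_le_two] at hθ
    have hθ0 : 0 < θ := one_pos.trans hθ.1
    have hr : 0 < 2 * a₀ / θ := by positivity
    have hmono : Monotone fun k : ℕ => 2 * a₀ / θ * 2 ^ k := fun k k' hk =>
      mul_le_mul_of_nonneg_left (pow_le_pow_right₀ one_le_two hk) hr.le
    have := hM n hn S (2 * a₀ / θ) hr K (fun k i j => sig (cfg i j) (2 * a₀ / θ * 2 ^ k))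
      (fun k i j => abs_sig_le _ _)
      (fun i j => (var_sig (cfg i j) hmono K).trans (by
        have : ((cfg i j).m : ℝ) ≤ n := by exact_mod_cast hm i j
        linarith)) h b c
    have e2 : ∑ i ∈ S, ∑ j ∈ S, ∑ l ∈ S, h i j * b j l * c l i *
        U 𝒦 (cfg i j) a₀ K ((i + j + l : ℤ) : ℝ) θ =
        (∑ k ∈ range K, ∑ i ∈ S, ∑ j ∈ S, ∑ l ∈ S, h i j * b j l * c l i *
          (sig (cfg i j) (2 * a₀ / θ * 2 ^ k) * conv (avg (oddA (2 * a₀ / θ * 2 ^ k)))
            (conv (avg (oddA (2 * a₀ / θ * 2 ^ k))) (avg (oddA (2 * a₀ / θ * 2 ^ k))))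
              ((i + j + l : ℤ) : ℝ))) / θ := by
      rw [Finset.sum_comm (s := range K), Finset.sum_div]
      refine Finset.sum_congr rfl fun i _ => ?_
      rw [Finset.sum_comm (s := range K), Finset.sum_div]
      refine Finset.sum_congr rfl fun j _ => ?_
      rw [Finset.sum_comm (s := range K), Finset.sum_div]
      refine Finset.sum_congr rfl fun l _ => ?_
      have hc' : ∀ k : ℕ, ∀ N, conv (avg (oddA (2 * a₀ / θ * 2 ^ k)))
          (conv (avg (oddA (2 * a₀ / θ * 2 ^ k))) (avg (oddA (2 * a₀ / θ * 2 ^ k)))) N =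
          pair (fun t => 𝒦 (t / (2 * a₀ / θ * 2 ^ k))) N := fun k => hconv _ (by positivity)
      simp only [hc']
      rw [U, ← Finset.mul_sum]
      ring
    rw [e2, Real.norm_eq_abs, abs_div, abs_of_pos hθ0]
    exact (div_le_self (abs_nonneg _) hθ.1.le).trans this
  have etot : ∑ i ∈ S, ∑ j ∈ S, ∑ l ∈ S, h i j * b j l * c l i *
      pair (cfg i j).prim ((i + j + l : ℤ) : ℝ) =
      c₀ * (∑ i ∈ S, ∑ j ∈ S, ∑ l ∈ S, h i j * b j l * c l i *
        pair (Mn 𝒦 (cfg i j)) ((i + j + l : ℤ) : ℝ)) +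
      D * (∑ k ∈ range K, ∑ i ∈ S, ∑ j ∈ S, ∑ l ∈ S, h i j * b j l * c l i *
        pair (E k i j) ((i + j + l : ℤ) : ℝ)) := by
    rw [Finset.sum_comm (s := range K), Finset.mul_sum, Finset.mul_sum, ← Finset.sum_add_distrib]
    refine Finset.sum_congr rfl fun i hi => ?_
    rw [Finset.sum_comm (s := range K), Finset.mul_sum, Finset.mul_sum, ← Finset.sum_add_distrib]
    refine Finset.sum_congr rfl fun j hj => ?_
    rw [Finset.sum_comm (s := range K), Finset.mul_sum, Finset.mul_sum, ← Finset.sum_add_distrib]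
    refine Finset.sum_congr rfl fun l _ => ?_
    rw [hdec i hi j hj, ← Finset.mul_sum]
    ring
  rw [etot]
  have hs0 : 0 ≤ Real.sqrt n := Real.sqrt_nonneg _
  have hs2 : Real.sqrt ((2 * n : ℕ) : ℝ) ≤ 2 * Real.sqrt n := by
    rw [Real.sqrt_le_left (by positivity), mul_pow, Real.sq_sqrt (Nat.cast_nonneg _)]
    push_cast
    have : (0 : ℝ) ≤ n := Nat.cast_nonneg _
    linarith
  have k1 := (le_abs_self _).trans (le_of_eq (abs_mul c₀ _)) |>.trans
    (mul_le_mul_of_nonneg_left hmain (abs_nonneg c₀))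
  have k2 := mul_le_mul_of_nonneg_left (((le_abs_self _).trans herr).trans
    (mul_le_mul_of_nonneg_right (mul_le_mul_of_nonneg_left hs2 hC₂.le) hQ0)) hD0.le
  calc _ ≤ |c₀| * (C₁ * Real.sqrt n * Q) + D * (C₂ * (2 * Real.sqrt n) * Q) := add_le_add k1 k2
    _ = _ := by ring

end Crest.Agent.R72
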