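import Mathlib

/-! Row 72 (triangular Hilbert transform): shared definitions and the interface statements. -/

set_option autoImplicit false

namespace Crest.Agent.R72

open MeasureTheory Finset

/-- A finite family of pairwise disjoint annuli with signs. -/
structure Cfg where
  m : ℕ
  ε : Fin m → ℝ
  R : Fin m → ℝ
  sg : Fin m → ℝ
  pos : ∀ j, 0 < ε j ∧ ε j < R j
  disj : ∀ i j, i ≠ j → R i ≤ ε j ∨ R j ≤ ε i
  sg_le : ∀ j, |sg j| ≤ 1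

/-- The primitive (vanishing at infinity) of the kernel `1{ε < |t| < R} / t`. -/
noncomputable def lg (ε R t : ℝ) : ℝ := Real.log (max ε |t|) - Real.log (max R |t|)

/-- The primitive of the signed sum of the truncated kernels of a family. -/
noncomputable def Cfg.prim (c : Cfg) (t : ℝ) : ℝ := ∑ j, c.sg j * lg (c.ε j) (c.R j) t

/-- Average over the unit cell. -/
noncomputable def avg (u : ℝ → ℝ) (s : ℝ) : ℝ := ∫ y in (0 : ℝ)..1, u (s + y)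

/-- If `Ψ' = K` this is `∫_{[0,1]^3} K (N + y₀ + y₁ + y₂)`. -/
noncomputable def pair (Ψ : ℝ → ℝ) (N : ℝ) : ℝ := avg (avg (fun s => Ψ (s + 1) - Ψ s)) N

/-- Convolution on the line. -/
noncomputable def conv (u v : ℝ → ℝ) (t : ℝ) : ℝ := ∫ x, u x * v (t - x)

/-- The trapezoid `w_r * w_ρ` (`w_r` the normalised box of width `r`), for `0 < ρ ≤ r`. -/
noncomputable def trap (r ρ y : ℝ) : ℝ :=
  (|y + (r + ρ) / 2| + |y - (r + ρ) / 2| - |y + (r - ρ) / 2| - |y - (r - ρ) / 2|) / (2 * r * ρ)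

/-- The normalised hat function `max (1 - |y|/r) 0 / r`. -/
noncomputable def hat (r y : ℝ) : ℝ := trap r r y

/-- The odd atom. -/
noncomputable def oddA (r y : ℝ) : ℝ := (hat r (y + r) - hat r (y - r)) / 4

/-- sum of cubes of absolute values -/
noncomputable def cube (S : Finset ℤ) (f : ℤ → ℤ → ℝ) : ℝ := ∑ i ∈ S, ∑ j ∈ S, |f i j| ^ 3

/-- The discrete core inequality. -/
def CoreStmt : Prop :=
  ∃ C : ℝ, 0 < C ∧ ∀ (n : ℕ), 1 ≤ n → ∀ (S : Finset ℤ) (cfg : ℤ → ℤ → Cfg),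
    (∀ i j, (cfg i j).m ≤ n) → ∀ h b c : ℤ → ℤ → ℝ,
      ∑ i ∈ S, ∑ j ∈ S, ∑ l ∈ S, h i j * b j l * c l i * pair (cfg i j).prim ((i + j + l : ℤ) : ℝ) ≤
        C * Real.sqrt n * (cube S h + cube S b + cube S c)

/-- The discrete Hardy--Littlewood maximal inequality on `ℓ^{3/2}(ℤ)`, written for `f ^ 2`. -/
def MaxStmt : Prop :=
  ∃ C : ℝ, 0 ≤ C ∧ ∀ (S : Finset ℤ) (f : ℤ → ℝ), ∃ g : ℤ → ℝ, (∀ i, 0 ≤ g i) ∧
    (∀ (i : ℤ) (R : ℕ), ∑ j ∈ S.filter (fun j => |j - i| ≤ (R : ℤ)), f j ^ 2 ≤ (2 * R + 1) * g i ^ 2) ∧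
    ∀ T : Finset ℤ, ∑ i ∈ T, g i ^ 3 ≤ C * ∑ j ∈ S, |f j| ^ 3

/-- Facts on the smooth truncations: `𝒦` is the primitive of `oddA 1 * oddA 1 * oddA 1`,
`c = -1 / 𝒦 0`, `Θ v = log (max 1 |v|) - c ∫₀¹ (𝒦 (θ v) - 𝒦 0) / θ dθ - const`. -/
def KernelStmt : Prop :=
  ∃ (c L : ℝ) (𝒦 Θ : ℝ → ℝ), 0 ≤ L ∧
    (∀ x y, |𝒦 x - 𝒦 y| ≤ L * |x - y|) ∧ (∀ x y, |Θ x - Θ y| ≤ L * |x - y|) ∧
    (∀ v, 6 ≤ |v| → Θ v = 0) ∧
    (∀ v h, -(L * h ^ 2) ≤ Θ (v + h) + Θ (v - h) - 2 * Θ v) ∧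
    (∀ r, 0 < r → ∀ N, conv (avg (oddA r)) (conv (avg (oddA r)) (avg (oddA r))) N =
      pair (fun t => 𝒦 (t / r)) N) ∧
    (∀ ε R, 0 < ε → ε ≤ R → ∀ t,
      lg ε R t = c * (∫ w in (1 / R)..(1 / ε), 𝒦 (w * t) / w) + Θ (t / ε) - Θ (t / R))

/-- Discrete Haar sign: the interval `[n 2^(k+1), (n+1) 2^(k+1))` of unit cells. -/
def hs (k n i : ℕ) : ℝ := if i / 2 ^ k = 2 * n then 1 else if i / 2 ^ k = 2 * n + 1 then -1 else 0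

/-- The discrete dyadic inequality. -/
def DyadicStmt : Prop :=
  ∀ (N : ℕ) (a b c : ℕ → ℕ → ℝ),
    ∑ k ∈ range N, ∑ n₀ ∈ range (2 ^ N), ∑ n₁ ∈ range (2 ^ N),
      |(1 / 2 ^ (k + 1) : ℝ) * ∑ i ∈ range (2 ^ N), ∑ j ∈ range (2 ^ N), ∑ l ∈ range (2 ^ N),
        a i j * b j l * c l i * (hs k n₀ i * hs k n₁ j * hs k (n₀ ^^^ n₁) l)| ≤
      4 * (∑ i ∈ range (2 ^ N), ∑ j ∈ range (2 ^ N), |a i j| ^ 3 +
        ∑ i ∈ range (2 ^ N), ∑ j ∈ range (2 ^ N), |b i j| ^ 3 +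
        ∑ i ∈ range (2 ^ N), ∑ j ∈ range (2 ^ N), |c i j| ^ 3)

end Crest.Agent.R72
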