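import Crest.Agent.R72.Plane
import Crest.Agent.R72.Defs

/-! Row 72: trapezoid weights. -/

set_option autoImplicit false
set_option linter.unusedSectionVars false
set_option linter.unusedSimpArgs false

namespace Crest.Agent.R72.Core

open Finset MeasureTheory

lemma continuous_trap (r ρ : ℝ) : Continuous (trap r ρ) := by
  unfold trap; fun_prop

variable {r ρ : ℝ}

lemma trap_num (hρ : 0 < ρ) (h : ρ ≤ r) (y : ℝ) :
    0 ≤ |y + (r + ρ) / 2| + |y - (r + ρ) / 2| - |y + (r - ρ) / 2| - |y - (r - ρ) / 2| ∧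
    |y + (r + ρ) / 2| + |y - (r + ρ) / 2| - |y + (r - ρ) / 2| - |y - (r - ρ) / 2| ≤ 2 * ρ := by
  rcases abs_cases (y + (r + ρ) / 2) with ⟨h1, _⟩ | ⟨h1, _⟩ <;>
  rcases abs_cases (y - (r + ρ) / 2) with ⟨h2, _⟩ | ⟨h2, _⟩ <;>
  rcases abs_cases (y + (r - ρ) / 2) with ⟨h3, _⟩ | ⟨h3, _⟩ <;>
  rcases abs_cases (y - (r - ρ) / 2) with ⟨h4, _⟩ | ⟨h4, _⟩ <;>
  rw [h1, h2, h3, h4] <;> constructor <;> linarith

lemma trap_nonneg (hρ : 0 < ρ) (h : ρ ≤ r) (y : ℝ) : 0 ≤ trap r ρ y :=
  div_nonneg (trap_num hρ h y).1 (by have := hρ.trans_le h; positivity)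

lemma trap_le (hρ : 0 < ρ) (h : ρ ≤ r) (y : ℝ) : trap r ρ y ≤ 1 / r := by
  have hr := hρ.trans_le h
  rw [trap, div_le_div_iff₀ (by positivity) hr]
  nlinarith [(trap_num hρ h y).2]

lemma trap_zero' (hρ : 0 < ρ) (h : ρ ≤ r) {y : ℝ} (hy : (r + ρ) / 2 ≤ |y|) : trap r ρ y = 0 := by
  rw [trap, div_eq_zero_iff]; left
  rcases le_abs.1 hy with hy | hy
  · rw [abs_of_nonneg, abs_of_nonneg, abs_of_nonneg, abs_of_nonneg] <;> linarith
  · rw [abs_of_nonpos, abs_of_nonpos, abs_of_nonpos, abs_of_nonpos] <;> linarith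

lemma trap_zero (hρ : 0 < ρ) (h : ρ ≤ r) {y : ℝ} (hy : r ≤ |y|) : trap r ρ y = 0 :=
  trap_zero' hρ h (by linarith)

lemma trap_flat (hρ : 0 < ρ) (h : ρ ≤ r) {y : ℝ} (hy : |y| ≤ (r - ρ) / 2) : trap r ρ y = 1 / r := by
  have hr := hρ.trans_le h
  have := abs_le.1 hy
  rw [trap, abs_of_nonneg, abs_of_nonpos, abs_of_nonneg, abs_of_nonpos] <;> try linarith
  field_simp; ring

lemma trap_two (r ρ y : ℝ) : trap (2 * r) (2 * ρ) y =
    ((trap r ρ (y - r / 2 - ρ / 2) + trap r ρ (y - r / 2 + ρ / 2)) / 2 +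
      (trap r ρ (y + r / 2 - ρ / 2) + trap r ρ (y + r / 2 + ρ / 2)) / 2) / 2 := by
  unfold trap
  ring_nf

lemma compact_of_zero {u : ℝ → ℝ} (L : ℝ) (h : ∀ y, L ≤ |y| → u y = 0) : HasCompactSupport u :=
  HasCompactSupport.intro (isCompact_closedBall (0 : ℝ) L) fun z hz => h z (by
    rw [Metric.mem_closedBall, dist_zero_right, not_le] at hz; exact hz.le)

lemma integrable_of_zero {u : ℝ → ℝ} (hu : Continuous u) (L : ℝ) (h : ∀ y, L ≤ |y| → u y = 0) :
    Integrable u := hu.integrable_of_hasCompactSupport (compact_of_zero L h)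

lemma integral_eq_of_zero {u : ℝ → ℝ} {L : ℝ} (h : ∀ y, L ≤ |y| → u y = 0) :
    ∫ y, u y = ∫ y in (-L)..L, u y := by
  symm
  refine intervalIntegral.integral_eq_integral_of_support_subset fun y hy => ?_
  by_contra hc
  refine hy (h y ?_)
  rw [Set.mem_Ioc, not_and_or, not_lt, not_le] at hc
  rcases hc with hc | hc
  · exact le_abs.2 (Or.inr (by linarith))
  · exact le_abs.2 (Or.inl hc.le)

lemma int_abs (c a b : ℝ) : ∫ y in a..b, |y + c| = ((b + c) * |b + c| - (a + c) * |a + c|) / 2 := by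
  rw [intervalIntegral.integral_comp_add_right (fun y => |y|)]
  have key : ∀ x : ℝ, ∫ y in (0 : ℝ)..x, |y| = x * |x| / 2 := by
    intro x
    rcases le_total 0 x with hx | hx
    · rw [intervalIntegral.integral_congr (g := fun y => y), integral_id, abs_of_nonneg hx]
      · ring
      · intro y hy; rw [Set.uIcc_of_le hx] at hy; exact abs_of_nonneg hy.1
    · rw [intervalIntegral.integral_congr (g := fun y => -y), intervalIntegral.integral_neg,
        integral_id, abs_of_nonpos hx]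
      · ring
      · intro y hy; rw [Set.uIcc_of_ge hx] at hy; exact abs_of_nonpos hy.2
  rw [← intervalIntegral.integral_interval_sub_left (a := 0)
    (continuous_abs.intervalIntegrable _ _) (continuous_abs.intervalIntegrable _ _), key, key]
  ring

lemma integral_trap (hρ : 0 < ρ) (h : ρ ≤ r) : ∫ y, trap r ρ y = 1 := by
  have hr := hρ.trans_le h
  rw [integral_eq_of_zero fun y hy => trap_zero hρ h hy]
  unfold trap
  simp only [sub_eq_add_neg _ ((r + ρ) / 2), sub_eq_add_neg _ ((r - ρ) / 2)]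
  have i : ∀ c : ℝ, IntervalIntegrable (fun y => |y + c|) volume (-r) r := fun c =>
    Continuous.intervalIntegrable (by fun_prop) _ _
  rw [intervalIntegral.integral_div, intervalIntegral.integral_sub, intervalIntegral.integral_sub,
    intervalIntegral.integral_add, int_abs, int_abs, int_abs, int_abs]
  · rw [abs_of_nonneg, abs_of_nonpos, abs_of_nonneg, abs_of_nonpos, abs_of_nonneg, abs_of_nonpos,
      abs_of_nonneg, abs_of_nonpos] <;> try linarith
    field_simp; ring
  · exact i _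
  · exact i _
  · exact (i _).add (i _)
  · exact i _
  · exact ((i _).add (i _)).sub (i _)
  · exact i _

/-! averaging -/

lemma continuous_avg {u : ℝ → ℝ} (hu : Continuous u) : Continuous (avg u) :=
  intervalIntegral.continuous_parametric_intervalIntegral_of_continuous'
    (f := fun s y => u (s + y)) (by fun_prop) 0 1

lemma avg_mono {u v : ℝ → ℝ} (hu : Continuous u) (hv : Continuous v) (h : ∀ y, u y ≤ v y) (s : ℝ) :
    avg u s ≤ avg v s :=
  intervalIntegral.integral_mono_on zero_le_one (Continuous.intervalIntegrable (by fun_prop) _ _)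
    (Continuous.intervalIntegrable (by fun_prop) _ _) fun _ _ => h _

lemma avg_const (c s : ℝ) : avg (fun _ => c) s = c := by simp [avg]

lemma avg_nonneg {u : ℝ → ℝ} (h : ∀ y, 0 ≤ u y) (s : ℝ) : 0 ≤ avg u s :=
  intervalIntegral.integral_nonneg zero_le_one fun _ _ => h _

lemma abs_avg_le {u : ℝ → ℝ} (s : ℝ) : |avg u s| ≤ avg (fun y => |u y|) s :=
  intervalIntegral.abs_integral_le_integral_abs zero_le_one

lemma avg_zero {u : ℝ → ℝ} {L : ℝ} (h : ∀ y, L ≤ |y| → u y = 0) {s : ℝ} (hs : L + 1 ≤ |s|) :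
    avg u s = 0 := by
  unfold avg
  rw [intervalIntegral.integral_congr (g := fun _ => 0)]
  · simp
  · intro y hy
    rw [Set.uIcc_of_le zero_le_one] at hy
    refine h _ ?_
    have := abs_sub (s + y) y
    rw [add_sub_cancel_right, abs_of_nonneg hy.1] at this
    linarith [hy.2]

lemma avg_eq (u : ℝ → ℝ) (s : ℝ) : avg u s = ∫ y in s..(s + 1), u y := by
  unfold avg
  rw [intervalIntegral.integral_comp_add_left u s, add_zero]

lemma avg_add {u v : ℝ → ℝ} (hu : Continuous u) (hv : Continuous v) (s : ℝ) :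
    avg (fun y => u y + v y) s = avg u s + avg v s :=
  intervalIntegral.integral_add (Continuous.intervalIntegrable (by fun_prop) _ _)
    (Continuous.intervalIntegrable (by fun_prop) _ _)

lemma avg_sub {u v : ℝ → ℝ} (hu : Continuous u) (hv : Continuous v) (s : ℝ) :
    avg (fun y => u y - v y) s = avg u s - avg v s :=
  intervalIntegral.integral_sub (Continuous.intervalIntegrable (by fun_prop) _ _)
    (Continuous.intervalIntegrable (by fun_prop) _ _)

lemma avg_mul (c : ℝ) (u : ℝ → ℝ) (s : ℝ) : avg (fun y => c * u y) s = c * avg u s :=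
  intervalIntegral.integral_const_mul _ _

lemma avg_div (c : ℝ) (u : ℝ → ℝ) (s : ℝ) : avg (fun y => u y / c) s = avg u s / c :=
  intervalIntegral.integral_div _ _

lemma avg_shift (u : ℝ → ℝ) (c s : ℝ) : avg (fun y => u (y + c)) s = avg u (s + c) := by
  unfold avg; congr 1; ext y; ring_nf

lemma avg_shift' (u : ℝ → ℝ) (c s : ℝ) : avg (fun y => u (y - c)) s = avg u (s - c) := by
  unfold avg; congr 1; ext y; ring_nf

lemma avg_sum {ι : Type*} (T : Finset ι) {u : ι → ℝ → ℝ} (hu : ∀ i ∈ T, Continuous (u i)) (s : ℝ) :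
    avg (fun y => ∑ i ∈ T, u i y) s = ∑ i ∈ T, avg (u i) s :=
  intervalIntegral.integral_finsetSum fun i hi =>
    Continuous.intervalIntegrable (by have := hu i hi; fun_prop) _ _

/-- Fubini for a window average -/
lemma integral_window {u : ℝ → ℝ} (hu : Continuous u) {L : ℝ} (h : ∀ y, L ≤ |y| → u y = 0)
    (α β : ℝ) (g : ℝ → ℝ) (hg : Continuous g) :
    ∫ s, g s * ∫ y in α..β, u (s + y) = ∫ y in α..β, ∫ s, g s * u (s + y) := by
  simp_rw [← intervalIntegral.integral_const_mul]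
  symm
  refine intervalIntegral_integral_swap ?_
  have hc : Continuous (Function.uncurry fun y s => g s * u (s + y)) := by
    unfold Function.uncurry; fun_prop
  have : IntegrableOn (Function.uncurry fun y s => g s * u (s + y))
      (Set.uIcc α β ×ˢ Set.Icc (-(|L| + |α| + |β|)) (|L| + |α| + |β|)) :=
    hc.continuousOn.integrableOn_compact (isCompact_uIcc.prod isCompact_Icc)
  rw [Measure.restrict_prod_eq_prod_univ]
  refine (this.mono_set (Set.prod_mono Set.uIoc_subset_uIcc le_rfl)).of_forall_sdiff_eq_zero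
    (measurableSet_uIoc.prod MeasurableSet.univ) ?_
  rintro ⟨y, s⟩ ⟨⟨hy, -⟩, hs⟩
  have hs' : ¬ s ∈ Set.Icc (-(|L| + |α| + |β|)) (|L| + |α| + |β|) := fun h' => hs ⟨hy, h'⟩
  rw [Set.mem_Icc, ← abs_le, not_le] at hs'
  have hy' : |y| ≤ |α| + |β| := by
    have := Set.uIoc_subset_uIcc hy
    have h1 := le_abs_self α
    have h2 := le_abs_self β
    have h3 := neg_abs_le α
    have h4 := neg_abs_le β
    have h5 := abs_nonneg α
    have h6 := abs_nonneg β
    rcases Set.mem_uIcc.1 this with h | h <;> rw [abs_le] <;> constructor <;> linarith [h.1, h.2]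
  have := abs_sub (s + y) y
  rw [add_sub_cancel_right] at this
  simp only [Function.uncurry]
  rw [h (s + y) (by linarith [le_abs_self L]), mul_zero]

lemma integral_avg {u : ℝ → ℝ} (hu : Continuous u) {L : ℝ} (h : ∀ y, L ≤ |y| → u y = 0) :
    ∫ s, avg u s = ∫ s, u s := by
  have := integral_window hu h 0 1 (fun _ => 1) continuous_const
  simp only [one_mul, integral_add_right_eq_self] at this
  simpa [avg] using this

lemma sum_avg_le {u : ℝ → ℝ} (hu : Integrable u) (h0 : ∀ y, 0 ≤ u y) (S : Finset ℤ) (a : ℝ) :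
    ∑ i ∈ S, avg u (i - a) ≤ ∫ y, u y := by
  have e : ∀ i : ℤ, avg u (i - a) = ∫ y in Set.Ioc ((i : ℝ) - a) (i - a + 1), u y := fun i => by
    rw [avg_eq, intervalIntegral.integral_of_le (by linarith)]
  simp_rw [e]
  rw [← integral_biUnion_finset S (fun i _ => measurableSet_Ioc) ?_ (fun i _ => hu.integrableOn)]
  · exact setIntegral_le_integral hu (Filter.Eventually.of_forall h0)
  · intro i _ j _ hij
    rw [Function.onFun, Set.Ioc_disjoint_Ioc]
    rcases lt_or_gt_of_ne hij with h | h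
    · have : (i : ℝ) + 1 ≤ j := by exact_mod_cast h
      exact (min_le_left _ _).trans (le_trans (by linarith) (le_max_right _ _))
    · have : (j : ℝ) + 1 ≤ i := by exact_mod_cast h
      exact (min_le_right _ _).trans (le_trans (by linarith) (le_max_left _ _))

/-- the weights of the unit cells -/
noncomputable def wt (S : Finset ℤ) (u : ℝ → ℝ) (a : ℝ) (i : S) : ℝ := avg u ((i : ℤ) - a)

/-- normalised admissible weights -/
structure Wt1 {m : Type*} [Fintype m] (p : ℝ → m → ℝ) : Prop extends Wt p where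
  sum_le : ∀ x, ∑ i, p x i ≤ 1
  int_le : ∀ i, ∫ x, p x i ≤ 1

lemma Wt1.zero {m : Type*} [Fintype m] [DecidableEq m] : Wt1 (0 : ℝ → m → ℝ) :=
  ⟨Wt.zero, fun _ => by simp, fun _ => by simp⟩

lemma wt1_trap (S : Finset ℤ) (hρ : 0 < ρ) (h : ρ ≤ r) : Wt1 (wt S (trap r ρ)) := by
  have hc := continuous_avg (continuous_trap r ρ)
  have hz : ∀ y, r ≤ |y| → trap r ρ y = 0 := fun y hy => trap_zero hρ h hy
  refine ⟨⟨continuous_pi fun i => ?_, fun x i => avg_nonneg (trap_nonneg hρ h) _,
    r + 1 + ∑ i ∈ S, |(i : ℝ)|, fun x hx => ?_⟩, fun x => ?_, fun i => ?_⟩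
  · unfold wt; fun_prop
  · ext i
    refine avg_zero hz ?_
    have h1 := single_le_sum (f := fun i : ℤ => |(i : ℝ)|) (fun _ _ => abs_nonneg _) i.2
    have h2 := abs_sub ((i : ℤ) : ℝ) (((i : ℤ) : ℝ) - x)
    rw [sub_sub_cancel] at h2
    linarith
  · unfold wt
    rw [sum_coe_sort S fun i : ℤ => avg (trap r ρ) (i - x), ← integral_trap hρ h]
    exact sum_avg_le (integrable_of_zero (continuous_trap r ρ) r hz) (trap_nonneg hρ h) S x
  · unfold wt
    rw [integral_sub_left_eq_self (avg (trap r ρ)), integral_avg (continuous_trap r ρ) hz,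
      integral_trap hρ h]

lemma wt_trap_two (S : Finset ℤ) (r ρ : ℝ) :
    mid (r / 2) (mid (ρ / 2) (wt S (trap r ρ))) = wt S (trap (2 * r) (2 * ρ)) := by
  ext x i
  have hc := continuous_trap r ρ
  have e : trap (2 * r) (2 * ρ) = fun y => ((trap r ρ (y - r / 2 - ρ / 2) +
      trap r ρ (y - r / 2 + ρ / 2)) / 2 + (trap r ρ (y + r / 2 - ρ / 2) +
        trap r ρ (y + r / 2 + ρ / 2)) / 2) / 2 := funext (trap_two r ρ)
  simp only [mid, wt]
  rw [e, avg_div, avg_add (by fun_prop) (by fun_prop), avg_div, avg_div,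
    avg_add (by fun_prop) (by fun_prop), avg_add (by fun_prop) (by fun_prop)]
  simp only [sub_sub, add_sub_assoc, add_assoc, avg_shift, avg_shift', sub_add]

lemma wt_atom (S : Finset ℤ) (ρ x : ℝ) (i : S) :
    (mid (ρ / 2) (wt S (hat ρ)) (x - ρ / 2) i - mid (ρ / 2) (wt S (hat ρ)) (x + ρ / 2) i) / 2 =
      avg (oddA ρ) ((i : ℤ) - x) := by
  have hc : Continuous (hat ρ) := continuous_trap ρ ρ
  unfold oddA
  rw [avg_div, avg_sub (by fun_prop) (by fun_prop), avg_shift, avg_shift']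
  simp only [mid, wt]
  ring_nf

lemma mid_mid {m : Type*} (h : ℝ) (q : ℝ → m → ℝ) (x : ℝ) :
    (fun i => (q (x - h) i + q (x + h) i) / 2) = mid h q x := by
  ext i; simp [mid, add_comm]

lemma wt_le (S : Finset ℤ) (hρ : 0 < ρ) (h : ρ ≤ r) (x : ℝ) (i : S) :
    wt S (trap r ρ) x i ≤ min 1 (1 / r) := by
  refine le_min ?_ ?_
  · have w := wt1_trap S hρ h
    exact (single_le_sum (fun j _ => w.nonneg x j) (mem_univ i)).trans (w.sum_le x)
  · exact (avg_mono (continuous_trap r ρ) continuous_const (trap_le hρ h) _).trans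
      (avg_const _ _).le

lemma wt_supp (S : Finset ℤ) (hρ : 0 < ρ) (h : ρ ≤ r) {x : ℝ} {i : S}
    (hi : wt S (trap r ρ) x i ≠ 0) : |((i : ℤ) : ℝ) - x| ≤ r + 1 := by
  by_contra hc
  exact hi (avg_zero (fun y hy => trap_zero hρ h hy) (not_le.1 hc).le)

end Crest.Agent.R72.Core
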