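import Crest.Agent.R72.Defs2
import Crest.Agent.R72.Weights

/-! Row 72: assembling the core inequality, part A (linearity of `pair`, disjoint intervals). -/

set_option autoImplicit false

namespace Crest.Agent.R72.Asm

open MeasureTheory Finset Crest.Agent.R72.Core

lemma pair_add {u v : ℝ → ℝ} (hu : Continuous u) (hv : Continuous v) (N : ℝ) :
    pair (fun t => u t + v t) N = pair u N + pair v N := by
  unfold pair
  have hu' : Continuous fun s => u (s + 1) - u s := by fun_prop
  have hv' : Continuous fun s => v (s + 1) - v s := by fun_prop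
  rw [← avg_add (continuous_avg hu') (continuous_avg hv')]
  congr 1
  ext s
  rw [← avg_add hu' hv']
  congr 1
  ext y
  ring

lemma pair_mul (c : ℝ) (u : ℝ → ℝ) (N : ℝ) : pair (fun t => c * u t) N = c * pair u N := by
  unfold pair
  rw [← avg_mul]
  congr 1
  ext s
  rw [← avg_mul]
  congr 1
  ext y
  ring

lemma pair_sum {ι : Type*} (T : Finset ι) {u : ι → ℝ → ℝ} (hu : ∀ i ∈ T, Continuous (u i))
    (N : ℝ) : pair (fun t => ∑ i ∈ T, u i t) N = ∑ i ∈ T, pair (u i) N := by
  unfold pair
  have hu' : ∀ i ∈ T, Continuous fun s => u i (s + 1) - u i s := fun i hi => by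
    have := hu i hi; fun_prop
  rw [← avg_sum T fun i hi => continuous_avg (hu' i hi)]
  congr 1
  ext s
  rw [← avg_sum T hu']
  congr 1
  ext y
  rw [Finset.sum_sub_distrib]

lemma continuous_avg_param {G : ℝ → ℝ → ℝ} (hG : Continuous (Function.uncurry G)) :
    Continuous (Function.uncurry fun w s => avg (G w) s) :=
  intervalIntegral.continuous_parametric_intervalIntegral_of_continuous'
    (f := fun (p : ℝ × ℝ) y => G p.1 (p.2 + y))
    (hG.comp (f := fun q : (ℝ × ℝ) × ℝ => (q.1.1, q.1.2 + q.2)) (by fun_prop)) 0 1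

lemma avg_integral {G : ℝ → ℝ → ℝ} (hG : Continuous (Function.uncurry G)) (α β s : ℝ) :
    avg (fun t => ∫ w in α..β, G w t) s = ∫ w in α..β, avg (G w) s := by
  unfold avg
  refine intervalIntegral_intervalIntegral_swap (F := fun y w => G w (s + y)) ?_
  have hc : Continuous (Function.uncurry fun y w => G w (s + y)) :=
    hG.comp (f := fun q : ℝ × ℝ => (q.2, s + q.1)) (by fun_prop)
  exact (hc.continuousOn.integrableOn_compact (isCompact_uIcc.prod isCompact_uIcc)).mono_set
    (Set.prod_mono Set.uIoc_subset_uIcc Set.uIoc_subset_uIcc)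

lemma continuous_diff {G : ℝ → ℝ → ℝ} (hG : Continuous (Function.uncurry G)) :
    Continuous (Function.uncurry fun w s => G w (s + 1) - G w s) :=
  (hG.comp (f := fun q : ℝ × ℝ => (q.1, q.2 + 1)) (by fun_prop)).sub hG

lemma continuous_pair_param {G : ℝ → ℝ → ℝ} (hG : Continuous (Function.uncurry G)) (N : ℝ) :
    Continuous fun w => pair (G w) N :=
  (continuous_avg_param (continuous_avg_param (continuous_diff hG))).comp
    (f := fun w : ℝ => (w, N)) (by fun_prop)

lemma continuous_integral_param {G : ℝ → ℝ → ℝ} (hG : Continuous (Function.uncurry G))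
    (α β : ℝ) : Continuous fun t => ∫ w in α..β, G w t :=
  intervalIntegral.continuous_parametric_intervalIntegral_of_continuous'
    (f := fun t w => G w t) (hG.comp (f := fun q : ℝ × ℝ => (q.2, q.1)) (by fun_prop)) α β

lemma pair_integral {G : ℝ → ℝ → ℝ} (hG : Continuous (Function.uncurry G)) (α β N : ℝ) :
    pair (fun t => ∫ w in α..β, G w t) N = ∫ w in α..β, pair (G w) N := by
  unfold pair
  rw [← avg_integral (continuous_avg_param (continuous_diff hG))]
  congr 1
  ext s
  rw [← avg_integral (continuous_diff hG)]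
  congr 1
  ext y
  have h1 : Continuous fun w => G w (y + 1) := hG.comp (f := fun w : ℝ => (w, y + 1)) (by fun_prop)
  have h2 : Continuous fun w => G w y := hG.comp (f := fun w : ℝ => (w, y)) (by fun_prop)
  rw [intervalIntegral.integral_sub (h1.intervalIntegrable _ _) (h2.intervalIntegrable _ _)]

/-- Increments of an antitone function over pairwise disjoint intervals. -/
lemma sum_disj_le {ι : Type*} [DecidableEq ι] (x y : ι → ℝ) (hxy : ∀ i, x i ≤ y i)
    (hd : ∀ i j, i ≠ j → y i ≤ x j ∨ y j ≤ x i) (G : ℝ → ℝ) (A : ℝ) (hA : ∀ i, A ≤ x i)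
    (hG : AntitoneOn G (Set.Ici A)) (s : Finset ι) :
    ∀ B, A ≤ B → (∀ i ∈ s, y i ≤ B) → ∑ i ∈ s, (G (x i) - G (y i)) ≤ G A - G B := by
  induction s using Finset.induction_on_max_value (fun i => x i + y i) with
  | empty =>
    intro B hB _
    have := hG (Set.mem_Ici.2 le_rfl) (Set.mem_Ici.2 hB) hB
    simp only [sum_empty]
    linarith
  | insert a s ha hmax ih =>
    intro B hB hy
    rw [Finset.sum_insert ha]
    have h1 := ih (x a) (hA a) fun i hi => by
      have hne : i ≠ a := fun h => ha (h ▸ hi)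
      have := hmax i hi
      have := hxy i
      have := hxy a
      rcases hd i a hne with h | h <;> linarith
    have h2 : G B ≤ G (y a) :=
      hG (Set.mem_Ici.2 ((hA a).trans (hxy a))) (Set.mem_Ici.2 hB) (hy a (mem_insert_self _ _))
    linarith

/-- At most one annulus contains a given radius. -/
lemma sum_ind_le (g : Cfg) (x : ℝ) :
    ∑ j, (if g.ε j ≤ x ∧ x < g.R j then (1 : ℝ) else 0) ≤ 1 := by
  classical
  rw [Finset.sum_boole]
  have : (univ.filter fun j => g.ε j ≤ x ∧ x < g.R j).card ≤ 1 := by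
    refine Finset.card_le_one.2 fun i hi j hj => ?_
    by_contra hne
    simp only [mem_filter] at hi hj
    rcases g.disj i j hne with h | h <;> linarith [hi.2.1, hi.2.2, hj.2.1, hj.2.2]
  exact_mod_cast this

lemma abs_sum_sg_le (g : Cfg) (u : Fin g.m → ℝ) (hu : ∀ j, 0 ≤ u j) :
    |∑ j, g.sg j * u j| ≤ ∑ j, u j := by
  refine (Finset.abs_sum_le_sum_abs _ _).trans (Finset.sum_le_sum fun j _ => ?_)
  rw [abs_mul, abs_of_nonneg (hu j)]
  nlinarith [g.sg_le j, hu j]

lemma abs_sum_sg_le' (g : Cfg) (u : Fin g.m → ℝ) :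
    |∑ j, g.sg j * u j| ≤ ∑ j, |u j| := by
  refine (Finset.abs_sum_le_sum_abs _ _).trans (Finset.sum_le_sum fun j _ => ?_)
  rw [abs_mul]
  nlinarith [g.sg_le j, abs_nonneg (u j)]

/-- The signs seen at radius `x`. -/
noncomputable def sig (g : Cfg) (x : ℝ) : ℝ :=
  ∑ j, g.sg j * (if g.ε j ≤ x ∧ x < g.R j then (1 : ℝ) else 0)

lemma abs_sig_le (g : Cfg) (x : ℝ) : |sig g x| ≤ 1 :=
  (abs_sum_sg_le g _ fun j => by split_ifs <;> norm_num).trans (sum_ind_le g x)

lemma var_step {r : ℕ → ℝ} (hr : Monotone r) (e : ℝ) (K : ℕ) :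
    ∑ k ∈ range K, |(if e ≤ r (k + 1) then (1 : ℝ) else 0) - (if e ≤ r k then (1 : ℝ) else 0)| ≤ 1 := by
  have h : ∀ k, |(if e ≤ r (k + 1) then (1 : ℝ) else 0) - (if e ≤ r k then (1 : ℝ) else 0)| =
      (if e ≤ r (k + 1) then (1 : ℝ) else 0) - (if e ≤ r k then (1 : ℝ) else 0) := fun k => by
    have := hr (Nat.le_succ k)
    refine abs_of_nonneg ?_
    split_ifs with h1 h2 h2
    · norm_num
    · norm_num
    · exact absurd (h2.trans this) h1
    · norm_num
  simp_rw [h]
  rw [Finset.sum_range_sub (fun k => if e ≤ r k then (1 : ℝ) else 0)]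
  split_ifs <;> norm_num

lemma var_sig (g : Cfg) {r : ℕ → ℝ} (hr : Monotone r) (K : ℕ) :
    ∑ k ∈ range K, |sig g (r (k + 1)) - sig g (r k)| ≤ 2 * g.m := by
  have e : ∀ j x, (if g.ε j ≤ x ∧ x < g.R j then (1 : ℝ) else 0) =
      (if g.ε j ≤ x then (1 : ℝ) else 0) - (if g.R j ≤ x then (1 : ℝ) else 0) := fun j x => by
    have := (g.pos j).2
    by_cases h1 : g.ε j ≤ x <;> by_cases h2 : g.R j ≤ x
    · simp [h1, h2, not_lt.2 h2]
    · simp [h1, h2, not_le.1 h2]
    · exact absurd (this.le.trans h2) h1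
    · simp [h1, h2]
  calc ∑ k ∈ range K, |sig g (r (k + 1)) - sig g (r k)|
      ≤ ∑ k ∈ range K, ∑ j,
          (|(if g.ε j ≤ r (k + 1) then (1 : ℝ) else 0) - (if g.ε j ≤ r k then (1 : ℝ) else 0)| +
          |(if g.R j ≤ r (k + 1) then (1 : ℝ) else 0) - (if g.R j ≤ r k then (1 : ℝ) else 0)|) := by
        refine Finset.sum_le_sum fun k _ => ?_
        unfold sig
        rw [← Finset.sum_sub_distrib]
        simp_rw [← mul_sub]
        refine (abs_sum_sg_le' g _).trans (Finset.sum_le_sum fun j _ => ?_)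
        rw [e, e]
        refine le_trans (le_of_eq ?_) (abs_sub _ _)
        congr 1
        ring
    _ = ∑ j, (∑ k ∈ range K,
          |(if g.ε j ≤ r (k + 1) then (1 : ℝ) else 0) - (if g.ε j ≤ r k then (1 : ℝ) else 0)| +
          ∑ k ∈ range K,
          |(if g.R j ≤ r (k + 1) then (1 : ℝ) else 0) - (if g.R j ≤ r k then (1 : ℝ) else 0)|) := by
        rw [Finset.sum_comm]
        simp_rw [Finset.sum_add_distrib]
    _ ≤ ∑ _j : Fin g.m, (2 : ℝ) := Finset.sum_le_sum fun j _ => by
        linarith [var_step hr (g.ε j) K, var_step hr (g.R j) K]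
    _ = 2 * g.m := by simp [mul_comm]

end Crest.Agent.R72.Asm
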