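import Crest.Agent.R72.CoreAsmA

/-! Row 72: assembling the core inequality, part B (the error blocks). -/

set_option autoImplicit false

namespace Crest.Agent.R72.Asm

open MeasureTheory Finset Crest.Agent.R72.Core

/-- indicator of the block `(a, 2a]` -/
noncomputable def blk (a x : ℝ) : ℝ := if a < x ∧ x ≤ 2 * a then 1 else 0

/-- the error kernel of the block `(a, 2a]` -/
noncomputable def Eb (Θ : ℝ → ℝ) (g : Cfg) (a t : ℝ) : ℝ :=
  ∑ j, g.sg j * (blk a (g.ε j) * Θ (t / g.ε j) - blk a (g.R j) * Θ (t / g.R j))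

/-- the number of endpoints in the block `(a, 2a]` -/
noncomputable def Nb (g : Cfg) (a : ℝ) : ℕ :=
  ∑ j, ((if a < g.ε j ∧ g.ε j ≤ 2 * a then 1 else 0) + (if a < g.R j ∧ g.R j ≤ 2 * a then 1 else 0))

lemma blk_nonneg (a x : ℝ) : 0 ≤ blk a x := by unfold blk; split_ifs <;> norm_num

lemma Nb_cast (g : Cfg) (a : ℝ) : (Nb g a : ℝ) = ∑ j, (blk a (g.ε j) + blk a (g.R j)) := by
  unfold Nb blk
  push_cast
  rfl

lemma sum_blk {a₀ : ℝ} (ha : 0 < a₀) (x : ℝ) (K : ℕ) :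
    ∑ k ∈ range K, blk (a₀ * 2 ^ k) x =
      (if x ≤ a₀ * 2 ^ K then (1 : ℝ) else 0) - (if x ≤ a₀ then (1 : ℝ) else 0) := by
  have e : ∀ k : ℕ, blk (a₀ * 2 ^ k) x =
      (if x ≤ a₀ * 2 ^ (k + 1) then (1 : ℝ) else 0) - (if x ≤ a₀ * 2 ^ k then (1 : ℝ) else 0) := by
    intro k
    have h0 : 0 < a₀ * 2 ^ k := by positivity
    have h1 : a₀ * 2 ^ (k + 1) = 2 * (a₀ * 2 ^ k) := by ring
    rw [h1, blk]
    by_cases h2 : x ≤ a₀ * 2 ^ k
    · have h3 : x ≤ 2 * (a₀ * 2 ^ k) := by linarith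
      simp [h2, h3, not_lt.2 h2]
    · by_cases h3 : x ≤ 2 * (a₀ * 2 ^ k) <;> simp [h2, h3, not_le.1 h2]
  simp_rw [e]
  rw [Finset.sum_range_sub (fun k => if x ≤ a₀ * 2 ^ k then (1 : ℝ) else 0)]
  simp

lemma sum_blk_le {a₀ : ℝ} (ha : 0 < a₀) (x : ℝ) (K : ℕ) :
    ∑ k ∈ range K, blk (a₀ * 2 ^ k) x ≤ 1 := by
  rw [sum_blk ha]; split_ifs <;> norm_num

lemma sum_blk_eq {a₀ : ℝ} (ha : 0 < a₀) {x : ℝ} {K : ℕ} (h1 : a₀ < x) (h2 : x ≤ a₀ * 2 ^ K) :
    ∑ k ∈ range K, blk (a₀ * 2 ^ k) x = 1 := by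
  rw [sum_blk ha, if_pos h2, if_neg (not_le.2 h1), sub_zero]

lemma sum_Nb_le (g : Cfg) {a₀ : ℝ} (ha : 0 < a₀) (K : ℕ) :
    ∑ k ∈ range K, Nb g (a₀ * 2 ^ k) ≤ 2 * g.m := by
  have : ((∑ k ∈ range K, Nb g (a₀ * 2 ^ k) : ℕ) : ℝ) ≤ ((2 * g.m : ℕ) : ℝ) := by
    push_cast
    simp_rw [Nb_cast]
    rw [Finset.sum_comm]
    calc _ ≤ ∑ _j : Fin g.m, (2 : ℝ) := Finset.sum_le_sum fun j _ => by
          rw [Finset.sum_add_distrib]
          linarith [sum_blk_le ha (g.ε j) K, sum_blk_le ha (g.R j) K]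
      _ = 2 * g.m := by simp [mul_comm]
  exact_mod_cast this

lemma sum_Eb (Θ : ℝ → ℝ) (g : Cfg) {a₀ : ℝ} (ha : 0 < a₀) {K : ℕ} (h1 : ∀ j, a₀ < g.ε j)
    (h2 : ∀ j, g.R j ≤ a₀ * 2 ^ K) (t : ℝ) :
    ∑ k ∈ range K, Eb Θ g (a₀ * 2 ^ k) t = ∑ j, g.sg j * (Θ (t / g.ε j) - Θ (t / g.R j)) := by
  unfold Eb
  rw [Finset.sum_comm]
  refine Finset.sum_congr rfl fun j _ => ?_
  have := (g.pos j).2
  rw [← Finset.mul_sum, Finset.sum_sub_distrib, ← Finset.sum_mul, ← Finset.sum_mul,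
    sum_blk_eq ha (h1 j) (this.le.trans (h2 j)), sum_blk_eq ha ((h1 j).trans this) (h2 j),
    one_mul, one_mul]

lemma Eb_of_Nb (Θ : ℝ → ℝ) (g : Cfg) (a : ℝ) (h : Nb g a = 0) (t : ℝ) : Eb Θ g a t = 0 := by
  have h' := Nb_cast g a
  rw [h, Nat.cast_zero, eq_comm, Finset.sum_eq_zero_iff_of_nonneg
    fun j _ => add_nonneg (blk_nonneg _ _) (blk_nonneg _ _)] at h'
  refine Finset.sum_eq_zero fun j hj => ?_
  have := h' j hj
  have h1 : blk a (g.ε j) = 0 := by linarith [blk_nonneg a (g.ε j), blk_nonneg a (g.R j)]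
  have h2 : blk a (g.R j) = 0 := by linarith [blk_nonneg a (g.ε j), blk_nonneg a (g.R j)]
  rw [h1, h2]; ring

section

variable {c L : ℝ} {𝒦 Θ : ℝ → ℝ}

lemma continuous_of_lip {u : ℝ → ℝ} (hu : ∀ x y, |u x - u y| ≤ L * |x - y|) : Continuous u := by
  have : LipschitzWith (Real.toNNReal L) u := LipschitzWith.of_dist_le' fun x y => hu x y
  exact this.continuous

lemma blk_mul_zero (h0 : ∀ v, 6 ≤ |v| → Θ v = 0) {a : ℝ} (ha : 0 < a) (s : ℝ) {x : ℝ}
    (hx : 12 * a ≤ |x|) : blk a s * Θ (x / s) = 0 := by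
  unfold blk
  split_ifs with h
  · have hs : 0 < s := ha.trans h.1
    rw [h0, mul_zero]
    rw [abs_div, abs_of_pos hs, le_div_iff₀ hs]
    linarith [h.2]
  · rw [zero_mul]

lemma Eb_supp (h0 : ∀ v, 6 ≤ |v| → Θ v = 0) (g : Cfg) {a : ℝ} (ha : 0 < a) {x : ℝ}
    (hx : 12 * a ≤ |x|) : Eb Θ g a x = 0 :=
  Finset.sum_eq_zero fun j _ => by
    rw [blk_mul_zero h0 ha _ hx, blk_mul_zero h0 ha _ hx]; ring

lemma continuous_Eb (hΘ : Continuous Θ) (g : Cfg) (a : ℝ) : Continuous (Eb Θ g a) := by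
  unfold Eb
  fun_prop

/-- second difference of a dilate -/
noncomputable def D2 (Θ : ℝ → ℝ) (s t x : ℝ) : ℝ :=
  Θ ((x + t) / s) + Θ ((x - t) / s) - 2 * Θ (x / s)

lemma D2_supp (h0 : ∀ v, 6 ≤ |v| → Θ v = 0) {s t : ℝ} (hs : 0 < s) (ht : 0 ≤ t) (hts : t ≤ s)
    {x : ℝ} (hx : 7 * s ≤ |x|) : D2 Θ s t x = 0 := by
  have key : ∀ y, 6 * s ≤ |y| → Θ (y / s) = 0 := fun y hy => h0 _ (by
    rw [abs_div, abs_of_pos hs, le_div_iff₀ hs]; exact hy)
  have h1 := abs_sub (x + t) t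
  have h2 := abs_add_le (x - t) t
  rw [add_sub_cancel_right, abs_of_nonneg ht] at h1
  rw [sub_add_cancel, abs_of_nonneg ht] at h2
  rw [D2, key _ (by linarith), key _ (by linarith), key _ (by linarith)]
  ring

lemma continuous_D2 (hΘ : Continuous Θ) (s t : ℝ) : Continuous (D2 Θ s t) := by
  unfold D2; fun_prop

lemma int_D2 (hL : 0 ≤ L) (hΘ : Continuous Θ) (h0 : ∀ v, 6 ≤ |v| → Θ v = 0)
    (h2 : ∀ v h, -(L * h ^ 2) ≤ Θ (v + h) + Θ (v - h) - 2 * Θ v) {s t : ℝ} (hs : 0 < s)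
    (ht : 0 ≤ t) (hts : t ≤ s) : ∫ x, |D2 Θ s t x| ≤ 28 * L * t ^ 2 / s := by
  have hc := continuous_D2 hΘ s t
  have hsupp : ∀ x, 7 * s ≤ |x| → D2 Θ s t x = 0 := fun x hx => D2_supp h0 hs ht hts hx
  have hi : Integrable fun x => Θ (x / s) :=
    integrable_of_zero (by fun_prop) (6 * s) fun y hy => h0 _ (by
      rw [abs_div, abs_of_pos hs, le_div_iff₀ hs]; exact hy)
  have hz : ∫ x, D2 Θ s t x = 0 := by
    unfold D2
    have i1 : Integrable fun x => Θ ((x + t) / s) := hi.comp_add_right t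
    have i2 : Integrable fun x => Θ ((x - t) / s) := hi.comp_sub_right t
    have i3 : Integrable fun x => Θ ((x + t) / s) + Θ ((x - t) / s) := i1.add i2
    rw [integral_sub i3 (hi.const_mul 2), integral_add i1 i2,
      integral_add_right_eq_self (fun x => Θ (x / s)) t,
      integral_sub_right_eq_self (fun x => Θ (x / s)) t, integral_const_mul]
    ring
  rw [integral_eq_of_zero hsupp] at hz
  rw [integral_eq_of_zero (L := 7 * s) fun y hy => by rw [hsupp y hy, abs_zero]]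
  have hle : ∫ x in (-(7 * s))..(7 * s), |D2 Θ s t x| ≤
      ∫ x in (-(7 * s))..(7 * s), (D2 Θ s t x + 2 * L * (t / s) ^ 2) := by
    refine intervalIntegral.integral_mono_on (by linarith) (hc.abs.intervalIntegrable _ _)
      (Continuous.intervalIntegrable (by fun_prop) _ _) fun x _ => ?_
    have := h2 (x / s) (t / s)
    rw [← add_div, ← sub_div] at this
    have h3 : 0 ≤ L * (t / s) ^ 2 := by positivity
    rw [abs_le]
    unfold D2
    constructor <;> linarith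
  rw [intervalIntegral.integral_add (hc.intervalIntegrable _ _)
    (continuous_const.intervalIntegrable _ _), hz, intervalIntegral.integral_const] at hle
  refine hle.trans (le_of_eq ?_)
  rw [smul_eq_mul]
  field_simp
  ring

lemma int_D2_blk (hL : 0 ≤ L) (hΘ : Continuous Θ) (h0 : ∀ v, 6 ≤ |v| → Θ v = 0)
    (h2 : ∀ v h, -(L * h ^ 2) ≤ Θ (v + h) + Θ (v - h) - 2 * Θ v) {a t : ℝ} (ha : 0 < a)
    (ht : 0 ≤ t) (hta : t ≤ a) (s : ℝ) :
    Integrable (fun x => blk a s * |D2 Θ s t x|) ∧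
      ∫ x, blk a s * |D2 Θ s t x| ≤ blk a s * (28 * L * t ^ 2 / a) := by
  unfold blk
  split_ifs with h
  · have hs : 0 < s := ha.trans h.1
    simp only [one_mul]
    refine ⟨integrable_of_zero (continuous_D2 hΘ s t).abs (7 * s) fun y hy => by
      rw [D2_supp h0 hs ht (hta.trans h.1.le) hy, abs_zero], ?_⟩
    refine (int_D2 hL hΘ h0 h2 hs ht (hta.trans h.1.le)).trans ?_
    exact div_le_div_of_nonneg_left (by positivity) ha h.1.le
  · simp

lemma Eb_D2 (hL : 0 ≤ L) (hΘ : Continuous Θ) (h0 : ∀ v, 6 ≤ |v| → Θ v = 0)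
    (h2 : ∀ v h, -(L * h ^ 2) ≤ Θ (v + h) + Θ (v - h) - 2 * Θ v) (g : Cfg) {a t : ℝ} (ha : 0 < a)
    (ht : 0 ≤ t) (hta : t ≤ a) :
    ∫ x, |Eb Θ g a (x + t) + Eb Θ g a (x - t) - 2 * Eb Θ g a x| ≤
      Nb g a * (28 * L * t ^ 2 / a) := by
  have hI := fun s => int_D2_blk hL hΘ h0 h2 ha ht hta s
  have hpt : ∀ x, |Eb Θ g a (x + t) + Eb Θ g a (x - t) - 2 * Eb Θ g a x| ≤
      ∑ j, (blk a (g.ε j) * |D2 Θ (g.ε j) t x| + blk a (g.R j) * |D2 Θ (g.R j) t x|) := by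
    intro x
    have e : Eb Θ g a (x + t) + Eb Θ g a (x - t) - 2 * Eb Θ g a x =
        ∑ j, g.sg j * (blk a (g.ε j) * D2 Θ (g.ε j) t x - blk a (g.R j) * D2 Θ (g.R j) t x) := by
      unfold Eb D2
      rw [Finset.mul_sum, ← Finset.sum_add_distrib, ← Finset.sum_sub_distrib]
      exact Finset.sum_congr rfl fun j _ => by ring
    rw [e]
    refine (abs_sum_sg_le' g _).trans (Finset.sum_le_sum fun j _ => ?_)
    refine (abs_sub _ _).trans (le_of_eq ?_)
    rw [abs_mul, abs_mul, abs_of_nonneg (blk_nonneg _ _), abs_of_nonneg (blk_nonneg _ _)]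
  have hint : ∀ j ∈ (univ : Finset (Fin g.m)), Integrable fun x =>
      blk a (g.ε j) * |D2 Θ (g.ε j) t x| + blk a (g.R j) * |D2 Θ (g.R j) t x| :=
    fun j _ => (hI _).1.add (hI _).1
  refine (integral_mono_of_nonneg (Filter.Eventually.of_forall fun x => abs_nonneg _)
    (integrable_finsetSum _ hint) (Filter.Eventually.of_forall hpt)).trans ?_
  rw [integral_finsetSum _ hint, Nb_cast, Finset.sum_mul]
  refine Finset.sum_le_sum fun j _ => ?_
  rw [integral_add (hI _).1 (hI _).1, add_mul]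
  exact add_le_add (hI _).2 (hI _).2

/-- clamp to `[a, 2a]` -/
noncomputable def cl (a x : ℝ) : ℝ := max a (min x (2 * a))

lemma cl_mono (a : ℝ) {x y : ℝ} (h : x ≤ y) : cl a x ≤ cl a y :=
  max_le_max le_rfl (min_le_min h le_rfl)

lemma le_cl (a x : ℝ) : a ≤ cl a x := le_max_left _ _

lemma cl_le {a : ℝ} (ha : 0 < a) (x : ℝ) : cl a x ≤ 2 * a :=
  max_le (by linarith) (min_le_right _ _)

lemma blk_split {a e R : ℝ} (ha : 0 < a) (h : e < R) (F : ℝ → ℝ) :
    blk a e * F e - blk a R * F R = (F (cl a e) - F (cl a R)) +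
      (if e ≤ 2 * a ∧ 2 * a < R then (1 : ℝ) else 0) * F (2 * a) -
      (if e ≤ a ∧ a < R then (1 : ℝ) else 0) * F a := by
  have c1 : ∀ x, x ≤ a → cl a x = a := fun x hx =>
    max_eq_left ((min_le_left _ _).trans hx)
  have c2 : ∀ x, a < x → x ≤ 2 * a → cl a x = x := fun x h1 h2 => by
    rw [cl, min_eq_left h2, max_eq_right h1.le]
  have c3 : ∀ x, 2 * a < x → cl a x = 2 * a := fun x h1 => by
    rw [cl, min_eq_right h1.le, max_eq_right (by linarith)]
  unfold blk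
  rcases le_or_gt e a with e1 | e1
  · have e2 : e ≤ 2 * a := by linarith
    rcases le_or_gt R a with r1 | r1
    · have r2 : R ≤ 2 * a := by linarith
      simp [c1 e e1, c1 R r1, not_lt.2 e1, not_lt.2 r1, not_lt.2 r2]
    · rcases le_or_gt R (2 * a) with r2 | r2
      · simp [c1 e e1, c2 R r1 r2, not_lt.2 e1, r1, r2, e1, not_lt.2 r2]
      · simp [c1 e e1, c3 R r2, not_lt.2 e1, r1, r2, e1, e2, not_le.2 r2]
  · have r1 : a < R := e1.trans h
    rcases le_or_gt e (2 * a) with e2 | e2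
    · rcases le_or_gt R (2 * a) with r2 | r2
      · simp [c2 e e1 e2, c2 R r1 r2, e1, e2, r1, r2, not_lt.2 r2, not_le.2 e1]
      · simp [c2 e e1 e2, c3 R r2, e1, e2, r2, not_le.2 r2, not_le.2 e1]
    · have r2 : 2 * a < R := e2.trans h
      simp [c3 e e2, c3 R r2, not_le.2 e2, not_le.2 r2, not_le.2 e1]

lemma log_max_anti {u v a : ℝ} (ha : 0 < a) (huv : u ≤ v) :
    AntitoneOn (fun s => Real.log (max s v) - Real.log (max s u)) (Set.Ici a) := by
  intro x hx y hy hxy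
  have hx0 : 0 < x := ha.trans_le hx
  have hy0 : 0 < y := ha.trans_le hy
  have p1 : 0 < max x v := hx0.trans_le (le_max_left _ _)
  have p2 : 0 < max x u := hx0.trans_le (le_max_left _ _)
  have p3 : 0 < max y v := hy0.trans_le (le_max_left _ _)
  have p4 : 0 < max y u := hy0.trans_le (le_max_left _ _)
  have : max y v * max x u ≤ max x v * max y u := by
    rcases le_total x u with h1 | h1 <;> rcases le_total x v with h2 | h2 <;>
      rcases le_total y u with h3 | h3 <;> rcases le_total y v with h4 | h4 <;>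
      simp only [max_eq_left, max_eq_right, h1, h2, h3, h4] <;> nlinarith
  have := Real.log_le_log (mul_pos p3 p2) this
  rw [Real.log_mul p3.ne' p2.ne', Real.log_mul p1.ne' p4.ne'] at this
  show Real.log (max y v) - Real.log (max y u) ≤ Real.log (max x v) - Real.log (max x u)
  linarith

lemma log_max_le {u v a : ℝ} (ha : 0 < a) (huv : u ≤ v) :
    Real.log (max a v) - Real.log (max a u) ≤ (v - u) / a := by
  have p1 : 0 < max a v := ha.trans_le (le_max_left _ _)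
  have p2 : 0 < max a u := ha.trans_le (le_max_left _ _)
  rw [← Real.log_div p1.ne' p2.ne']
  refine (Real.log_le_sub_one_of_pos (div_pos p1 p2)).trans ?_
  rw [div_sub_one p2.ne']
  have h1 : max a v - max a u ≤ v - u := by
    rcases le_total a u with h1 | h1 <;> rcases le_total a v with h2 | h2 <;>
      simp only [max_eq_left, max_eq_right, h1, h2] <;> linarith
  exact div_le_div₀ (by linarith) h1 ha (le_max_left _ _)

lemma sum_lg_lip {ι : Type*} [Fintype ι] [DecidableEq ι] (x y : ι → ℝ) (hxy : ∀ i, x i ≤ y i)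
    (hd : ∀ i j, i ≠ j → y i ≤ x j ∨ y j ≤ x i) {a : ℝ} (ha : 0 < a) (hA : ∀ i, a ≤ x i)
    (hB : ∀ i, y i ≤ 2 * a) (t t' : ℝ) :
    ∑ i, |lg (x i) (y i) t - lg (x i) (y i) t'| ≤ |t - t'| / a := by
  wlog h : |t'| ≤ |t| generalizing t t'
  · have := this t' t (le_of_not_ge h)
    simp_rw [abs_sub_comm (lg _ _ t'), abs_sub_comm t'] at this
    exact this
  set G : ℝ → ℝ := fun s => Real.log (max s |t|) - Real.log (max s |t'|) with hG
  have hanti : AntitoneOn G (Set.Ici a) := log_max_anti ha h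
  have e : ∀ i, |lg (x i) (y i) t - lg (x i) (y i) t'| = G (x i) - G (y i) := fun i => by
    have := hanti (Set.mem_Ici.2 (hA i)) (Set.mem_Ici.2 ((hA i).trans (hxy i))) (hxy i)
    rw [← abs_of_nonneg (sub_nonneg.2 this)]
    congr 1
    simp only [lg, hG]
    ring
  simp_rw [e]
  refine (sum_disj_le x y hxy hd G a hA hanti univ (2 * a) (by linarith) fun i _ => hB i).trans ?_
  have h1 : G a ≤ (|t| - |t'|) / a := log_max_le ha h
  have h2 : 0 ≤ G (2 * a) := sub_nonneg.2 (Real.log_le_log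
    (lt_of_lt_of_le (by linarith) (le_max_left _ _)) (max_le_max le_rfl h))
  have h3 : (|t| - |t'|) / a ≤ |t - t'| / a :=
    div_le_div_of_nonneg_right (abs_sub_abs_le_abs_sub _ _) ha.le
  linarith

lemma int_lip (h𝒦 : ∀ x y, |𝒦 x - 𝒦 y| ≤ L * |x - y|) {x y : ℝ} (hx : 0 < x) (hxy : x ≤ y)
    (t t' : ℝ) :
    |(∫ w in (1 / y)..(1 / x), 𝒦 (w * t) / w) - ∫ w in (1 / y)..(1 / x), 𝒦 (w * t') / w| ≤
      L * |t - t'| * (1 / x - 1 / y) := by
  have hc := continuous_of_lip h𝒦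
  have hy : 0 < y := hx.trans_le hxy
  have hle : 1 / y ≤ 1 / x := one_div_le_one_div_of_le hx hxy
  have hpos : ∀ w ∈ Set.uIcc (1 / y) (1 / x), 0 < w := fun w hw => by
    rw [Set.uIcc_of_le hle] at hw
    exact lt_of_lt_of_le (by positivity) hw.1
  have hi : ∀ t, IntervalIntegrable (fun w => 𝒦 (w * t) / w) volume (1 / y) (1 / x) := fun t =>
    ContinuousOn.intervalIntegrable (ContinuousOn.div (by fun_prop) continuousOn_id
      fun w hw => (hpos w hw).ne')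
  rw [← intervalIntegral.integral_sub (hi t) (hi t'), ← abs_of_nonneg (sub_nonneg.2 hle),
    ← Real.norm_eq_abs]
  refine intervalIntegral.norm_integral_le_of_norm_le_const fun w hw => ?_
  have hw0 := hpos w (Set.uIoc_subset_uIcc hw)
  rw [Real.norm_eq_abs, ← sub_div, abs_div, abs_of_pos hw0, div_le_iff₀ hw0]
  refine (h𝒦 _ _).trans (le_of_eq ?_)
  rw [← mul_sub, abs_mul, abs_of_pos hw0]
  ring

lemma Eb_lip (hL : 0 ≤ L) (h𝒦 : ∀ x y, |𝒦 x - 𝒦 y| ≤ L * |x - y|)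
    (hΘ : ∀ x y, |Θ x - Θ y| ≤ L * |x - y|)
    (hlg : ∀ ε R, 0 < ε → ε ≤ R → ∀ t,
      lg ε R t = c * (∫ w in (1 / R)..(1 / ε), 𝒦 (w * t) / w) + Θ (t / ε) - Θ (t / R))
    (g : Cfg) {a : ℝ} (ha : 0 < a) (t t' : ℝ) :
    |Eb Θ g a t - Eb Θ g a t'| ≤ (1 + |c| * L + 2 * L) * (|t - t'| / a) := by
  classical
  set x : Fin g.m → ℝ := fun j => cl a (g.ε j) with hx
  set y : Fin g.m → ℝ := fun j => cl a (g.R j) with hy
  have hxy : ∀ j, x j ≤ y j := fun j => cl_mono a (g.pos j).2.le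
  have hd : ∀ i j, i ≠ j → y i ≤ x j ∨ y j ≤ x i := fun i j h =>
    (g.disj i j h).imp (cl_mono a) (cl_mono a)
  have hA : ∀ j, a ≤ x j := fun j => le_cl _ _
  have hB : ∀ j, y j ≤ 2 * a := fun j => cl_le ha _
  set I : Fin g.m → ℝ → ℝ := fun j t => ∫ w in (1 / y j)..(1 / x j), 𝒦 (w * t) / w with hI
  have e : ∀ t, Eb Θ g a t = ∑ j, g.sg j * lg (x j) (y j) t - c * ∑ j, g.sg j * I j t +
      sig g (2 * a) * Θ (t / (2 * a)) - sig g a * Θ (t / a) := by
    intro t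
    unfold Eb sig
    rw [Finset.mul_sum, Finset.sum_mul, Finset.sum_mul, ← Finset.sum_sub_distrib,
      ← Finset.sum_add_distrib, ← Finset.sum_sub_distrib]
    refine Finset.sum_congr rfl fun j _ => ?_
    rw [blk_split ha (g.pos j).2 (fun s => Θ (t / s)), hlg _ _ (ha.trans_le (hA j)) (hxy j)]
    ring
  have h1 : |∑ j, g.sg j * (lg (x j) (y j) t - lg (x j) (y j) t')| ≤ |t - t'| / a :=
    (abs_sum_sg_le' g _).trans (sum_lg_lip x y hxy hd ha hA hB t t')
  have h2 : |∑ j, g.sg j * (I j t - I j t')| ≤ L * (|t - t'| / a) := by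
    refine (abs_sum_sg_le' g _).trans ((Finset.sum_le_sum fun j _ =>
      int_lip h𝒦 (ha.trans_le (hA j)) (hxy j) t t').trans ?_)
    rw [← Finset.mul_sum]
    have hanti : AntitoneOn (fun s : ℝ => 1 / s) (Set.Ici a) := fun u hu v _ huv =>
      one_div_le_one_div_of_le (ha.trans_le hu) huv
    have := sum_disj_le x y hxy hd _ a hA hanti univ (2 * a) (by linarith) fun i _ => hB i
    have h0 : 0 ≤ 1 / (2 * a) := by positivity
    calc L * |t - t'| * ∑ j, (1 / x j - 1 / y j) ≤ L * |t - t'| * (1 / a) :=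
          mul_le_mul_of_nonneg_left (by linarith) (by positivity)
      _ = L * (|t - t'| / a) := by ring
  have h3 : ∀ s, a ≤ s → |sig g s * (Θ (t / s) - Θ (t' / s))| ≤ L * (|t - t'| / a) := by
    intro s hs
    have hs0 : 0 < s := ha.trans_le hs
    rw [abs_mul]
    have k1 := hΘ (t / s) (t' / s)
    rw [← sub_div, abs_div, abs_of_pos hs0] at k1
    have k2 : |t - t'| / s ≤ |t - t'| / a := div_le_div_of_nonneg_left (abs_nonneg _) ha hs
    have k3 := abs_sig_le g s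
    have k4 := mul_le_mul_of_nonneg_left k2 hL
    nlinarith [abs_nonneg (Θ (t / s) - Θ (t' / s)), abs_nonneg (sig g s)]
  have e2 : Eb Θ g a t - Eb Θ g a t' = ∑ j, g.sg j * (lg (x j) (y j) t - lg (x j) (y j) t') -
      c * ∑ j, g.sg j * (I j t - I j t') +
      sig g (2 * a) * (Θ (t / (2 * a)) - Θ (t' / (2 * a))) - sig g a * (Θ (t / a) - Θ (t' / a)) := by
    rw [e, e]
    simp_rw [mul_sub, Finset.sum_sub_distrib]
    ring
  have h4 : |c * ∑ j, g.sg j * (I j t - I j t')| ≤ |c| * (L * (|t - t'| / a)) := by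
    rw [abs_mul]; exact mul_le_mul_of_nonneg_left h2 (abs_nonneg _)
  rw [e2]
  have h5 := abs_le.1 h1
  have h6 := abs_le.1 h4
  have h7 := abs_le.1 (h3 (2 * a) (by linarith))
  have h8 := abs_le.1 (h3 a le_rfl)
  rw [abs_le]
  constructor <;> nlinarith [h5.1, h5.2, h6.1, h6.2, h7.1, h7.2, h8.1, h8.2]

end

end Crest.Agent.R72.Asm
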