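import Crest.Agent.R72.Defs

/-! Row 72: interface statements inside the core inequality. -/

set_option autoImplicit false

namespace Crest.Agent.R72

open MeasureTheory Finset

/-- Smooth single-scale kernels with signs of bounded variation in the scale. -/
def MainStmt : Prop :=
  ∃ C : ℝ, 0 < C ∧ ∀ (n : ℕ), 1 ≤ n → ∀ (S : Finset ℤ) (r₀ : ℝ), 0 < r₀ → ∀ (K : ℕ)
    (σ : ℕ → ℤ → ℤ → ℝ), (∀ k i j, |σ k i j| ≤ 1) →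
    (∀ i j, ∑ k ∈ range K, |σ (k + 1) i j - σ k i j| ≤ 2 * n) → ∀ h b c : ℤ → ℤ → ℝ,
      |∑ k ∈ range K, ∑ i ∈ S, ∑ j ∈ S, ∑ l ∈ S, h i j * b j l * c l i * (σ k i j *
        conv (avg (oddA (r₀ * 2 ^ k))) (conv (avg (oddA (r₀ * 2 ^ k))) (avg (oddA (r₀ * 2 ^ k))))
          ((i + j + l : ℤ) : ℝ))| ≤ C * Real.sqrt n * (cube S h + cube S b + cube S c)

/-- Rough kernels, given by their primitives `E k i j`, living at scale `a₀ 2^k`. -/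
def ErrStmt : Prop :=
  ∃ C : ℝ, 0 < C ∧ ∀ (n : ℕ), 1 ≤ n → ∀ (S : Finset ℤ) (a₀ : ℝ), 0 < a₀ → ∀ (K : ℕ)
    (E : ℕ → ℤ → ℤ → ℝ → ℝ) (N : ℕ → ℤ → ℤ → ℕ), (∀ i j, ∑ k ∈ range K, N k i j ≤ n) →
    (∀ k i j, N k i j = 0 → ∀ x, E k i j x = 0) →
    (∀ k i j x y, |E k i j x - E k i j y| ≤ |x - y| / (a₀ * 2 ^ k)) →
    (∀ k i j x, 12 * (a₀ * 2 ^ k) ≤ |x| → E k i j x = 0) →
    (∀ k i j t, 0 ≤ t → t ≤ a₀ * 2 ^ k →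
      ∫ x, |E k i j (x + t) + E k i j (x - t) - 2 * E k i j x| ≤ N k i j * t ^ 2 / (a₀ * 2 ^ k)) →
    ∀ h b c : ℤ → ℤ → ℝ,
      |∑ k ∈ range K, ∑ i ∈ S, ∑ j ∈ S, ∑ l ∈ S, h i j * b j l * c l i *
        pair (E k i j) ((i + j + l : ℤ) : ℝ)| ≤ C * Real.sqrt n * (cube S h + cube S b + cube S c)

/-- One generation of fine atoms. -/
def AtomStmt : Prop :=
  ∃ C : ℝ, 0 < C ∧ ∀ (n : ℕ), 1 ≤ n → ∀ (S : Finset ℤ) (a₀ : ℝ), 0 < a₀ → ∀ (K m : ℕ)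
    (d : ℕ → ℤ → ℤ → ℝ → ℝ) (N : ℕ → ℤ → ℤ → ℕ), (∀ i j, ∑ k ∈ range K, N k i j ≤ n) →
    (∀ k i j, Continuous (d k i j)) →
    (∀ k i j x, |d k i j x| ≤ 1 / (a₀ * 2 ^ k)) →
    (∀ k i j x, 16 * (a₀ * 2 ^ k) ≤ |x| → d k i j x = 0) →
    (∀ k i j, ∫ x, |d k i j x| ≤ N k i j / 2 ^ m) →
    ∀ h b c : ℤ → ℤ → ℝ,
      |∑ k ∈ range K, ∑ i ∈ S, ∑ j ∈ S, ∑ l ∈ S, h i j * b j l * c l i *
        conv (avg (avg (d k i j))) (avg (oddA (a₀ * 2 ^ k / 2 ^ m))) ((i + j + l : ℤ) : ℝ)| ≤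
        C * Real.sqrt n * (9 / 10) ^ m * (cube S h + cube S b + cube S c)

end Crest.Agent.R72
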