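import Crest.Agent.R72.Defs
import Crest.Prelude.Def_DyadicTriangular

/-! Row 72, part C: the continuous dyadic inequality from the discrete one (random cell offsets). -/

set_option autoImplicit false

namespace Crest.Agent.R72

open MeasureTheory Finset Crest.AnalysisR.TriangularDyadic

/-- `m` is a finite sum of scaled images of `m'` -/
def Dec {α β ι : Type} [MeasurableSpace α] [MeasurableSpace β] (m : Measure α) (m' : Measure β)
    (s : Finset ι) (φ : ι → β → α) (d : ℝ) : Prop :=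
  0 ≤ d ∧ (∀ i, Measurable (φ i)) ∧ m = ∑ i ∈ s, ENNReal.ofReal d • m'.map (φ i)

section dec
variable {α β α' β' γ ι ι' : Type} [MeasurableSpace α] [MeasurableSpace β] [MeasurableSpace α']
  [MeasurableSpace β'] [MeasurableSpace γ]

lemma Dec.prod {m : Measure α} {m' : Measure β} {n : Measure α'} {n' : Measure β'} [SigmaFinite m]
    [SigmaFinite n] [SFinite n'] {s : Finset ι} {t : Finset ι'} {φ : ι → β → α} {ψ : ι' → β' → α'}
    {d e : ℝ} (h : Dec m m' s φ d) (h' : Dec n n' t ψ e) :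
    Dec (m.prod n) (m'.prod n') (s ×ˢ t) (fun p => Prod.map (φ p.1) (ψ p.2)) (d * e) := by
  obtain ⟨hd, hφ, hm⟩ := h
  obtain ⟨he, hψ, hn⟩ := h'
  refine ⟨mul_nonneg hd he, fun p => (hφ _).prodMap (hψ _), Measure.prod_eq fun A B hA hB => ?_⟩
  rw [hm, hn]
  simp only [Measure.coe_finsetSum, Finset.sum_apply, Measure.smul_apply, smul_eq_mul]
  rw [sum_mul_sum, sum_product]
  refine sum_congr rfl fun i _ => sum_congr rfl fun j _ => ?_
  rw [Measure.map_apply ((hφ _).prodMap (hψ _)) (hA.prod hB), Measure.map_apply (hφ _) hA,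
    Measure.map_apply (hψ _) hB, Set.preimage_prod_map_prod, Measure.prod_prod,
    ENNReal.ofReal_mul hd]
  ring

lemma Dec.comp {m : Measure α} {m' : Measure β} {m'' : Measure γ} {s : Finset ι} {φ : ι → β → α}
    {d : ℝ} (h : Dec m m' s φ d) {π : γ → β} (hπ : MeasurePreserving π m'' m') :
    Dec m m'' s (fun i => φ i ∘ π) d := by
  refine ⟨h.1, fun i => (h.2.1 i).comp hπ.measurable, ?_⟩
  rw [h.2.2]
  refine sum_congr rfl fun i _ => ?_
  rw [← Measure.map_map (h.2.1 i) hπ.measurable, hπ.map_eq]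

lemma bdd_integrable {m : Measure α} [IsFiniteMeasure m] {f : α → ℝ} (hf : Measurable f) {C : ℝ}
    (hC : ∀ x, |f x| ≤ C) : Integrable f m :=
  Integrable.of_bound hf.aestronglyMeasurable C (ae_of_all _ hC)

lemma Dec.integral {m : Measure α} {m' : Measure β} [IsFiniteMeasure m'] {s : Finset ι}
    {φ : ι → β → α} {d : ℝ} (h : Dec m m' s φ d) {f : α → ℝ} (hf : Measurable f) {C : ℝ}
    (hC : ∀ x, |f x| ≤ C) : ∫ x, f x ∂m = d * ∫ u, ∑ i ∈ s, f (φ i u) ∂m' := by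
  obtain ⟨hd, hφ, hm⟩ := h
  rw [hm, integral_finsetSum_measure fun i _ =>
      (bdd_integrable (m := m'.map (φ i)) hf hC).smul_measure ENNReal.ofReal_ne_top,
    integral_finsetSum (f := fun i u => f (φ i u)) _
      fun i _ => bdd_integrable (hf.comp (hφ i)) fun x => hC _, mul_sum]
  refine sum_congr rfl fun i _ => ?_
  rw [integral_smul_measure, integral_map (hφ i).aemeasurable hf.aestronglyMeasurable,
    ENNReal.toReal_ofReal hd, smul_eq_mul]

end dec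

/-- uniform measure on the unit cell -/
noncomputable def νI : Measure ℝ := volume.restrict (Set.Ico 0 1)

instance : IsProbabilityMeasure νI := ⟨by simp [νI]⟩

/-- the point with offset `u` of the cell `i` -/
noncomputable def cel (δ : ℝ) (i : ℕ) (u : ℝ) : ℝ := δ * (i + Int.fract u)

lemma dec_cells {δ : ℝ} (hδ : 0 < δ) (n : ℕ) :
    Dec (volume.restrict (Set.Ico 0 (δ * n))) νI (range n) (cel δ) δ := by
  refine ⟨hδ.le, fun i => by unfold cel; fun_prop, ?_⟩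
  induction n with
  | zero => simp
  | succ n ih =>
    rw [sum_range_succ, ← ih]
    have h1 : νI.map (cel δ n) = νI.map (fun u => δ * (n + u)) := by
      refine Measure.map_congr ?_
      filter_upwards [ae_restrict_mem measurableSet_Ico] with u hu
      simp only [cel, Int.fract_eq_self.2 hu]
    have h2 : ENNReal.ofReal δ • νI.map (fun u => δ * (n + u)) =
        volume.restrict (Set.Ico (δ * n) (δ * (n + 1 : ℕ))) := by
      have e1 : Set.Ico (0 : ℝ) 1 = (fun u => δ * (n + u)) ⁻¹' Set.Ico (δ * n) (δ * (n + 1 : ℕ)) := by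
        ext u
        simp only [Set.mem_Ico, Set.mem_preimage, Nat.cast_add, Nat.cast_one,
          mul_le_mul_iff_right₀ hδ, mul_lt_mul_iff_right₀ hδ, le_add_iff_nonneg_right,
          add_lt_add_iff_left]
      rw [νI, e1, ← Measure.restrict_map (by fun_prop) measurableSet_Ico, ← Measure.restrict_smul]
      congr 1
      have e2 : (fun u : ℝ => δ * (n + u)) = (fun u => δ * u) ∘ (fun u => n + u) := rfl
      rw [e2, ← Measure.map_map (by fun_prop) (by fun_prop), map_add_left_eq_self,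
        Real.map_volume_mul_left hδ.ne', smul_smul, ← ENNReal.ofReal_mul hδ.le,
        abs_of_pos (inv_pos.2 hδ), mul_inv_cancel₀ hδ.ne']
      simp
    rw [h1, h2, ← Measure.restrict_union Set.Ico_disjoint_Ico_same measurableSet_Ico,
      Set.Ico_union_Ico_eq_Ico (by positivity) (by push_cast; nlinarith)]

lemma haar_abs_le (k : ℤ) (n : ℕ) (x : ℝ) : |haarSign k n x| ≤ 1 := by
  unfold haarSign; split_ifs <;> simp

lemma haar_meas (k : ℤ) (n : ℕ) : Measurable (haarSign k n) :=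
  Measurable.ite measurableSet_Ico measurable_const
    (Measurable.ite measurableSet_Ico measurable_const measurable_const)

lemma haar_zero {k : ℤ} {n : ℕ} {x : ℝ} (hx : x ∉ interval k n) : haarSign k n x = 0 := by
  have h1 : (2 : ℝ) ^ k = 2 * 2 ^ (k - 1) := by rw [zpow_sub_one₀ two_ne_zero]; ring
  have h2 : (0 : ℝ) < 2 ^ (k - 1) := by positivity
  unfold haarSign
  simp only [interval, Set.mem_Ico, not_and, not_lt] at hx ⊢
  rw [if_neg, if_neg]
  · rintro ⟨a, b⟩; have := hx (by linarith); linarith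
  · rintro ⟨a, b⟩; have := hx a; nlinarith

lemma haar_cel (M : ℕ) (k' n i : ℕ) (u : ℝ) :
    haarSign ((k' : ℤ) + 1 - M) n (cel (1 / 2 ^ M) i u) = hs k' n i := by
  have hδ : (0 : ℝ) < 1 / 2 ^ M := by positivity
  have e1 : (2 : ℝ) ^ ((k' : ℤ) + 1 - M) = 1 / 2 ^ M * (2 ^ k' * 2) := by
    rw [zpow_sub₀ two_ne_zero, zpow_add_one₀ two_ne_zero, zpow_natCast, zpow_natCast]; ring
  have e2 : (2 : ℝ) ^ ((k' : ℤ) + 1 - M - 1) = 1 / 2 ^ M * 2 ^ k' := by
    rw [zpow_sub_one₀ two_ne_zero, e1]; ring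
  have key : ∀ q : ℕ, (1 / 2 ^ M * ((q * 2 ^ k' : ℕ) : ℝ) ≤ cel (1 / 2 ^ M) i u ↔ q ≤ i / 2 ^ k') := by
    intro q
    rw [cel, mul_le_mul_iff_right₀ hδ, Nat.le_div_iff_mul_le (by positivity)]
    have := Int.fract_nonneg u
    have := Int.fract_lt_one u
    constructor
    · intro h
      have : ((q * 2 ^ k' : ℕ) : ℝ) < (i + 1 : ℕ) := by push_cast at h ⊢; linarith
      exact Nat.lt_succ_iff.1 (by exact_mod_cast this)
    · intro h
      have : ((q * 2 ^ k' : ℕ) : ℝ) ≤ i := by exact_mod_cast h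
      linarith
  have k0 := key (2 * n)
  have k1 := key (2 * n + 1)
  have k2 := key (2 * n + 2)
  unfold haarSign hs
  rw [e2, e1]
  have a0 : (1 / 2 ^ M * (2 ^ k' * 2) * n : ℝ) = 1 / 2 ^ M * ((2 * n * 2 ^ k' : ℕ) : ℝ) := by
    push_cast; ring
  have a1 : (1 / 2 ^ M * (2 ^ k' * 2) * n + 1 / 2 ^ M * 2 ^ k' : ℝ) =
      1 / 2 ^ M * (((2 * n + 1) * 2 ^ k' : ℕ) : ℝ) := by push_cast; ring
  have a2 : (1 / 2 ^ M * (2 ^ k' * 2) * (n + 1) : ℝ) =
      1 / 2 ^ M * (((2 * n + 2) * 2 ^ k' : ℕ) : ℝ) := by push_cast; ring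
  rw [a1, a2, a0]
  simp only [Set.mem_Ico, ← not_le, k0, k1, k2]
  split_ifs <;> first | rfl | omega

lemma interval_sub {M N k' n : ℕ} (h : k' + 1 + n ≤ N) :
    interval ((k' : ℤ) + 1 - M) n ⊆ Set.Ico 0 (1 / 2 ^ M * ((2 ^ N : ℕ) : ℝ)) := by
  have e1 : (2 : ℝ) ^ ((k' : ℤ) + 1 - M) = 1 / 2 ^ M * 2 ^ (k' + 1) := by
    rw [zpow_sub₀ two_ne_zero, zpow_add_one₀ two_ne_zero, zpow_natCast, zpow_natCast]; ring
  refine Set.Ico_subset_Ico (by positivity) ?_
  rw [e1, mul_assoc]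
  gcongr
  have h1 : 2 ^ (k' + 1) * (n + 1) ≤ 2 ^ N :=
    le_trans (Nat.mul_le_mul_left _ Nat.lt_two_pow_self)
      (by rw [← pow_add]; exact Nat.pow_le_pow_right (by norm_num) h)
  exact_mod_cast h1

theorem additive_bound (h : DyadicStmt) (F₀ F₁ F₂ : ℝ × ℝ → ℝ) (hF₀ : Measurable F₀)
    (hF₁ : Measurable F₁) (hF₂ : Measurable F₂) {C : ℝ}
    (hb : ∀ z, |F₀ z| ≤ C ∧ |F₁ z| ≤ C ∧ |F₂ z| ≤ C)
    (hc₀ : HasCompactSupport F₀) (hc₁ : HasCompactSupport F₁) (hc₂ : HasCompactSupport F₂)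
    (𝓘 : Finset (ℤ × ℕ × ℕ)) :
    ∑ i ∈ 𝓘, |localForm i.1 i.2.1 i.2.2 (i.2.1 ^^^ i.2.2) F₀ F₁ F₂| ≤
      4 * ((∫ z in Set.Ici 0 ×ˢ Set.Ici 0, |F₀ z| ^ 3) + (∫ z in Set.Ici 0 ×ˢ Set.Ici 0, |F₁ z| ^ 3) +
        ∫ z in Set.Ici 0 ×ˢ Set.Ici 0, |F₂ z| ^ 3) := by
  have hC : 0 ≤ C := (abs_nonneg _).trans (hb 0).1
  set M : ℕ := 𝓘.sup fun i => (1 - i.1).toNat
  let κ : ℤ × ℕ × ℕ → ℕ := fun i => (i.1 - 1 + M).toNat
  have hκ : ∀ i ∈ 𝓘, i.1 = (κ i : ℤ) + 1 - M := fun i hi => by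
    have : (1 - i.1).toNat ≤ M := le_sup (f := fun i : ℤ × ℕ × ℕ => (1 - i.1).toNat) hi
    simp only [κ]; omega
  set N : ℕ := 𝓘.sup fun i => κ i + 1 + i.2.1 + i.2.2 + (i.2.1 ^^^ i.2.2)
  have hN : ∀ i ∈ 𝓘, κ i + 1 + i.2.1 + i.2.2 + (i.2.1 ^^^ i.2.2) ≤ N := fun i hi =>
    le_sup (f := fun i : ℤ × ℕ × ℕ => κ i + 1 + i.2.1 + i.2.2 + (i.2.1 ^^^ i.2.2)) hi
  set δ : ℝ := 1 / 2 ^ M with hδe
  have hδ : 0 < δ := by positivity
  set J : Set ℝ := Set.Ico 0 (δ * ((2 ^ N : ℕ) : ℝ)) with hJ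
  have d1 := dec_cells hδ (2 ^ N)
  rw [← hJ] at d1
  have : IsFiniteMeasure (volume.restrict J) := ⟨by simp [hJ]⟩
  have d2 := d1.prod d1
  have d3 := d1.prod d2
  let R := range (2 ^ N)
  let D : ℕ → ℕ → ℕ → ℝ × ℝ × ℝ → ℝ := fun k n₀ n₁ u => (1 / 2 ^ (k + 1) : ℝ) *
    ∑ i ∈ R, ∑ j ∈ R, ∑ l ∈ R, F₀ (cel δ i u.1, cel δ j u.2.1) * F₁ (cel δ j u.2.1, cel δ l u.2.2) *
      F₂ (cel δ l u.2.2, cel δ i u.1) * (hs k n₀ i * hs k n₁ j * hs k (n₀ ^^^ n₁) l)
  have mc := d1.2.1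
  have hloc : ∀ i ∈ 𝓘, Integrable (D (κ i) i.2.1 i.2.2) (νI.prod (νI.prod νI)) ∧
      localForm i.1 i.2.1 i.2.2 (i.2.1 ^^^ i.2.2) F₀ F₁ F₂ =
        δ ^ 2 * ∫ u, D (κ i) i.2.1 i.2.2 u ∂(νI.prod (νI.prod νI)) := by
    rintro ⟨k, n₀, n₁⟩ hi
    have e := hκ _ hi
    have hN' := hN _ hi
    simp only at e hN' ⊢
    set k' := κ (k, n₀, n₁)
    let Φ : ℝ × ℝ × ℝ → ℝ := fun x => F₀ (x.1, x.2.1) * F₁ (x.2.1, x.2.2) * F₂ (x.2.2, x.1) *
      (haarSign k n₀ x.1 * haarSign k n₁ x.2.1 * haarSign k (n₀ ^^^ n₁) x.2.2)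
    have mΦ : Measurable Φ := by
      have := haar_meas k
      simp only [Φ]; fun_prop
    have bΦ : ∀ x, |Φ x| ≤ C * C * C * (1 * 1 * 1) := fun x => by
      simp only [Φ, abs_mul]
      have := (hb (x.1, x.2.1)).1
      have := (hb (x.2.1, x.2.2)).2.1
      have := (hb (x.2.2, x.1)).2.2
      have := haar_abs_le k n₀ x.1
      have := haar_abs_le k n₁ x.2.1
      have := haar_abs_le k (n₀ ^^^ n₁) x.2.2
      gcongr
    have hD : D k' n₀ n₁ = fun u => (1 / 2 ^ (k' + 1) : ℝ) * ∑ p ∈ R ×ˢ (R ×ˢ R),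
        Φ (Prod.map (cel δ p.1) (Prod.map (cel δ p.2.1) (cel δ p.2.2)) u) := by
      ext u
      simp only [D, sum_product, Φ, Prod.map_fst, Prod.map_snd, e, hδe, haar_cel]
    refine ⟨?_, ?_⟩
    · rw [hD]
      exact (integrable_finsetSum _ fun p _ =>
        bdd_integrable (mΦ.comp (d3.2.1 p)) fun x => bΦ _).const_mul _
    have i3 := bdd_integrable (m := (volume.restrict J).prod
      ((volume.restrict J).prod (volume.restrict J))) mΦ bΦ
    have s0 : interval k n₀ ⊆ J := e ▸ interval_sub (by omega)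
    have s1 : interval k n₁ ⊆ J := e ▸ interval_sub (by omega)
    have s2 : interval k (n₀ ^^^ n₁) ⊆ J := e ▸ interval_sub (by omega)
    have h1 : ∫ x₀ in interval k n₀, ∫ x₁ in interval k n₁, ∫ x₂ in interval k (n₀ ^^^ n₁),
        Φ (x₀, x₁, x₂) = ∫ x, Φ x ∂((volume.restrict J).prod
          ((volume.restrict J).prod (volume.restrict J))) := by
      rw [integral_prod _ i3, setIntegral_eq_of_subset_of_forall_sdiff_eq_zero measurableSet_Ico s0
        fun x hx => by simp [Φ, haar_zero hx.2]]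
      congr 1; ext x₀
      rw [integral_prod (fun y => Φ (x₀, y))
          (bdd_integrable (mΦ.comp measurable_prodMk_left) fun x => bΦ _),
        setIntegral_eq_of_subset_of_forall_sdiff_eq_zero measurableSet_Ico s1
          fun x hx => by simp [Φ, haar_zero hx.2]]
      congr 1; ext x₁
      rw [setIntegral_eq_of_subset_of_forall_sdiff_eq_zero measurableSet_Ico s2
          fun x hx => by simp [Φ, haar_zero hx.2]]
    unfold localForm
    change _ * (∫ x₀ in interval k n₀, ∫ x₁ in interval k n₁, ∫ x₂ in interval k (n₀ ^^^ n₁),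
        Φ (x₀, x₁, x₂)) = _
    rw [h1, d3.integral mΦ bΦ, hD, integral_const_mul, ← mul_assoc, ← mul_assoc (δ ^ 2)]
    refine congrArg₂ (· * ·) ?_ rfl
    rw [e, neg_sub, zpow_sub₀ two_ne_zero, zpow_add_one₀ two_ne_zero, zpow_natCast, zpow_natCast, hδe,
      pow_succ 2 k']
    field_simp
  have sq : ∀ (F : ℝ × ℝ → ℝ), Measurable F → (∀ z, |F z| ≤ C) → HasCompactSupport F →
      ∀ π : ℝ × ℝ × ℝ → ℝ × ℝ, MeasurePreserving π (νI.prod (νI.prod νI)) (νI.prod νI) →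
      Integrable (fun u => ∑ i ∈ R, ∑ j ∈ R, |F (cel δ i (π u).1, cel δ j (π u).2)| ^ 3)
        (νI.prod (νI.prod νI)) ∧
      δ ^ 2 * ∫ u, ∑ i ∈ R, ∑ j ∈ R, |F (cel δ i (π u).1, cel δ j (π u).2)| ^ 3
        ∂(νI.prod (νI.prod νI)) ≤ ∫ z in Set.Ici 0 ×ˢ Set.Ici 0, |F z| ^ 3 := by
    intro F hF hFb hFc π hπ
    have m3 : Measurable fun z => |F z| ^ 3 := by fun_prop
    have b3 : ∀ z, abs (|F z| ^ 3) ≤ C ^ 3 := fun z => by
      rw [abs_pow, abs_abs]; gcongr; exact hFb z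
    have mπ := hπ.measurable
    refine ⟨integrable_finsetSum _ fun i _ => integrable_finsetSum _ fun j _ =>
      bdd_integrable (m3.comp (((mc i).comp mπ.fst).prodMk ((mc j).comp mπ.snd))) fun x => b3 _, ?_⟩
    have := (d2.comp hπ).integral m3 b3
    simp only [sum_product, Function.comp, Prod.map] at this
    rw [pow_two, ← this, Measure.prod_restrict, ← Measure.volume_eq_prod]
    refine setIntegral_mono_set (Integrable.integrableOn ?_) (ae_of_all _ fun z => by positivity)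
      (LE.le.eventuallyLE (Set.prod_mono Set.Ico_subset_Ici_self Set.Ico_subset_Ici_self))
    have : IsFiniteMeasure (volume.restrict (tsupport F)) :=
      ⟨by simpa using hFc.isCompact.measure_lt_top⟩
    refine (integrableOn_iff_integrable_of_support_subset (s := tsupport F) fun z hz => ?_).1
      (bdd_integrable m3 b3)
    refine subset_tsupport F fun h0 => hz ?_
    simp [h0]
  obtain ⟨i0, q0⟩ := sq F₀ hF₀ (fun z => (hb z).1) hc₀ (Prod.map id Prod.fst)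
    ((MeasurePreserving.id _).prod measurePreserving_fst)
  obtain ⟨i1, q1⟩ := sq F₁ hF₁ (fun z => (hb z).2.1) hc₁ Prod.snd measurePreserving_snd
  obtain ⟨i2, q2⟩ := sq F₂ hF₂ (fun z => (hb z).2.2) hc₂ (Prod.swap ∘ Prod.map id Prod.snd)
    (Measure.measurePreserving_swap.comp ((MeasurePreserving.id _).prod measurePreserving_snd))
  calc _ ≤ ∑ i ∈ 𝓘, δ ^ 2 * ∫ u, |D (κ i) i.2.1 i.2.2 u| ∂(νI.prod (νI.prod νI)) := by
        refine sum_le_sum fun i hi => ?_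
        rw [(hloc i hi).2, abs_mul, abs_of_nonneg (sq_nonneg δ)]
        gcongr
        exact abs_integral_le_integral_abs
    _ = δ ^ 2 * ∫ u, ∑ i ∈ 𝓘, |D (κ i) i.2.1 i.2.2 u| ∂(νI.prod (νI.prod νI)) := by
        rw [integral_finsetSum _ fun i hi => (hloc i hi).1.abs, mul_sum]
    _ ≤ δ ^ 2 * ∫ u, 4 * (_ + _ + _) ∂(νI.prod (νI.prod νI)) := by
        refine mul_le_mul_of_nonneg_left (integral_mono
          (integrable_finsetSum _ fun i hi => (hloc i hi).1.abs)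
          (((i0.add i1).add i2).const_mul 4) fun u => ?_) (sq_nonneg δ)
        refine le_trans ?_ (h N (fun i j => F₀ (cel δ i u.1, cel δ j u.2.1))
          (fun j l => F₁ (cel δ j u.2.1, cel δ l u.2.2)) (fun l i => F₂ (cel δ l u.2.2, cel δ i u.1)))
        change ∑ i ∈ 𝓘, |D (κ i) i.2.1 i.2.2 u| ≤ ∑ k ∈ range N, ∑ n₀ ∈ R, ∑ n₁ ∈ R, |D k n₀ n₁ u|
        have e1 : ∑ k ∈ range N, ∑ n₀ ∈ R, ∑ n₁ ∈ R, |D k n₀ n₁ u| =
            ∑ p ∈ range N ×ˢ (R ×ˢ R), |D p.1 p.2.1 p.2.2 u| := by simp only [sum_product]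
        rw [e1, ← sum_image (g := fun i : ℤ × ℕ × ℕ => (κ i, i.2)) (s := 𝓘)
          (f := fun p : ℕ × ℕ × ℕ => |D p.1 p.2.1 p.2.2 u|) fun i hi j hj e => by
            simp only [Prod.mk.injEq] at e
            exact Prod.ext (by rw [hκ i hi, hκ j hj, e.1]) e.2]
        refine sum_le_sum_of_subset_of_nonneg (fun p hp => ?_) fun _ _ _ => abs_nonneg _
        obtain ⟨i, hi, rfl⟩ := mem_image.1 hp
        have := hN i hi
        have h2 : N < 2 ^ N := Nat.lt_two_pow_self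
        simp only [mem_product, mem_range, R]
        omega
    _ ≤ _ := by
        have e1 := integral_add (i0.add i1) i2
        simp only [Pi.add_apply] at e1
        rw [integral_const_mul, e1, integral_add i0 i1]
        linarith

lemma prod_of_add {S A B C : ℝ} (hA : 0 ≤ A) (hB : 0 ≤ B) (hC : 0 ≤ C)
    (h : ∀ r s t : ℝ, 0 < r → 0 < s → 0 < t → r * s * t * S ≤ 4 * (r ^ 3 * A + s ^ 3 * B + t ^ 3 * C)) :
    S ≤ 12 * A ^ (1 / 3 : ℝ) * B ^ (1 / 3 : ℝ) * C ^ (1 / 3 : ℝ) := by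
  have c : ∀ {A : ℝ}, 0 ≤ A → (A ^ (1 / 3 : ℝ)) ^ 3 = A := fun hA => by
    rw [← Real.rpow_natCast, ← Real.rpow_mul hA]; norm_num
  have pa := Real.rpow_nonneg hA (1 / 3)
  have pb := Real.rpow_nonneg hB (1 / 3)
  have pc := Real.rpow_nonneg hC (1 / 3)
  rw [← c hA, ← c hB, ← c hC] at h
  set a := A ^ (1 / 3 : ℝ)
  set b := B ^ (1 / 3 : ℝ)
  set d := C ^ (1 / 3 : ℝ)
  have key : ∀ ε > 0, S ≤ 12 * (a + ε) * (b + ε) * (d + ε) := fun ε hε => by
    have h1 := h (a + ε)⁻¹ (b + ε)⁻¹ (d + ε)⁻¹ (by positivity) (by positivity) (by positivity)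
    have e : ∀ {x : ℝ}, 0 ≤ x → (x + ε)⁻¹ ^ 3 * x ^ 3 ≤ 1 := fun {x} hx => by
      rw [← mul_pow]
      exact pow_le_one₀ (by positivity) (by rw [inv_mul_le_iff₀ (by positivity)]; linarith)
    have h2 : (a + ε)⁻¹ * (b + ε)⁻¹ * (d + ε)⁻¹ * S ≤ 12 := by linarith [e pa, e pb, e pc]
    rw [← mul_inv, ← mul_inv, inv_mul_le_iff₀ (by positivity)] at h2
    linarith
  have t : Filter.Tendsto (fun ε : ℝ => 12 * (a + ε) * (b + ε) * (d + ε)) (nhdsWithin 0 (Set.Ioi 0))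
      (nhds (12 * (a + 0) * (b + 0) * (d + 0))) :=
    (Continuous.tendsto (by fun_prop) 0).mono_left nhdsWithin_le_nhds
  simpa using ge_of_tendsto t (eventually_nhdsWithin_of_forall key)

theorem S0097_of (h : DyadicStmt)
    (F₀ F₁ F₂ : ℝ × ℝ → ℝ) (hF₀ : Measurable F₀) (hF₁ : Measurable F₁) (hF₂ : Measurable F₂)
    (hb : ∃ M : ℝ, ∀ z, abs (F₀ z) ≤ M ∧ abs (F₁ z) ≤ M ∧ abs (F₂ z) ≤ M)
    (hc₀ : HasCompactSupport F₀) (hc₁ : HasCompactSupport F₁) (hc₂ : HasCompactSupport F₂)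
    (𝓘 : Finset (ℤ × ℕ × ℕ)) :
    ∑ i ∈ 𝓘, abs (Crest.AnalysisR.TriangularDyadic.localForm i.1 i.2.1 i.2.2 (i.2.1 ^^^ i.2.2) F₀ F₁ F₂) ≤
      40 * (∫ z in Set.Ici 0 ×ˢ Set.Ici 0, abs (F₀ z) ^ 3) ^ (1 / 3 : ℝ) *
        (∫ z in Set.Ici 0 ×ˢ Set.Ici 0, abs (F₁ z) ^ 3) ^ (1 / 3 : ℝ) *
        (∫ z in Set.Ici 0 ×ˢ Set.Ici 0, abs (F₂ z) ^ 3) ^ (1 / 3 : ℝ) := by
  obtain ⟨C, hC⟩ := hb
  have hC0 : 0 ≤ C := (abs_nonneg _).trans (hC 0).1
  have n : ∀ F : ℝ × ℝ → ℝ, 0 ≤ ∫ z in Set.Ici 0 ×ˢ Set.Ici 0, |F z| ^ 3 := fun F =>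
    integral_nonneg fun z => by positivity
  refine (prod_of_add (n F₀) (n F₁) (n F₂) fun r s t hr hs ht => ?_).trans ?_
  · have := additive_bound h (fun z => r * F₀ z) (fun z => s * F₁ z) (fun z => t * F₂ z)
      (by fun_prop) (by fun_prop) (by fun_prop) (C := (r + s + t) * C) (fun z => by
        simp only [abs_mul, abs_of_pos hr, abs_of_pos hs, abs_of_pos ht]
        obtain ⟨a, b, c⟩ := hC z
        refine ⟨?_, ?_, ?_⟩ <;> gcongr <;> linarith)
      hc₀.mul_left hc₁.mul_left hc₂.mul_left 𝓘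
    simp only [abs_mul, abs_of_pos hr, abs_of_pos hs, abs_of_pos ht, mul_pow,
      integral_const_mul] at this
    refine le_trans (le_of_eq ?_) this
    rw [mul_sum]
    refine sum_congr rfl fun i _ => ?_
    rw [← abs_of_pos (show 0 < r * s * t by positivity), ← abs_mul]
    congr 1
    unfold localForm
    rw [mul_left_comm]
    simp only [← integral_const_mul]
    congr 1; ext; congr 1; ext; congr 1; ext; ring
  · have := Real.rpow_nonneg (n F₀) (1 / 3)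
    have := Real.rpow_nonneg (n F₁) (1 / 3)
    have := Real.rpow_nonneg (n F₂) (1 / 3)
    gcongr; norm_num

end Crest.Agent.R72
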