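import Crest.Agent.R72.Psi
import Crest.Agent.R72.Defs

/-! Row 72: the discrete dyadic inequality. -/

set_option autoImplicit false
set_option linter.unusedSectionVars false
set_option linter.unusedSimpArgs false

namespace Crest.Agent.R72

open Matrix Finset

section
variable {n m k : Type*} [Fintype n] [DecidableEq n] [Fintype m] [DecidableEq m]
  [Fintype k] [DecidableEq k]

lemma dy_vertex (a : Matrix m k ℝ) (b : Matrix k n ℝ) {p₀ p₁ : m → ℝ} {q₀ q₁ : k → ℝ}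
    {s₀ s₁ : n → ℝ} (hp₀ : ∀ j, 0 ≤ p₀ j) (hp₁ : ∀ j, 0 ≤ p₁ j)
    (hs₀ : ∀ j, 0 ≤ s₀ j) (hs₁ : ∀ j, 0 ≤ s₁ j) :
    Psi a b (fun j => (p₀ j + p₁ j) / 2) (fun j => (q₀ j + q₁ j) / 2) (fun j => (s₀ j + s₁ j) / 2) +
      gapq a b (fun j => (p₀ j + p₁ j) / 2) q₀ q₁ (fun j => (s₀ j + s₁ j) / 2) ≤
      1 / 4 * (Psi a b p₀ q₀ s₀ + Psi a b p₁ q₀ s₁ + Psi a b p₁ q₁ s₀ + Psi a b p₀ q₁ s₁) := by
  have h1 := Psi_convex_ps a b hp₀ hp₁ hs₀ hs₁ q₀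
  have h2 := Psi_convex_ps a b hp₀ hp₁ hs₁ hs₀ q₁
  have e : (fun i => (s₁ i + s₀ i) / 2) = fun i => (s₀ i + s₁ i) / 2 := by
    ext i; rw [add_comm]
  rw [e] at h2
  unfold gapq
  linarith
end

/-- normalised indicator of a dyadic block of cells -/
noncomputable def dw (N k n : ℕ) (i : Fin (2 ^ N)) : ℝ := if (i : ℕ) / 2 ^ k = n then 1 / 2 ^ k else 0

lemma dw_nonneg (N k n : ℕ) (i : Fin (2 ^ N)) : 0 ≤ dw N k n i := by
  unfold dw; split_ifs <;> positivity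

lemma dw_succ (N k n : ℕ) :
    dw N (k + 1) n = fun i => (dw N k (2 * n) i + dw N k (2 * n + 1) i) / 2 := by
  ext i
  unfold dw
  rw [pow_succ 2 k, ← Nat.div_div_eq_div_mul]
  split_ifs <;> first | omega | (simp [pow_succ]; done) | (field_simp; ring)

lemma dw_hs (N k n : ℕ) (i : Fin (2 ^ N)) :
    hs k n i = 2 ^ (k + 1) * ((dw N k (2 * n) i - dw N k (2 * n + 1) i) / 2) := by
  unfold dw hs
  split_ifs <;> first | omega | (simp [pow_succ]; done) | (field_simp; ring)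

lemma sum_range_two_mul (f : ℕ → ℝ) (M : ℕ) :
    ∑ n ∈ range (2 * M), f n = ∑ n ∈ range M, (f (2 * n) + f (2 * n + 1)) := by
  induction M with
  | zero => simp
  | succ M ih => rw [mul_add, mul_one, sum_range_succ, sum_range_succ, ih, sum_range_succ]; ring

lemma xor00 (a b : ℕ) : (2 * a) ^^^ (2 * b) = 2 * (a ^^^ b) := by
  simpa [Nat.bit] using Nat.xor_bit false a false b
lemma xor01 (a b : ℕ) : (2 * a) ^^^ (2 * b + 1) = 2 * (a ^^^ b) + 1 := by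
  simpa [Nat.bit] using Nat.xor_bit false a true b
lemma xor10 (a b : ℕ) : (2 * a + 1) ^^^ (2 * b) = 2 * (a ^^^ b) + 1 := by
  simpa [Nat.bit] using Nat.xor_bit true a false b
lemma xor11 (a b : ℕ) : (2 * a + 1) ^^^ (2 * b + 1) = 2 * (a ^^^ b) := by
  simpa [Nat.bit] using Nat.xor_bit true a true b

section
variable {N : ℕ} (a b c : Matrix (Fin (2 ^ N)) (Fin (2 ^ N)) ℝ)

/-- Bellman function of an admissible triple -/
noncomputable def dT (k n₀ n₁ : ℕ) : ℝ :=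
  Psi a b (dw N k n₀) (dw N k n₁) (dw N k (n₀ ^^^ n₁)) +
    Psi b c (dw N k n₁) (dw N k (n₀ ^^^ n₁)) (dw N k n₀) +
    Psi c a (dw N k (n₀ ^^^ n₁)) (dw N k n₀) (dw N k n₁)

lemma dT_nonneg (k n₀ n₁ : ℕ) : 0 ≤ dT a b c k n₀ n₁ :=
  add_nonneg (add_nonneg (Psi_nonneg _ _ _ _ _) (Psi_nonneg _ _ _ _ _)) (Psi_nonneg _ _ _ _ _)

lemma dT_step (k n₀ n₁ : ℕ) :
    |(1 / 2 ^ (k + 1) : ℝ) * ∑ i, ∑ j, ∑ l, a i j * b j l * c l i *
      (hs k n₀ i * hs k n₁ j * hs k (n₀ ^^^ n₁) l)| + 4 / 3 * (4 ^ (k + 1) * dT a b c (k + 1) n₀ n₁) ≤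
      4 / 3 * (4 ^ k * (dT a b c k (2 * n₀) (2 * n₁) + dT a b c k (2 * n₀) (2 * n₁ + 1) +
        (dT a b c k (2 * n₀ + 1) (2 * n₁) + dT a b c k (2 * n₀ + 1) (2 * n₁ + 1)))) := by
  have t := tri_weights a b c (dw_nonneg N k (2 * n₀)) (dw_nonneg N k (2 * n₀ + 1))
    (dw_nonneg N k (2 * n₁)) (dw_nonneg N k (2 * n₁ + 1))
    (dw_nonneg N k (2 * (n₀ ^^^ n₁))) (dw_nonneg N k (2 * (n₀ ^^^ n₁) + 1))
  have v1 := dy_vertex a b (q₀ := dw N k (2 * n₁)) (q₁ := dw N k (2 * n₁ + 1))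
    (dw_nonneg N k (2 * n₀)) (dw_nonneg N k (2 * n₀ + 1))
    (dw_nonneg N k (2 * (n₀ ^^^ n₁))) (dw_nonneg N k (2 * (n₀ ^^^ n₁) + 1))
  have v2 := dy_vertex b c (q₀ := dw N k (2 * (n₀ ^^^ n₁))) (q₁ := dw N k (2 * (n₀ ^^^ n₁) + 1))
    (dw_nonneg N k (2 * n₁)) (dw_nonneg N k (2 * n₁ + 1))
    (dw_nonneg N k (2 * n₀)) (dw_nonneg N k (2 * n₀ + 1))
  have v0 := dy_vertex c a (q₀ := dw N k (2 * n₀)) (q₁ := dw N k (2 * n₀ + 1))
    (dw_nonneg N k (2 * (n₀ ^^^ n₁))) (dw_nonneg N k (2 * (n₀ ^^^ n₁) + 1))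
    (dw_nonneg N k (2 * n₁)) (dw_nonneg N k (2 * n₁ + 1))
  have e : (1 / 2 ^ (k + 1) : ℝ) * ∑ i, ∑ j, ∑ l, a i j * b j l * c l i *
      (hs k n₀ i * hs k n₁ j * hs k (n₀ ^^^ n₁) l) = 4 ^ (k + 1) * ∑ i, ∑ j, ∑ l,
        a i j * b j l * c l i * ((dw N k (2 * n₀) i - dw N k (2 * n₀ + 1) i) / 2 *
          ((dw N k (2 * n₁) j - dw N k (2 * n₁ + 1) j) / 2) *
          ((dw N k (2 * (n₀ ^^^ n₁)) l - dw N k (2 * (n₀ ^^^ n₁) + 1) l) / 2)) := by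
    simp only [mul_sum]
    refine sum_congr rfl fun i _ => sum_congr rfl fun j _ => sum_congr rfl fun l _ => ?_
    rw [dw_hs N, dw_hs N, dw_hs N, show (4 : ℝ) = 2 * 2 by norm_num, mul_pow]
    field_simp
  rw [e, abs_mul, abs_of_nonneg (by positivity : (0 : ℝ) ≤ 4 ^ (k + 1))]
  simp only [dT, xor00, xor01, xor10, xor11, dw_succ]
  have h4 : (0 : ℝ) < 4 ^ k := by positivity
  rw [pow_succ]
  nlinarith

/-- Bellman sum at level `k` -/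
noncomputable def dU (k : ℕ) : ℝ :=
  4 ^ k * ∑ n₀ ∈ range (2 ^ (N - k)), ∑ n₁ ∈ range (2 ^ (N - k)), dT a b c k n₀ n₁

lemma hs_zero {k n : ℕ} (hk : k < N) (hn : 2 ^ (N - (k + 1)) ≤ n) (i : Fin (2 ^ N)) :
    hs k n i = 0 := by
  have : (i : ℕ) / 2 ^ k < 2 * 2 ^ (N - (k + 1)) := by
    rw [Nat.div_lt_iff_lt_mul (by positivity), ← pow_succ', ← pow_add]
    have : N - (k + 1) + 1 + k = N := by omega
    rw [this]; exact i.2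
  unfold hs
  rw [if_neg (by omega), if_neg (by omega)]

lemma dU_step {k : ℕ} (hk : k < N) :
    ∑ n₀ ∈ range (2 ^ N), ∑ n₁ ∈ range (2 ^ N), |(1 / 2 ^ (k + 1) : ℝ) * ∑ i, ∑ j, ∑ l,
      a i j * b j l * c l i * (hs k n₀ i * hs k n₁ j * hs k (n₀ ^^^ n₁) l)| +
      4 / 3 * dU a b c (k + 1) ≤ 4 / 3 * dU a b c k := by
  have hle : 2 ^ (N - (k + 1)) ≤ 2 ^ N := Nat.pow_le_pow_right (by norm_num) (by omega)
  have e1 : ∑ n₀ ∈ range (2 ^ N), ∑ n₁ ∈ range (2 ^ N), |(1 / 2 ^ (k + 1) : ℝ) * ∑ i, ∑ j, ∑ l,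
      a i j * b j l * c l i * (hs k n₀ i * hs k n₁ j * hs k (n₀ ^^^ n₁) l)| =
      ∑ n₀ ∈ range (2 ^ (N - (k + 1))), ∑ n₁ ∈ range (2 ^ (N - (k + 1))),
        |(1 / 2 ^ (k + 1) : ℝ) * ∑ i, ∑ j, ∑ l,
      a i j * b j l * c l i * (hs k n₀ i * hs k n₁ j * hs k (n₀ ^^^ n₁) l)| := by
    symm
    refine (sum_congr rfl fun n₀ _ => sum_subset (range_mono hle) fun n₁ _ h => ?_).trans
      (sum_subset (range_mono hle) fun n₀ _ h => ?_)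
    · simp [hs_zero hk (not_lt.1 (mem_range.not.1 h))]
    · simp [hs_zero hk (not_lt.1 (mem_range.not.1 h))]
  have e2 : 2 ^ (N - k) = 2 * 2 ^ (N - (k + 1)) := by
    rw [← pow_succ']; congr 1; omega
  rw [e1, dU, dU, e2, sum_range_two_mul]
  simp only [sum_range_two_mul, mul_sum, ← sum_add_distrib]
  exact sum_le_sum fun n₀ _ => sum_le_sum fun n₁ _ => by
    simpa only [mul_sum] using dT_step a b c k n₀ n₁

lemma dw_zero_sum (n : ℕ) : ∑ i, dw N 0 n i ≤ 1 := by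
  simp only [dw, pow_zero, Nat.div_one, div_one]
  by_cases h : n < 2 ^ N
  · rw [sum_eq_single ⟨n, h⟩] <;> simp +contextual [Fin.ext_iff]
  · rw [sum_eq_zero] <;> simp only [zero_le_one, mem_univ, forall_true_left]
    intro i; rw [if_neg]; have := i.2; omega

lemma dw_sum1 (f : Fin (2 ^ N) → ℝ) : ∑ n ∈ range (2 ^ N), ∑ i, dw N 0 n i * f i = ∑ i, f i := by
  rw [sum_comm]
  refine sum_congr rfl fun i _ => ?_
  simp [dw]

lemma dw_sum2 (t : ℕ) (ht : t < 2 ^ N) (g : ℕ → ℝ) :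
    ∑ n ∈ range (2 ^ N), g (n ^^^ t) = ∑ n ∈ range (2 ^ N), g n := by
  refine sum_nbij' (fun n => n ^^^ t) (fun n => n ^^^ t) ?_ ?_ ?_ ?_ ?_ <;>
    simp +contextual [Nat.xor_lt_two_pow, ht]

lemma dw_pair (f : Fin (2 ^ N) → Fin (2 ^ N) → ℝ) :
    ∑ n₀ ∈ range (2 ^ N), ∑ n₁ ∈ range (2 ^ N), ∑ i, ∑ j, dw N 0 n₀ i * dw N 0 n₁ j * f i j =
      ∑ i, ∑ j, f i j := by
  have : ∀ n₀, ∑ n₁ ∈ range (2 ^ N), ∑ i, ∑ j, dw N 0 n₀ i * dw N 0 n₁ j * f i j =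
      ∑ i, dw N 0 n₀ i * ∑ j, f i j := by
    intro n₀
    rw [sum_comm]
    refine sum_congr rfl fun i _ => ?_
    rw [← dw_sum1 (f i)]
    simp only [mul_sum, mul_assoc]
  simp only [this, dw_sum1]

lemma dU_zero : dU a b c 0 ≤ 3 * (∑ i, ∑ j, |a i j| ^ 3 + ∑ i, ∑ j, |b i j| ^ 3 +
    ∑ i, ∑ j, |c i j| ^ 3) := by
  set F : (Matrix (Fin (2 ^ N)) (Fin (2 ^ N)) ℝ) → ℕ → ℕ → ℝ := fun a n₀ n₁ =>
    ∑ i, ∑ j, dw N 0 n₀ i * dw N 0 n₁ j * |a i j| ^ 3 with hF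
  have h1 : ∀ n₀ n₁, dT a b c 0 n₀ n₁ ≤
      3 * (F a n₀ n₁ + F b n₁ (n₀ ^^^ n₁) + F c (n₀ ^^^ n₁) n₀) := by
    intro n₀ n₁
    have v1 := Psi_le a b (dw_nonneg N 0 n₀) (dw_nonneg N 0 n₁) (dw_nonneg N 0 (n₀ ^^^ n₁))
      (dw_zero_sum _) (dw_zero_sum _) (dw_zero_sum _)
    have v2 := Psi_le b c (dw_nonneg N 0 n₁) (dw_nonneg N 0 (n₀ ^^^ n₁)) (dw_nonneg N 0 n₀)
      (dw_zero_sum _) (dw_zero_sum _) (dw_zero_sum _)
    have v0 := Psi_le c a (dw_nonneg N 0 (n₀ ^^^ n₁)) (dw_nonneg N 0 n₀) (dw_nonneg N 0 n₁)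
      (dw_zero_sum _) (dw_zero_sum _) (dw_zero_sum _)
    simp only [dT, hF]; linarith
  have e1 : ∀ a, ∑ n₀ ∈ range (2 ^ N), ∑ n₁ ∈ range (2 ^ N), F a n₀ n₁ = ∑ i, ∑ j, |a i j| ^ 3 :=
    fun a => dw_pair _
  have e2 : ∑ n₀ ∈ range (2 ^ N), ∑ n₁ ∈ range (2 ^ N), F b n₁ (n₀ ^^^ n₁) =
      ∑ i, ∑ j, |b i j| ^ 3 := by
    rw [sum_comm, ← e1]
    exact sum_congr rfl fun n₁ h => dw_sum2 n₁ (mem_range.1 h) _
  have e3 : ∑ n₀ ∈ range (2 ^ N), ∑ n₁ ∈ range (2 ^ N), F c (n₀ ^^^ n₁) n₀ =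
      ∑ i, ∑ j, |c i j| ^ 3 := by
    rw [← e1, sum_comm (f := F c)]
    refine sum_congr rfl fun n₀ h => ?_
    simp only [Nat.xor_comm n₀]
    exact dw_sum2 n₀ (mem_range.1 h) (fun n => F c n n₀)
  rw [dU, pow_zero, one_mul, Nat.sub_zero, ← e1 a, ← e2, ← e3]
  simp only [mul_sum, ← sum_add_distrib]
  exact sum_le_sum fun n₀ _ => sum_le_sum fun n₁ _ => h1 n₀ n₁

end

theorem dyadicStmt : DyadicStmt := by
  intro N a b c
  set a' : Matrix (Fin (2 ^ N)) (Fin (2 ^ N)) ℝ := Matrix.of fun i j => a i j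
  set b' : Matrix (Fin (2 ^ N)) (Fin (2 ^ N)) ℝ := Matrix.of fun i j => b i j
  set c' : Matrix (Fin (2 ^ N)) (Fin (2 ^ N)) ℝ := Matrix.of fun i j => c i j
  have main : ∀ K, K ≤ N → ∑ k ∈ range K, ∑ n₀ ∈ range (2 ^ N), ∑ n₁ ∈ range (2 ^ N),
      |(1 / 2 ^ (k + 1) : ℝ) * ∑ i, ∑ j, ∑ l,
      a' i j * b' j l * c' l i * (hs k n₀ i * hs k n₁ j * hs k (n₀ ^^^ n₁) l)| +
      4 / 3 * dU a' b' c' K ≤ 4 / 3 * dU a' b' c' 0 := by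
    intro K
    induction K with
    | zero => simp
    | succ K ih =>
      intro hK
      have := dU_step a' b' c' (show K < N by omega)
      have := ih (by omega)
      rw [sum_range_succ]; linarith
  have h1 := main N le_rfl
  have h2 := dU_zero a' b' c'
  have h3 : 0 ≤ dU a' b' c' N :=
    mul_nonneg (by positivity) (sum_nonneg fun _ _ => sum_nonneg fun _ _ => dT_nonneg _ _ _ _ _ _)
  simp only [sum_range (n := 2 ^ N)] at h1 ⊢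
  simp only [a', b', c', of_apply] at h1 h2 h3
  linarith

end Crest.Agent.R72
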