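import Crest.Agent.R72.KernelA

/-! Row 72, part E: the facts on the smooth truncations. -/

set_option autoImplicit false

namespace Crest.Agent.R72

open MeasureTheory

/-- The odd atom at scale one. -/
noncomputable def oo (y : ℝ) : ℝ := (|y + 2| - 2 * |y + 1| + 2 * |y - 1| - |y - 2|) / 8

theorem oddA_eq {r : ℝ} (hr : 0 < r) : oddA r = fun y => oo (y / r) / r := by
  funext y
  have e : ∀ c : ℝ, |y / r + c| = |y + c * r| / r := by
    intro c
    rw [show y / r + c = (y + c * r) / r by field_simp, abs_div, abs_of_pos hr]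
  have e' : ∀ c : ℝ, |y / r - c| = |y - c * r| / r := by
    intro c
    rw [show y / r - c = (y - c * r) / r by field_simp, abs_div, abs_of_pos hr]
  unfold oddA hat trap oo
  rw [e, e, e', e']
  rw [show y + r + (r + r) / 2 = y + 2 * r by ring, show y + r - (r + r) / 2 = y by ring,
    show y + r + (r - r) / 2 = y + 1 * r by ring, show y + r - (r - r) / 2 = y + 1 * r by ring,
    show y - r + (r + r) / 2 = y by ring, show y - r - (r + r) / 2 = y - 2 * r by ring,
    show y - r + (r - r) / 2 = y - 1 * r by ring, show y - r - (r - r) / 2 = y - 1 * r by ring]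
  field_simp
  ring

theorem oo_lip (x y : ℝ) : |oo x - oo y| ≤ 1 * |x - y| := by
  have e : ∀ c : ℝ, |(|x + c| - |y + c|)| ≤ |x - y| := by
    intro c
    have := abs_abs_sub_abs_le_abs_sub (x + c) (y + c)
    rwa [add_sub_add_right_eq_sub] at this
  have h1 := abs_le.1 (e 2)
  have h2 := abs_le.1 (e 1)
  have h3 := abs_le.1 (e (-1))
  have h4 := abs_le.1 (e (-2))
  rw [← sub_eq_add_neg, ← sub_eq_add_neg] at h3 h4
  have h5 := abs_nonneg (x - y)
  unfold oo
  rw [abs_le]
  constructor <;> linarith [h1.1, h1.2, h2.1, h2.2, h3.1, h3.2, h4.1, h4.2]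

theorem oo_neg (y : ℝ) : oo (-y) = -oo y := by
  unfold oo
  rw [show -y + 2 = -(y - 2) by ring, show -y + 1 = -(y - 1) by ring,
    show -y - 1 = -(y + 1) by ring, show -y - 2 = -(y + 2) by ring]
  simp only [abs_neg]
  ring

theorem oo_zero (y : ℝ) (hy : 2 ≤ |y|) : oo y = 0 := by
  unfold oo
  rcases le_abs.1 hy with h | h
  · rw [abs_of_nonneg (by linarith), abs_of_nonneg (by linarith), abs_of_nonneg (by linarith),
      abs_of_nonneg (by linarith)]
    ring
  · rw [abs_of_nonpos (by linarith), abs_of_nonpos (by linarith), abs_of_nonpos (by linarith),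
      abs_of_nonpos (by linarith)]
    ring

theorem oo_neg_of {y : ℝ} (h0 : 0 < y) (h2 : y < 2) : oo y < 0 := by
  unfold oo
  rw [abs_of_nonneg (by linarith), abs_of_nonneg (by linarith : 0 ≤ y + 1),
    abs_of_nonpos (by linarith : y - 2 ≤ 0)]
  rcases le_total y 1 with h | h
  · rw [abs_of_nonpos (by linarith)]
    linarith
  · rw [abs_of_nonneg (by linarith)]
    linarith

theorem oo_nonpos {y : ℝ} (h0 : 0 ≤ y) : oo y ≤ 0 := by
  rcases h0.eq_or_lt with h | h
  · have := oo_neg 0
    rw [neg_zero] at this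
    rw [← h]
    linarith
  · rcases lt_or_ge y 2 with h2 | h2
    · exact (oo_neg_of h h2).le
    · exact (oo_zero y (by rwa [abs_of_nonneg h0])).le

theorem oo_nonneg {y : ℝ} (h0 : y ≤ 0) : 0 ≤ oo y := by
  have := oo_nonpos (y := -y) (by linarith)
  rw [oo_neg] at this
  linarith

theorem oo_nice : Nice oo := ⟨1, 2, zero_le_one, oo_lip, oo_zero⟩

theorem oo_cont : Continuous oo := oo_nice.cont

theorem oo_bd (y : ℝ) : |oo y| ≤ 2 := by
  rcases le_or_gt 2 |y| with h | h
  · rw [oo_zero y h, abs_zero]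
    norm_num
  · have h0 : oo 0 = 0 := le_antisymm (oo_nonpos le_rfl) (oo_nonneg le_rfl)
    have := oo_lip y 0
    rw [h0, sub_zero, sub_zero] at this
    linarith

/-- The primitive of the odd atom. -/
noncomputable def OO (v : ℝ) : ℝ := ∫ y in (-2 : ℝ)..v, oo y

theorem OO_sub (a b : ℝ) : OO b - OO a = ∫ y in a..b, oo y :=
  intervalIntegral.integral_interval_sub_left (oo_cont.intervalIntegrable _ _)
    (oo_cont.intervalIntegrable _ _)

theorem OO_neg (v : ℝ) : OO (-v) = OO v := by
  have h1 := OO_sub (-v) v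
  have h2 := intervalIntegral.integral_comp_neg (a := -v) (b := v) oo
  simp only [oo_neg, intervalIntegral.integral_neg, neg_neg] at h2
  linarith

theorem OO_zero (v : ℝ) (hv : 2 ≤ |v|) : OO v = 0 := by
  have key : ∀ w : ℝ, w ≤ -2 → OO w = 0 := by
    intro w hw
    unfold OO
    rw [intervalIntegral.integral_congr (g := fun _ => (0 : ℝ))]
    · simp
    · intro y hy
      rw [Set.uIcc_of_ge hw] at hy
      exact oo_zero y (le_abs.2 (Or.inr (by linarith [hy.2])))
  rcases le_abs.1 hv with h | h
  · rw [← OO_neg]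
    exact key _ (by linarith)
  · exact key _ (by linarith)

theorem OO_lip (x y : ℝ) : |OO x - OO y| ≤ 2 * |x - y| := by
  rw [OO_sub]
  exact intervalIntegral.norm_integral_le_of_norm_le_const (f := oo) (C := 2) fun s _ => oo_bd s

theorem OO_nice : Nice OO := ⟨2, 2, zero_le_two, OO_lip, OO_zero⟩

theorem OO_d2 (v h : ℝ) : |OO (v + h) + OO (v - h) - 2 * OO v| ≤ 1 * h ^ 2 := by
  have h1 := OO_sub v (v + h)
  have h2 := OO_sub (v - h) v
  have h3 := intervalIntegral.integral_comp_sub_right (a := v) (b := v + h) oo h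
  rw [add_sub_cancel_right] at h3
  have hc := oo_cont
  have h4 : OO (v + h) + OO (v - h) - 2 * OO v = ∫ y in v..v + h, (oo y - oo (y - h)) := by
    rw [intervalIntegral.integral_sub (hc.intervalIntegrable _ _)
      (Continuous.intervalIntegrable (by fun_prop) _ _), h3]
    linarith
  rw [h4]
  have h5 := intervalIntegral.norm_integral_le_of_norm_le_const (a := v) (b := v + h)
    (C := |h|) (f := fun y => oo y - oo (y - h)) fun s _ => by
      have := oo_lip s (s - h)
      rwa [sub_sub_cancel, one_mul] at this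
  rw [add_sub_cancel_left, ← abs_mul, Real.norm_eq_abs, abs_mul_self] at h5
  linarith

theorem OO_anti {a b : ℝ} (h : |a| ≤ |b|) : OO b ≤ OO a := by
  have e : ∀ v, OO v = OO |v| := by
    intro v
    rcases abs_choice v with h | h <;> rw [h]
    exact (OO_neg v).symm
  rw [e a, e b]
  have h1 := OO_sub |a| |b|
  have h2 : ∫ y in |a|..|b|, oo y ≤ ∫ y in |a|..|b|, (0 : ℝ) :=
    intervalIntegral.integral_mono_on h (oo_cont.intervalIntegrable _ _)
      (continuous_const.intervalIntegrable _ _) fun y hy => oo_nonpos ((abs_nonneg a).trans hy.1)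
  rw [intervalIntegral.integral_zero] at h2
  linarith

theorem OO_pos : 0 < OO 0 := by
  unfold OO
  refine intervalIntegral.intervalIntegral_pos_of_pos_on (oo_cont.intervalIntegrable _ _)
    (fun y hy => ?_) (by norm_num)
  have := oo_neg_of (y := -y) (by linarith [hy.2]) (by linarith [hy.1])
  rw [oo_neg] at this
  linarith

theorem avg_oddA {r : ℝ} (hr : 0 < r) :
    avg (oddA r) = fun s => OO ((s + 1) / r) - OO (s / r) := by
  funext s
  rw [oddA_eq hr, OO_sub]
  unfold avg
  rw [intervalIntegral.integral_comp_add_left (fun y => oo (y / r) / r) s,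
    intervalIntegral.integral_div, intervalIntegral.integral_comp_div _ hr.ne', smul_eq_mul,
    add_zero]
  field_simp

/-- second layer -/
noncomputable def PP : ℝ → ℝ := conv oo OO

/-- the primitive of the triple convolution -/
noncomputable def KK : ℝ → ℝ := conv oo PP

theorem PP_nice : Nice PP := oo_nice.conv OO_nice

theorem KK_nice : Nice KK := oo_nice.conv PP_nice

theorem PP_neg (t : ℝ) : PP (-t) = -1 * PP t :=
  conv_parity (σ := 1) oo_neg (fun x => by rw [OO_neg, one_mul]) t

theorem KK_neg (t : ℝ) : KK (-t) = KK t := by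
  have := conv_parity (σ := -1) oo_neg PP_neg t
  rwa [neg_neg, one_mul] at this

theorem KK_zero (t : ℝ) (ht : 6 ≤ |t|) : KK t = 0 :=
  conv_zero (A := 2) (B := 2 + 2) oo_zero (conv_zero oo_zero OO_zero) t (by linarith)

theorem two_PP (t : ℝ) : -(2 * PP t) = ∫ y, oo y * (OO (t + y) - OO (t - y)) := by
  have hc := OO_nice.cont
  have h1 : PP t = -∫ y, oo y * OO (t + y) := by
    unfold PP conv
    rw [← integral_neg_eq_self (fun x => oo x * OO (t - x)) volume, ← integral_neg]
    congr 1
    funext x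
    rw [oo_neg, sub_neg_eq_add]
    ring
  have h2 : PP t = ∫ y, oo y * OO (t - y) := rfl
  simp_rw [mul_sub]
  rw [integral_sub (oo_nice.int_mul (by fun_prop)) (oo_nice.int_mul (by fun_prop))]
  linarith

theorem PP_int_nonneg {t : ℝ} (ht : 0 ≤ t) (y : ℝ) : 0 ≤ oo y * (OO (t + y) - OO (t - y)) := by
  rcases le_total 0 y with h | h
  · refine mul_nonneg_of_nonpos_of_nonpos (oo_nonpos h) (sub_nonpos.2 (OO_anti ?_))
    rw [abs_of_nonneg (by linarith : 0 ≤ t + y), abs_le]
    constructor <;> linarith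
  · refine mul_nonneg (oo_nonneg h) (sub_nonneg.2 (OO_anti ?_))
    rw [abs_of_nonneg (by linarith : 0 ≤ t - y), abs_le]
    constructor <;> linarith

theorem PP_nonpos {t : ℝ} (ht : 0 ≤ t) : PP t ≤ 0 := by
  have h1 := two_PP t
  have h2 : 0 ≤ ∫ y, oo y * (OO (t + y) - OO (t - y)) := integral_nonneg (PP_int_nonneg ht)
  linarith

theorem PP_one : PP 1 < 0 := by
  have hc := OO_nice.cont
  have hc' := oo_cont
  have h1 := two_PP 1
  have h2 : 0 < ∫ y, oo y * (OO (1 + y) - OO (1 - y)) := by
    refine integral_pos_of_integrable_nonneg_nonzero (x := 1) (by fun_prop)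
      (oo_nice.int_mul (by fun_prop)) (PP_int_nonneg zero_le_one) (mul_ne_zero ?_ ?_)
    · exact (oo_neg_of one_pos one_lt_two).ne
    · rw [OO_zero (1 + 1) (by norm_num), sub_self]
      linarith [OO_pos]
  linarith

theorem KK_neg_zero : KK 0 < 0 := by
  have hc := PP_nice.cont
  have hc' := oo_cont
  have h1 : KK 0 = -∫ y, oo y * PP y := by
    unfold KK conv
    rw [← integral_neg]
    congr 1
    funext x
    rw [zero_sub, PP_neg]
    ring
  have h2 : 0 < ∫ y, oo y * PP y := by
    refine integral_pos_of_integrable_nonneg_nonzero (x := 1) (by fun_prop)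
      (oo_nice.int_mul hc) (fun y => ?_) (mul_ne_zero ?_ PP_one.ne)
    · rcases le_total 0 y with h | h
      · exact mul_nonneg_of_nonpos_of_nonpos (oo_nonpos h) (PP_nonpos h)
      · refine mul_nonneg (oo_nonneg h) ?_
        have := PP_nonpos (t := -y) (by linarith)
        rw [PP_neg] at this
        linarith
    · exact (oo_neg_of one_pos one_lt_two).ne
  linarith

theorem KK_d2 : ∃ M, 0 ≤ M ∧ ∀ v h, |KK (v + h) + KK (v - h) - 2 * KK v| ≤ M * h ^ 2 := by
  have h0 : 0 ≤ ∫ x, |oo x| := integral_nonneg fun x => abs_nonneg _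
  exact ⟨_, by positivity, conv_d2 oo_nice PP_nice.cont (conv_d2 oo_nice OO_nice.cont OO_d2)⟩

theorem KK_pair {r : ℝ} (hr : 0 < r) (N : ℝ) :
    conv (avg (oddA r)) (conv (avg (oddA r)) (avg (oddA r))) N = pair (fun t => KK (t / r)) N := by
  have hu : Nice (oddA r) := by
    rw [oddA_eq hr]
    exact (oo_nice.dil hr).div_const hr
  have hD : Nice (avg (oddA r)) := by
    rw [avg_oddA hr]
    exact (OO_nice.dil hr).delta
  have h1 : conv (oddA r) (avg (oddA r)) = fun s => PP ((s + 1) / r) - PP (s / r) := by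
    rw [avg_oddA hr, conv_delta hu (OO_nice.dil hr).cont, oddA_eq hr, conv_dil oo OO hr]
    rfl
  have h2 : conv (oddA r) (conv (oddA r) (avg (oddA r))) =
      fun s => KK ((s + 1) / r) - KK (s / r) := by
    rw [h1, conv_delta hu (PP_nice.dil hr).cont, oddA_eq hr, conv_dil oo PP hr]
    rfl
  rw [conv_avg_left hu (hD.conv hD), conv_avg_left hu hD, conv_avg_right hu (hu.conv hD), h2]
  rfl

/-- The logarithmic average of `KK`. -/
noncomputable def Lam (v : ℝ) : ℝ := ∫ θ in (0 : ℝ)..1, (KK (θ * v) - KK 0) / θ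

theorem Lam_int (t a b : ℝ) :
    IntervalIntegrable (fun w => (KK (w * t) - KK 0) / w) volume a b := by
  obtain ⟨L, A, hL, h1, _⟩ := KK_nice
  have hc := KK_nice.cont
  refine (intervalIntegrable_const (c := L * |t|)).mono_fun' ?_
    (Filter.Eventually.of_forall fun w => ?_)
  · apply Measurable.aestronglyMeasurable
    exact ((hc.measurable.comp (measurable_id.mul_const t)).sub_const _).div measurable_id
  · simp only [Real.norm_eq_abs]
    rcases eq_or_ne w 0 with h | h
    · rw [h, div_zero, abs_zero]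
      positivity
    · have := h1 (w * t) 0
      rw [sub_zero, abs_mul] at this
      rw [abs_div, div_le_iff₀ (abs_pos.2 h)]
      linarith

theorem Lam_scale {a : ℝ} (ha : 0 < a) (t : ℝ) :
    Lam (a * t) = ∫ w in (0 : ℝ)..a, (KK (w * t) - KK 0) / w := by
  have := intervalIntegral.smul_integral_comp_mul_left (a := 0) (b := 1)
    (fun w => (KK (w * t) - KK 0) / w) a
  rw [mul_zero, mul_one] at this
  rw [← this, smul_eq_mul, ← intervalIntegral.integral_const_mul]
  unfold Lam
  congr 1
  funext θ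
  rw [show θ * (a * t) = a * θ * t by ring]
  rcases eq_or_ne θ 0 with h | h
  · simp [h]
  · field_simp

theorem Lam_sub {a b : ℝ} (ha : 0 < a) (hb : 0 < b) (t : ℝ) :
    Lam (b * t) - Lam (a * t) = (∫ w in a..b, KK (w * t) / w) - KK 0 * Real.log (b / a) := by
  have hc := KK_nice.cont
  have h0 : ∀ w ∈ Set.uIcc a b, w ≠ 0 := fun w hw =>
    ((lt_min ha hb).trans_le hw.1).ne'
  rw [Lam_scale ha, Lam_scale hb,
    intervalIntegral.integral_interval_sub_left (Lam_int _ _ _) (Lam_int _ _ _),
    ← integral_one_div_of_pos ha hb, ← intervalIntegral.integral_const_mul,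
    ← intervalIntegral.integral_sub]
  · congr 1
    funext w
    ring
  · exact ContinuousOn.intervalIntegrable (ContinuousOn.div (by fun_prop) continuousOn_id h0)
  · exact ContinuousOn.intervalIntegrable
      (continuousOn_const.mul (ContinuousOn.div continuousOn_const continuousOn_id h0))

theorem Lam_neg (v : ℝ) : Lam (-v) = Lam v := by
  unfold Lam
  simp_rw [mul_neg, KK_neg]

theorem Lam_far {v : ℝ} (hv : 6 ≤ v) : Lam v = Lam 6 - KK 0 * (Real.log v - Real.log 6) := by
  have h := Lam_sub (a := 1) (b := v / 6) one_pos (by linarith) 6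
  have h1 : ∫ w in (1 : ℝ)..v / 6, KK (w * 6) / w = 0 := by
    rw [intervalIntegral.integral_congr (g := fun _ => (0 : ℝ))]
    · simp
    · intro w hw
      rw [Set.uIcc_of_le (by linarith)] at hw
      simp only
      rw [KK_zero _ (le_abs.2 (Or.inl (by linarith [hw.1]))), zero_div]
  rw [h1, div_mul_cancel₀ _ (by norm_num), one_mul, div_one,
    Real.log_div (by linarith) (by norm_num)] at h
  linarith

theorem Lam_lip {L : ℝ} (h1 : ∀ x y, |KK x - KK y| ≤ L * |x - y|) (x y : ℝ) :
    |Lam x - Lam y| ≤ L * |x - y| := by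
  unfold Lam
  rw [← intervalIntegral.integral_sub (Lam_int _ _ _) (Lam_int _ _ _)]
  have := intervalIntegral.norm_integral_le_of_norm_le_const (a := 0) (b := 1) (C := L * |x - y|)
    (f := fun θ => (KK (θ * x) - KK 0) / θ - (KK (θ * y) - KK 0) / θ) fun θ hθ => by
      rw [Set.uIoc_of_le zero_le_one] at hθ
      have h2 := h1 (θ * x) (θ * y)
      rw [← mul_sub, abs_mul, abs_of_pos hθ.1] at h2
      rw [← sub_div, sub_sub_sub_cancel_right, Real.norm_eq_abs, abs_div, abs_of_pos hθ.1,
        div_le_iff₀ hθ.1]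
      linarith
  simpa using this

theorem Lam_d2 {M : ℝ} (hM : 0 ≤ M) (h1 : ∀ v h, |KK (v + h) + KK (v - h) - 2 * KK v| ≤ M * h ^ 2)
    (v h : ℝ) : |Lam (v + h) + Lam (v - h) - 2 * Lam v| ≤ M * h ^ 2 := by
  unfold Lam
  rw [← intervalIntegral.integral_add (Lam_int _ _ _) (Lam_int _ _ _),
    ← intervalIntegral.integral_const_mul,
    ← intervalIntegral.integral_sub ((Lam_int _ _ _).add (Lam_int _ _ _))
      ((Lam_int _ _ _).const_mul 2)]
  have := intervalIntegral.norm_integral_le_of_norm_le_const (a := 0) (b := 1) (C := M * h ^ 2)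
    (f := fun θ => (KK (θ * (v + h)) - KK 0) / θ + (KK (θ * (v - h)) - KK 0) / θ -
      2 * ((KK (θ * v) - KK 0) / θ)) fun θ hθ => by
      rw [Set.uIoc_of_le zero_le_one] at hθ
      have h2 := h1 (θ * v) (θ * h)
      rw [← mul_add, ← mul_sub] at h2
      rw [show (KK (θ * (v + h)) - KK 0) / θ + (KK (θ * (v - h)) - KK 0) / θ -
          2 * ((KK (θ * v) - KK 0) / θ) =
          (KK (θ * (v + h)) + KK (θ * (v - h)) - 2 * KK (θ * v)) / θ by ring,
        Real.norm_eq_abs, abs_div, abs_of_pos hθ.1, div_le_iff₀ hθ.1]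
      have h3 : M * (θ * h) ^ 2 = M * h ^ 2 * θ * θ := by ring
      have h4 : M * h ^ 2 * θ * θ ≤ M * h ^ 2 * θ :=
        mul_le_of_le_one_right (mul_nonneg (by positivity) hθ.1.le) hθ.2
      linarith
  simpa using this

theorem max_lip (x y : ℝ) : |max 1 (|x|) - max 1 (|y|)| ≤ |x - y| := by
  rw [max_comm 1, max_comm 1]
  exact (abs_max_sub_max_le_abs _ _ _).trans (abs_abs_sub_abs_le_abs_sub x y)

theorem log_sub_le {a b : ℝ} (ha : 1 ≤ a) (hb : 1 ≤ b) : Real.log a - Real.log b ≤ |a - b| := by
  rw [← Real.log_div (by linarith) (by linarith)]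
  have h1 := Real.log_le_sub_one_of_pos (x := a / b) (by positivity)
  have h2 : a / b - 1 = (a - b) / b := by field_simp
  have h3 : (a - b) / b ≤ |a - b| := by
    rw [div_le_iff₀ (by linarith)]
    nlinarith [le_abs_self (a - b), abs_nonneg (a - b)]
  linarith

theorem lmax_lip (x y : ℝ) : |Real.log (max 1 |x|) - Real.log (max 1 |y|)| ≤ |x - y| := by
  have h1 := log_sub_le (le_max_left 1 |x|) (le_max_left 1 |y|)
  have h2 := log_sub_le (le_max_left 1 |y|) (le_max_left 1 |x|)
  rw [abs_sub_comm] at h2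
  have h3 := max_lip x y
  rw [abs_le]
  constructor <;> linarith

theorem lmax_d2 (v h : ℝ) :
    -h ^ 2 ≤ Real.log (max 1 |v + h|) + Real.log (max 1 |v - h|) - 2 * Real.log (max 1 |v|) := by
  have h1 := max_lip (v + h) (v - h)
  have ha := le_max_left 1 |v + h|
  have hb := le_max_left 1 |v - h|
  have hm := le_max_left 1 |v|
  have h2 : 2 * max 1 |v| ≤ max 1 |v + h| + max 1 |v - h| := by
    have ha' := le_max_right 1 |v + h|
    have hb' := le_max_right 1 |v - h|
    have h3 := abs_add_le (v + h) (v - h)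
    rw [show v + h + (v - h) = 2 * v by ring, abs_mul, abs_two] at h3
    rcases max_choice 1 |v| with h4 | h4 <;> rw [h4] <;> linarith
  generalize max 1 |v + h| = a at *
  generalize max 1 |v - h| = b at *
  generalize max 1 |v| = m at *
  have h3 : Real.log a + Real.log b - 2 * Real.log m = Real.log (a * b / m ^ 2) := by
    rw [Real.log_div (by positivity) (by positivity), Real.log_mul (by positivity) (by positivity),
      Real.log_pow]
    norm_num
  have h4 := Real.one_sub_inv_le_log_of_pos (x := a * b / m ^ 2) (by positivity)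
  rw [inv_div] at h4
  have h5 : (a - b) ^ 2 ≤ (2 * h) ^ 2 := by
    rw [show v + h - (v - h) = 2 * h by ring] at h1
    exact sq_le_sq.2 h1
  have hab : 1 ≤ a * b := one_le_mul_of_one_le_of_one_le ha hb
  have h6 : m ^ 2 / (a * b) ≤ 1 + h ^ 2 := by
    rw [div_le_iff₀ (by positivity)]
    have h7 : (2 * m) ^ 2 ≤ (a + b) ^ 2 := pow_le_pow_left₀ (by linarith) h2 2
    nlinarith [sq_nonneg h]
  linarith

theorem log_max_div {ε : ℝ} (hε : 0 < ε) (t : ℝ) :
    Real.log (max 1 |t / ε|) = Real.log (max ε |t|) - Real.log ε := by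
  rw [← Real.log_div (lt_max_of_lt_left hε).ne' hε.ne', ← max_div_div_right hε.le, div_self hε.ne',
    abs_div, abs_of_pos hε]

theorem kernelStmt : KernelStmt := by
  obtain ⟨L, A, hL, h1, _⟩ := KK_nice
  obtain ⟨M, hM, h2⟩ := KK_d2
  have hK := KK_neg_zero
  set c : ℝ := -1 / KK 0 with hc
  have hc0 : 0 ≤ c := div_nonneg_of_nonpos (by norm_num) hK.le
  have hcK : c * KK 0 = -1 := by
    rw [hc]
    field_simp [hK.ne]
  refine ⟨c, 1 + L + c * (L + M), KK,
    fun v => Real.log (max 1 |v|) - c * Lam v - (Real.log 6 - c * Lam 6), by positivity,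
    fun x y => (h1 x y).trans (mul_le_mul_of_nonneg_right ?_ (abs_nonneg _)), fun x y => ?_,
    fun v hv => ?_, fun v h => ?_, fun r hr N => KK_pair hr N, fun ε R hε hR t => ?_⟩
  · nlinarith [mul_nonneg hc0 (add_nonneg hL hM)]
  · have a1 := abs_le.1 (lmax_lip x y)
    have a2 := abs_le.1 (Lam_lip h1 x y)
    have a3 := abs_nonneg (x - y)
    have a4 := mul_le_mul_of_nonneg_left a2.1 hc0
    have a5 := mul_le_mul_of_nonneg_left a2.2 hc0
    have a6 := mul_nonneg hL a3
    have a7 := mul_nonneg (mul_nonneg hc0 hM) a3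
    rw [abs_le]
    constructor <;> nlinarith [a1.1, a1.2]
  · have a1 : Lam v = Lam |v| := by
      rcases abs_choice v with h | h <;> rw [h]
      exact (Lam_neg v).symm
    simp only
    rw [a1, Lam_far hv, max_eq_right (by linarith)]
    linear_combination (Real.log |v| - Real.log 6) * hcK
  · have a1 := lmax_d2 v h
    have a2 := (abs_le.1 (Lam_d2 hM h2 v h)).2
    have a4 := mul_le_mul_of_nonneg_left a2 hc0
    have a6 := mul_nonneg hL (sq_nonneg h)
    have a7 := mul_nonneg (mul_nonneg hc0 hL) (sq_nonneg h)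
    nlinarith
  · have hR0 : 0 < R := hε.trans_le hR
    have a1 := Lam_sub (a := 1 / R) (b := 1 / ε) (by positivity) (by positivity) t
    rw [one_div_mul_eq_div, one_div_mul_eq_div, Real.log_div (by positivity) (by positivity),
      Real.log_div one_ne_zero hε.ne', Real.log_div one_ne_zero hR0.ne', Real.log_one] at a1
    simp only
    rw [log_max_div hε, log_max_div hR0]
    unfold lg
    linear_combination c * a1 - (Real.log R - Real.log ε) * hcK

end Crest.Agent.R72
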