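import Crest.Agent.R72.Defs2
import Crest.Agent.R72.Weights
import Crest.Agent.R72.Kernel

/-! Row 72: the rough kernels are sums of generations of fine atoms. -/

set_option autoImplicit false

namespace Crest.Agent.R72

open MeasureTheory Filter Topology Finset

namespace Err

lemma nice_avg {u : ℝ → ℝ} (hu : Nice u) : Nice (avg u) := by
  have hc := hu.cont
  obtain ⟨L, A, hL, h1, h2⟩ := hu
  refine ⟨L, A + 1, hL, fun x y => ?_, fun x hx => Core.avg_zero h2 hx⟩
  unfold avg
  rw [← intervalIntegral.integral_sub (Continuous.intervalIntegrable (by fun_prop) _ _)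
    (Continuous.intervalIntegrable (by fun_prop) _ _)]
  have := intervalIntegral.norm_integral_le_of_norm_le_const (a := 0) (b := 1) (C := L * |x - y|)
    (f := fun s => u (x + s) - u (y + s)) fun s _ => by
      have := h1 (x + s) (y + s)
      rwa [add_sub_add_right_eq_sub] at this
  simpa using this

lemma nice_oddA {ρ : ℝ} (hρ : 0 < ρ) : Nice (oddA ρ) := by
  rw [oddA_eq hρ]
  exact (oo_nice.dil hρ).div_const hρ

/-- the five point average -/
noncomputable def nu (ρ : ℝ) (E : ℝ → ℝ) (x : ℝ) : ℝ :=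
  (E (x + 2 * ρ) + E (x - 2 * ρ)) / 8 + (E (x + ρ) + E (x - ρ)) / 4 + E x / 4

lemma nu_cont (ρ : ℝ) {E : ℝ → ℝ} (hE : Continuous E) : Continuous (nu ρ E) := by
  unfold nu
  fun_prop

lemma avg_nu (ρ : ℝ) {E : ℝ → ℝ} (hE : Continuous E) : avg (nu ρ E) = nu ρ (avg E) := by
  funext s
  unfold nu
  rw [Core.avg_add (by fun_prop) (by fun_prop), Core.avg_add (by fun_prop) (by fun_prop),
    Core.avg_div, Core.avg_div, Core.avg_div, Core.avg_add (by fun_prop) (by fun_prop),
    Core.avg_add (by fun_prop) (by fun_prop), Core.avg_shift, Core.avg_shift, Core.avg_shift',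
    Core.avg_shift']

lemma conv_nu (ρ : ℝ) {u g : ℝ → ℝ} (hu : Nice u) (hg : Continuous g) :
    conv u (nu ρ g) = nu ρ (conv u g) := by
  funext t
  have i : ∀ c : ℝ, Integrable fun x => u x * g (c - x) := fun c => hu.int_mul (by fun_prop)
  have e : ∀ x, u x * nu ρ g (t - x) =
      (u x * g (t + 2 * ρ - x) + u x * g (t - 2 * ρ - x)) / 8 +
        (u x * g (t + ρ - x) + u x * g (t - ρ - x)) / 4 + u x * g (t - x) / 4 := by
    intro x
    unfold nu
    rw [show t - x + 2 * ρ = t + 2 * ρ - x by ring, show t - x - 2 * ρ = t - 2 * ρ - x by ring,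
      show t - x + ρ = t + ρ - x by ring, show t - x - ρ = t - ρ - x by ring]
    ring
  have i1 : Integrable fun x => (u x * g (t + 2 * ρ - x) + u x * g (t - 2 * ρ - x)) / 8 :=
    ((i _).add (i _)).div_const 8
  have i2 : Integrable fun x => (u x * g (t + ρ - x) + u x * g (t - ρ - x)) / 4 :=
    ((i _).add (i _)).div_const 4
  have i3 : Integrable fun x => (u x * g (t + 2 * ρ - x) + u x * g (t - 2 * ρ - x)) / 8 +
      (u x * g (t + ρ - x) + u x * g (t - ρ - x)) / 4 := i1.add i2
  conv_lhs => unfold conv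
  simp only [e]
  rw [integral_add i3 ((i _).div_const 4), integral_add i1 i2, integral_div, integral_div,
    integral_div, integral_add (i _) (i _), integral_add (i _) (i _)]
  rfl

lemma oddA_two (ρ : ℝ) : oddA (2 * ρ) = fun y => 2 * nu ρ (oddA ρ) y := by
  funext y
  have h := Core.trap_two ρ ρ
  unfold nu oddA hat
  rw [h, h]
  ring_nf

/-- the atom functional -/
noncomputable def Cv (ρ : ℝ) (E : ℝ → ℝ) (N : ℝ) : ℝ := conv (avg (avg E)) (avg (oddA ρ)) N

lemma Cv_two {ρ : ℝ} (hρ : 0 < ρ) {E : ℝ → ℝ} (hE : Nice E) (N : ℝ) :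
    Cv (2 * ρ) E N = 2 * Cv ρ (nu ρ E) N := by
  have hu := nice_avg (nice_avg hE)
  have hg := nice_avg (nice_oddA hρ)
  unfold Cv
  have e1 : avg (oddA (2 * ρ)) = fun y => 2 * nu ρ (avg (oddA ρ)) y := by
    funext y
    rw [oddA_two ρ, Core.avg_mul, avg_nu ρ (nice_oddA hρ).cont]
  rw [avg_nu ρ hE.cont, avg_nu ρ (nice_avg hE).cont, conv_comm (nu ρ _), conv_nu ρ hg hu.cont,
    conv_comm (avg (oddA ρ)), ← conv_nu ρ hu hg.cont, e1]
  unfold conv
  rw [← integral_const_mul]
  congr 1
  funext x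
  ring

lemma Cv_div (ρ c : ℝ) (E : ℝ → ℝ) (N : ℝ) : Cv ρ (fun x => E x / c) N = Cv ρ E N / c := by
  have e1 : ∀ u : ℝ → ℝ, avg (fun x => u x / c) = fun s => avg u s / c :=
    fun u => funext fun s => Core.avg_div c u s
  unfold Cv conv
  rw [e1, e1, ← integral_div]
  congr 1
  funext x
  ring

lemma Cv_sub {ρ : ℝ} (hρ : 0 < ρ) {E E' : ℝ → ℝ} (hE : Continuous E) (hE' : Continuous E')
    (N : ℝ) : Cv ρ (fun x => E x - E' x) N = Cv ρ E N - Cv ρ E' N := by
  have hg := nice_avg (nice_oddA hρ)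
  have e1 : ∀ u v : ℝ → ℝ, Continuous u → Continuous v →
      avg (fun x => u x - v x) = fun s => avg u s - avg v s :=
    fun u v hu hv => funext fun s => Core.avg_sub hu hv s
  have c1 := Core.continuous_avg (Core.continuous_avg hE)
  have c2 := Core.continuous_avg (Core.continuous_avg hE')
  unfold Cv
  rw [e1 _ _ hE hE', e1 _ _ (Core.continuous_avg hE) (Core.continuous_avg hE'),
    conv_comm _ (avg (oddA ρ)), conv_comm _ (avg (oddA ρ)), conv_comm (avg (avg E'))]
  unfold conv
  rw [← integral_sub (hg.int_mul (by fun_prop)) (hg.int_mul (by fun_prop))]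
  congr 1
  funext x
  ring

lemma pair_eq {E : ℝ → ℝ} (hE : Continuous E) (N : ℝ) :
    pair E N = avg (avg E) (N + 1) - avg (avg E) N := by
  have e1 : ∀ u : ℝ → ℝ, Continuous u →
      avg (fun s => u (s + 1) - u s) = fun s => avg u (s + 1) - avg u s := by
    intro u hu
    funext s
    rw [Core.avg_sub (by fun_prop) hu, Core.avg_shift]
  unfold pair
  rw [e1 _ hE, e1 _ (Core.continuous_avg hE)]

lemma OO_int_pos : 0 < ∫ y, OO y := by
  refine OO_nice.cont.integral_pos_of_hasCompactSupport_nonneg_nonzero OO_nice.hcs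
    (fun y => ?_) OO_pos.ne'
  have h := OO_anti (a := y) (b := |y| + 2) (by
    rw [abs_of_nonneg (by positivity : 0 ≤ |y| + 2)]; linarith)
  rw [OO_zero _ (by rw [abs_of_nonneg (by positivity : 0 ≤ |y| + 2)]; linarith [abs_nonneg y])] at h
  exact h

lemma approx_id {u : ℝ → ℝ} (hu : Nice u) {ρ : ℕ → ℝ} (hρ : ∀ m, 0 < ρ m)
    (hl : Tendsto ρ atTop (𝓝 0)) (t : ℝ) :
    Tendsto (fun m => conv u (fun s => OO (s / ρ m)) t / ρ m) atTop (𝓝 ((∫ y, OO y) * u t)) := by
  have hc := hu.cont
  obtain ⟨M, hM⟩ := hu.bdd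
  have e : ∀ m, conv u (fun s => OO (s / ρ m)) t / ρ m = ∫ y, OO y * u (t - ρ m * y) := by
    intro m
    have h := Measure.integral_comp_div (fun y => OO y * u (t - ρ m * y)) (ρ m)
    rw [conv_comm, div_eq_iff (hρ m).ne', mul_comm, ← smul_eq_mul]
    rw [abs_of_pos (hρ m)] at h
    rw [← h]
    unfold conv
    congr 1
    funext x
    rw [mul_div_cancel₀ _ (hρ m).ne']
  simp only [e]
  rw [← integral_mul_const]
  refine tendsto_integral_of_dominated_convergence (fun y => |OO y| * M)
    (fun m => (OO_nice.int_mul (by fun_prop)).aestronglyMeasurable)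
    (OO_nice.integrable.abs.mul_const M) (fun m => Eventually.of_forall fun y => ?_)
    (Eventually.of_forall fun y => ?_)
  · rw [Real.norm_eq_abs, abs_mul]
    exact mul_le_mul_of_nonneg_left (hM _) (abs_nonneg _)
  · refine Tendsto.const_mul _ ((hc.tendsto t).comp ?_)
    have := (hl.mul_const y).const_sub t
    simpa using this

lemma Cv_tendsto {E : ℝ → ℝ} (hE : Nice E) {ρ : ℕ → ℝ} (hρ : ∀ m, 0 < ρ m)
    (hl : Tendsto ρ atTop (𝓝 0)) (N : ℝ) :
    Tendsto (fun m => Cv (ρ m) E N / ρ m) atTop (𝓝 ((∫ y, OO y) * pair E N)) := by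
  have hu := nice_avg (nice_avg hE)
  have e : ∀ m, Cv (ρ m) E N / ρ m = conv (avg (avg E)) (fun s => OO (s / ρ m)) (N + 1) / ρ m -
      conv (avg (avg E)) (fun s => OO (s / ρ m)) N / ρ m := by
    intro m
    have hc := OO_nice.cont
    unfold Cv
    rw [avg_oddA (hρ m), conv_delta (g := fun s => OO (s / ρ m)) hu (by fun_prop), sub_div]
  simp only [e]
  rw [pair_eq hE.cont, mul_sub]
  exact (approx_id hu hρ hl _).sub (approx_id hu hρ hl _)

section
variable {E : ℝ → ℝ} {a : ℝ} (ha : 0 < a) (hL : ∀ x y, |E x - E y| ≤ |x - y| / a)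
  (hs : ∀ x, 12 * a ≤ |x| → E x = 0)
include ha hL hs

lemma niceE : Nice E :=
  ⟨1 / a, 12 * a, by positivity, fun x y => (hL x y).trans (le_of_eq (by ring)), hs⟩

lemma absE (x : ℝ) : |E x| ≤ 24 := by
  rcases le_or_gt (12 * a) |x| with h | h
  · rw [hs x h, abs_zero]
    norm_num
  · have h1 := hL x (12 * a)
    rw [hs (12 * a) (le_abs_self _), sub_zero] at h1
    refine h1.trans ?_
    rw [div_le_iff₀ ha, abs_le]
    rw [abs_lt] at h
    constructor <;> linarith [h.1, h.2]

lemma intE : ∫ x, |E x| ≤ 576 * a := by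
  rw [Core.integral_eq_of_zero (L := 12 * a) fun y hy => by rw [hs y hy, abs_zero]]
  have := intervalIntegral.norm_integral_le_of_norm_le_const (a := -(12 * a)) (b := 12 * a)
    (C := 24) (f := fun x => |E x|) fun x _ => by
      rw [Real.norm_eq_abs, abs_abs]
      exact absE ha hL hs x
  rw [abs_of_pos (by linarith)] at this
  linarith [le_abs_self (∫ x in (-(12 * a))..(12 * a), |E x|), Real.norm_eq_abs
    (∫ x in (-(12 * a))..(12 * a), |E x|)]

omit ha hs in
lemma d2_le {t : ℝ} (ht : 0 ≤ t) (x : ℝ) : |E (x + t) + E (x - t) - 2 * E x| ≤ 2 * t / a := by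
  have h1 := hL (x + t) x
  have h2 := hL (x - t) x
  rw [add_sub_cancel_left, abs_of_nonneg ht] at h1
  rw [sub_sub_cancel_left, abs_neg, abs_of_nonneg ht] at h2
  have h3 := abs_add_le (E (x + t) - E x) (E (x - t) - E x)
  rw [show E (x + t) + E (x - t) - 2 * E x = E (x + t) - E x + (E (x - t) - E x) by ring]
  rw [mul_div_assoc]
  linarith

end

lemma sub_nu_le (ρ : ℝ) (E : ℝ → ℝ) (x : ℝ) : |E x - nu ρ E x| ≤
    |E (x + 2 * ρ) + E (x - 2 * ρ) - 2 * E x| / 8 + |E (x + ρ) + E (x - ρ) - 2 * E x| / 4 := by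
  have e : E x - nu ρ E x = -((E (x + 2 * ρ) + E (x - 2 * ρ) - 2 * E x) / 8 +
      (E (x + ρ) + E (x - ρ) - 2 * E x) / 4) := by
    unfold nu
    ring
  rw [e, abs_neg]
  refine (abs_add_le _ _).trans (le_of_eq ?_)
  rw [abs_div, abs_div]
  norm_num

end Err

open Err in
theorem errStmt_of (h : AtomStmt) : ErrStmt := by
  obtain ⟨C, hC0, hC⟩ := h
  have hI := OO_int_pos
  refine ⟨585 * C / ∫ y, OO y, by positivity, ?_⟩
  intro n hn S a₀ ha₀ K E N hN h0 hL hs hD h b c
  have ha : ∀ k : ℕ, 0 < a₀ * 2 ^ k := fun k => by positivity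
  have hE : ∀ k i j, Nice (E k i j) := fun k i j => niceE (ha k) (hL k i j) (hs k i j)
  set X := cube S h + cube S b + cube S c with hX
  have hX0 : 0 ≤ X := by
    have : ∀ f, 0 ≤ cube S f := fun f =>
      sum_nonneg fun i _ => sum_nonneg fun j _ => by positivity
    rw [hX]
    exact add_nonneg (add_nonneg (this _) (this _)) (this _)
  set Λ : ℕ → ℝ := fun m => ∑ k ∈ range K, ∑ i ∈ S, ∑ j ∈ S, ∑ l ∈ S, h i j * b j l * c l i *
    (Cv (a₀ * 2 ^ k / 2 ^ m) (E k i j) ((i + j + l : ℤ) : ℝ) / (a₀ * 2 ^ k / 2 ^ m)) with hΛ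
  have base : |Λ 0| ≤ 576 * (C * Real.sqrt n * X) := by
    have h1 := hC n hn S a₀ ha₀ K 0 (fun k i j x => E k i j x / (576 * (a₀ * 2 ^ k))) N hN
      (fun k i j => (hE k i j).cont.div_const _)
      (fun k i j x => by
        have := absE (ha k) (hL k i j) (hs k i j) x
        have h2 := ha k
        rw [abs_div, abs_of_pos (by positivity : 0 < 576 * (a₀ * 2 ^ k)),
          div_le_div_iff₀ (by positivity) h2]
        nlinarith)
      (fun k i j x hx => by
        rw [hs k i j x (by linarith [ha k]), zero_div])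
      (fun k i j => by
        have h2 := ha k
        simp only [abs_div, abs_of_pos (by positivity : 0 < 576 * (a₀ * 2 ^ k))]
        rw [integral_div]
        rcases Nat.eq_zero_or_pos (N k i j) with h3 | h3
        · simp [h0 k i j h3, h3]
        · have h4 : (1 : ℝ) ≤ N k i j := by exact_mod_cast h3
          rw [pow_zero, div_one, div_le_iff₀ (by positivity)]
          have := intE (ha k) (hL k i j) (hs k i j)
          nlinarith) h b c
    have e : Λ 0 = 576 * ∑ k ∈ range K, ∑ i ∈ S, ∑ j ∈ S, ∑ l ∈ S, h i j * b j l * c l i *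
        Cv (a₀ * 2 ^ k / 2 ^ 0) (fun x => E k i j x / (576 * (a₀ * 2 ^ k)))
          ((i + j + l : ℤ) : ℝ) := by
      simp only [hΛ, mul_sum]
      refine sum_congr rfl fun k _ => sum_congr rfl fun i _ => sum_congr rfl fun j _ =>
        sum_congr rfl fun l _ => ?_
      rw [Cv_div]
      have := ha k
      field_simp
    rw [e, abs_mul, abs_of_pos (by norm_num : (0 : ℝ) < 576)]
    refine mul_le_mul_of_nonneg_left (le_trans h1 (le_of_eq ?_)) (by norm_num)
    rw [pow_zero, mul_one]
  have step : ∀ m, |Λ (m + 1) - Λ m| ≤ (9 / 10) ^ (m + 1) * (C * Real.sqrt n * X) := by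
    intro m
    have hρ : ∀ k : ℕ, 0 < a₀ * 2 ^ k / 2 ^ (m + 1) := fun k => by positivity
    have hρ2 : ∀ k : ℕ, 2 * (a₀ * 2 ^ k / 2 ^ (m + 1)) = a₀ * 2 ^ k / 2 ^ m := fun k => by
      field_simp
      ring
    have hρa : ∀ k : ℕ, 2 * (a₀ * 2 ^ k / 2 ^ (m + 1)) ≤ a₀ * 2 ^ k := fun k => by
      rw [hρ2]
      exact div_le_self (ha k).le (one_le_pow₀ (by norm_num))
    have h1 := hC n hn S a₀ ha₀ K (m + 1) (fun k i j x =>
      (E k i j x - nu (a₀ * 2 ^ k / 2 ^ (m + 1)) (E k i j) x) / (a₀ * 2 ^ k / 2 ^ (m + 1))) N hN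
      (fun k i j => ((hE k i j).cont.sub (nu_cont _ (hE k i j).cont)).div_const _)
      (fun k i j x => by
        have h2 := hρ k
        have h3 := ha k
        set ρ := a₀ * 2 ^ k / 2 ^ (m + 1)
        set a := a₀ * 2 ^ k
        rw [abs_div, abs_of_pos h2, div_le_iff₀ h2]
        refine (sub_nu_le _ _ _).trans ?_
        have d1 := d2_le (hL k i j) (t := 2 * ρ) (by positivity) x
        have d2 := d2_le (hL k i j) (t := ρ) (by positivity) x
        have e1 : 2 * (2 * ρ) / a = 4 * (1 / a * ρ) := by ring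
        have e2 : 2 * ρ / a = 2 * (1 / a * ρ) := by ring
        linarith)
      (fun k i j x hx => by
        have h2 := hρ k
        have h3 := hρa k
        set ρ := a₀ * 2 ^ k / 2 ^ (m + 1)
        set a := a₀ * 2 ^ k
        have key : ∀ y, |y - x| ≤ 2 * ρ → E k i j y = 0 := by
          intro y hy
          refine hs k i j y ?_
          have := abs_sub_abs_le_abs_sub x y
          rw [abs_sub_comm] at this
          linarith
        simp only [nu]
        rw [key x (by simp [h2.le]), key (x + 2 * ρ) (by rw [abs_le]; constructor <;> linarith),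
          key (x - 2 * ρ) (by rw [abs_le]; constructor <;> linarith),
          key (x + ρ) (by rw [abs_le]; constructor <;> linarith),
          key (x - ρ) (by rw [abs_le]; constructor <;> linarith)]
        simp)
      (fun k i j => by
        have h2 := hρ k
        have h3 := hρa k
        have h4 := ha k
        have hρe : a₀ * 2 ^ k / 2 ^ (m + 1) / (a₀ * 2 ^ k) = 1 / 2 ^ (m + 1) := by field_simp
        set ρ := a₀ * 2 ^ k / 2 ^ (m + 1)
        set a := a₀ * 2 ^ k
        simp only [abs_div, abs_of_pos h2]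
        rw [integral_div, div_le_iff₀ h2]
        have iE := (hE k i j).integrable
        have iD : ∀ t : ℝ, Integrable fun x =>
            |E k i j (x + t) + E k i j (x - t) - 2 * E k i j x| := fun t =>
          (((iE.comp_add_right t).add (iE.comp_sub_right t)).sub (iE.const_mul 2)).abs
        have d1 := hD k i j (2 * ρ) (by positivity) h3
        have d2 := hD k i j ρ (by positivity) (by linarith)
        have h5 := integral_mono_of_nonneg (μ := volume)
          (f := fun x => |E k i j x - nu ρ (E k i j) x|)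
          (Eventually.of_forall fun x => abs_nonneg _)
          (((iD (2 * ρ)).div_const 8).add ((iD ρ).div_const 4))
          (Eventually.of_forall fun x => sub_nu_le ρ (E k i j) x)
        simp only [Pi.add_apply] at h5
        rw [integral_add ((iD (2 * ρ)).div_const 8) ((iD ρ).div_const 4), integral_div,
          integral_div] at h5
        have e1 : (N k i j : ℝ) * (2 * ρ) ^ 2 / a = 4 * (N k i j * (ρ / a) * ρ) := by ring
        have e2 : (N k i j : ℝ) * ρ ^ 2 / a = N k i j * (ρ / a) * ρ := by ring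
        have e3 : (N k i j : ℝ) / 2 ^ (m + 1) * ρ = N k i j * (ρ / a) * ρ := by rw [hρe]; ring
        have p : 0 ≤ (N k i j : ℝ) * (ρ / a) * ρ := by positivity
        linarith) h b c
    have e : Λ (m + 1) - Λ m = ∑ k ∈ range K, ∑ i ∈ S, ∑ j ∈ S, ∑ l ∈ S, h i j * b j l * c l i *
        Cv (a₀ * 2 ^ k / 2 ^ (m + 1)) (fun x => (E k i j x - nu (a₀ * 2 ^ k / 2 ^ (m + 1))
          (E k i j) x) / (a₀ * 2 ^ k / 2 ^ (m + 1))) ((i + j + l : ℤ) : ℝ) := by
      simp only [hΛ, ← sum_sub_distrib]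
      refine sum_congr rfl fun k _ => sum_congr rfl fun i _ => sum_congr rfl fun j _ =>
        sum_congr rfl fun l _ => ?_
      rw [Cv_div, Cv_sub (hρ k) (hE k i j).cont (nu_cont _ (hE k i j).cont), ← hρ2 k,
        Cv_two (hρ k) (hE k i j)]
      have := hρ k
      field_simp
    rw [e]
    exact le_trans h1 (le_of_eq (by ring))
  have hY : 0 ≤ C * Real.sqrt n * X := by positivity
  have all : ∀ m, |Λ m| ≤ (585 - 9 * (9 / 10) ^ m) * (C * Real.sqrt n * X) := by
    intro m
    induction m with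
    | zero => simpa using base.trans (le_of_eq (by norm_num))
    | succ m ih =>
      have h1 := abs_add_le (Λ m) (Λ (m + 1) - Λ m)
      rw [add_sub_cancel] at h1
      refine h1.trans ((add_le_add ih (step m)).trans (le_of_eq ?_))
      ring
  have lim : Tendsto Λ atTop (𝓝 (∑ k ∈ range K, ∑ i ∈ S, ∑ j ∈ S, ∑ l ∈ S, h i j * b j l * c l i *
      ((∫ y, OO y) * pair (E k i j) ((i + j + l : ℤ) : ℝ)))) := by
    refine tendsto_finsetSum _ fun k _ => tendsto_finsetSum _ fun i _ =>
      tendsto_finsetSum _ fun j _ => tendsto_finsetSum _ fun l _ => Tendsto.const_mul _ ?_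
    refine Cv_tendsto (hE k i j) (ρ := fun m => a₀ * 2 ^ k / 2 ^ m) (fun m => by positivity) ?_ _
    exact tendsto_const_nhds.div_atTop (tendsto_pow_atTop_atTop_of_one_lt (by norm_num))
  have fin := le_of_tendsto' lim.abs fun m => (all m).trans
    (mul_le_mul_of_nonneg_right (show 585 - 9 * (9 / 10 : ℝ) ^ m ≤ 585 by
      linarith [show 0 ≤ (9 / 10 : ℝ) ^ m by positivity]) hY)
  have e : ∑ k ∈ range K, ∑ i ∈ S, ∑ j ∈ S, ∑ l ∈ S, h i j * b j l * c l i *
      ((∫ y, OO y) * pair (E k i j) ((i + j + l : ℤ) : ℝ)) =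
      (∫ y, OO y) * ∑ k ∈ range K, ∑ i ∈ S, ∑ j ∈ S, ∑ l ∈ S, h i j * b j l * c l i *
        pair (E k i j) ((i + j + l : ℤ) : ℝ) := by
    simp only [mul_sum]
    refine sum_congr rfl fun k _ => sum_congr rfl fun i _ => sum_congr rfl fun j _ =>
      sum_congr rfl fun l _ => ?_
    ring
  rw [e, abs_mul, abs_of_pos hI] at fin
  rw [← le_div_iff₀' hI] at fin
  exact fin.trans (le_of_eq (by ring))

end Crest.Agent.R72
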