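import Crest.Agent.R72.Defs

/-! Row 72, part E (first half): Lipschitz compactly supported functions and convolution. -/

set_option autoImplicit false

namespace Crest.Agent.R72

open MeasureTheory

/-- Lipschitz with bounded support. -/
def Nice (f : ℝ → ℝ) : Prop :=
  ∃ L A : ℝ, 0 ≤ L ∧ (∀ x y, |f x - f y| ≤ L * |x - y|) ∧ ∀ x, A ≤ |x| → f x = 0

theorem cont_of_lip {f : ℝ → ℝ} {L : ℝ} (hL : 0 ≤ L) (h : ∀ x y, |f x - f y| ≤ L * |x - y|) :
    Continuous f := by
  have : LipschitzWith ⟨L, hL⟩ f := LipschitzWith.of_dist_le_mul fun x y => by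
    rw [Real.dist_eq, Real.dist_eq]
    exact h x y
  exact this.continuous

theorem hcs_of_zero {f : ℝ → ℝ} {A : ℝ} (h : ∀ x, A ≤ |x| → f x = 0) : HasCompactSupport f := by
  refine HasCompactSupport.intro (isCompact_Icc (a := -A) (b := A)) fun x hx => h x ?_
  by_contra hc
  push Not at hc
  exact hx ⟨(abs_lt.1 hc).1.le, (abs_lt.1 hc).2.le⟩

theorem Nice.cont {f : ℝ → ℝ} (h : Nice f) : Continuous f := by
  obtain ⟨L, A, hL, h1, _⟩ := h
  exact cont_of_lip hL h1

theorem Nice.hcs {f : ℝ → ℝ} (h : Nice f) : HasCompactSupport f := by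
  obtain ⟨L, A, _, _, h2⟩ := h
  exact hcs_of_zero h2

theorem Nice.integrable {f : ℝ → ℝ} (h : Nice f) : Integrable f :=
  h.cont.integrable_of_hasCompactSupport h.hcs

theorem Nice.bdd {f : ℝ → ℝ} (h : Nice f) : ∃ M, ∀ x, |f x| ≤ M := by
  obtain ⟨M, hM⟩ := h.cont.bounded_above_of_compact_support h.hcs
  exact ⟨M, fun x => by simpa using hM x⟩

theorem Nice.int_mul {u g : ℝ → ℝ} (hu : Nice u) (hg : Continuous g) :
    Integrable (fun x => u x * g x) :=
  (hu.cont.mul hg).integrable_of_hasCompactSupport hu.hcs.mul_right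

theorem conv_comm (u v : ℝ → ℝ) : conv u v = conv v u := by
  funext t
  unfold conv
  rw [← integral_sub_left_eq_self (fun x => u x * v (t - x)) volume t]
  simp [mul_comm]

/-- A pointwise bound on a combination of translates passes to the convolution. -/
theorem abs_integral_mul_le {u g : ℝ → ℝ} (hu : Nice u) {B : ℝ} (hB : ∀ x, |g x| ≤ B) :
    |∫ x, u x * g x| ≤ (∫ x, |u x|) * B := by
  rw [← integral_mul_const]
  have := norm_integral_le_of_norm_le (μ := volume) (f := fun x => u x * g x)
    (g := fun x => |u x| * B) (hu.integrable.abs.mul_const B)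
    (Filter.Eventually.of_forall fun x => by
      rw [Real.norm_eq_abs, abs_mul]
      exact mul_le_mul_of_nonneg_left (hB x) (abs_nonneg _))
  simpa using this

theorem conv_lip {u g : ℝ → ℝ} (hu : Nice u) {L : ℝ} (hL : 0 ≤ L)
    (hg : ∀ x y, |g x - g y| ≤ L * |x - y|) (x y : ℝ) :
    |conv u g x - conv u g y| ≤ ((∫ x, |u x|) * L) * |x - y| := by
  have hc := cont_of_lip hL hg
  unfold conv
  rw [← integral_sub (hu.int_mul (by fun_prop)) (hu.int_mul (by fun_prop))]
  simp_rw [← mul_sub]
  rw [mul_assoc]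
  refine abs_integral_mul_le hu fun s => ?_
  have := hg (x - s) (y - s)
  rwa [sub_sub_sub_cancel_right] at this

theorem conv_d2 {u g : ℝ → ℝ} (hu : Nice u) (hc : Continuous g) {M : ℝ}
    (hg : ∀ v h, |g (v + h) + g (v - h) - 2 * g v| ≤ M * h ^ 2) (v h : ℝ) :
    |conv u g (v + h) + conv u g (v - h) - 2 * conv u g v| ≤ ((∫ x, |u x|) * M) * h ^ 2 := by
  unfold conv
  have h1 : Integrable (fun x => u x * g (v + h - x)) := hu.int_mul (by fun_prop)
  have h2 : Integrable (fun x => u x * g (v - h - x)) := hu.int_mul (by fun_prop)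
  have h3 : Integrable (fun x => u x * g (v - x)) := hu.int_mul (by fun_prop)
  have h12 : Integrable (fun x => u x * g (v + h - x) + u x * g (v - h - x)) := h1.add h2
  rw [← integral_add h1 h2, ← integral_const_mul, ← integral_sub h12 (h3.const_mul 2)]
  have : ∀ x, u x * g (v + h - x) + u x * g (v - h - x) - 2 * (u x * g (v - x)) =
      u x * (g (v - x + h) + g (v - x - h) - 2 * g (v - x)) := by
    intro x
    rw [show v + h - x = v - x + h by ring, show v - h - x = v - x - h by ring]
    ring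
  simp_rw [this]
  rw [mul_assoc]
  exact abs_integral_mul_le hu fun s => hg _ _

theorem conv_zero {u g : ℝ → ℝ} {A B : ℝ} (hu : ∀ x, A ≤ |x| → u x = 0)
    (hg : ∀ x, B ≤ |x| → g x = 0) (t : ℝ) (ht : A + B ≤ |t|) : conv u g t = 0 := by
  unfold conv
  have : ∀ x, u x * g (t - x) = 0 := by
    intro x
    by_cases hx : A ≤ |x|
    · rw [hu x hx, zero_mul]
    · rw [hg (t - x) ?_, mul_zero]
      have := abs_sub_abs_le_abs_sub t x
      linarith
  simp [this]

theorem Nice.conv {u g : ℝ → ℝ} (hu : Nice u) (hg : Nice g) : Nice (conv u g) := by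
  obtain ⟨L, B, hL, h1, h2⟩ := hg
  have hu' := hu
  obtain ⟨L', A, _, _, h3⟩ := hu'
  exact ⟨(∫ x, |u x|) * L, A + B, mul_nonneg (integral_nonneg fun x => abs_nonneg _) hL,
    conv_lip hu hL h1, conv_zero h3 h2⟩

theorem conv_avg_right {u g : ℝ → ℝ} (hu : Nice u) (hg : Nice g) :
    conv u (avg g) = avg (conv u g) := by
  funext t
  obtain ⟨M, hM⟩ := hg.bdd
  have hc := hg.cont
  have huc := hu.cont
  unfold conv avg
  rw [intervalIntegral_integral_swap]
  · congr 1
    funext x
    rw [intervalIntegral.integral_const_mul]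
    congr 2
    funext y
    congr 1
    ring
  · have hI : Integrable (fun p : ℝ × ℝ => M * |u p.2|)
        ((volume.restrict (Set.uIoc (0 : ℝ) 1)).prod volume) := by
      have h0 : Integrable (fun _ : ℝ => M) (volume.restrict (Set.uIoc (0 : ℝ) 1)) := by
        rw [Set.uIoc_of_le zero_le_one]
        exact integrable_const M
      exact h0.mul_prod hu.integrable.abs
    refine hI.mono' ?_ (Filter.Eventually.of_forall fun p => ?_)
    · apply Continuous.aestronglyMeasurable
      unfold Function.uncurry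
      fun_prop
    · simp only [Function.uncurry, Real.norm_eq_abs, abs_mul]
      rw [mul_comm]
      exact mul_le_mul_of_nonneg_right (hM _) (abs_nonneg _)

theorem conv_avg_left {u g : ℝ → ℝ} (hu : Nice u) (hg : Nice g) :
    conv (avg u) g = avg (conv u g) := by
  rw [conv_comm, conv_avg_right hg hu, conv_comm]

theorem conv_delta {u g : ℝ → ℝ} (hu : Nice u) (hg : Continuous g) :
    conv u (fun s => g (s + 1) - g s) = fun s => conv u g (s + 1) - conv u g s := by
  funext t
  unfold conv
  rw [← integral_sub (hu.int_mul (by fun_prop)) (hu.int_mul (by fun_prop))]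
  congr 1
  funext x
  simp only
  rw [show t - x + 1 = t + 1 - x by ring]
  ring

theorem conv_dil (u g : ℝ → ℝ) {r : ℝ} (hr : 0 < r) :
    conv (fun y => u (y / r) / r) (fun s => g (s / r)) = fun t => conv u g (t / r) := by
  funext t
  unfold conv
  have := Measure.integral_comp_div (fun x => u x * g (t / r - x) / r) r
  rw [abs_of_pos hr, integral_div r (fun x => u x * g (t / r - x)), smul_eq_mul,
    mul_div_cancel₀ _ hr.ne'] at this
  rw [← this]
  congr 1
  funext x
  simp only
  rw [sub_div]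
  ring

theorem conv_parity {u g : ℝ → ℝ} {σ : ℝ} (hu : ∀ x, u (-x) = -u x) (hg : ∀ x, g (-x) = σ * g x)
    (t : ℝ) : conv u g (-t) = -σ * conv u g t := by
  unfold conv
  rw [← integral_neg_eq_self (fun x => u x * g (-t - x)) volume, ← integral_const_mul]
  congr 1
  funext x
  rw [hu, show -t - -x = -(t - x) by ring, hg]
  ring

theorem Nice.dil {g : ℝ → ℝ} (hg : Nice g) {r : ℝ} (hr : 0 < r) : Nice fun s => g (s / r) := by
  obtain ⟨L, A, hL, h1, h2⟩ := hg
  refine ⟨L / r, A * r, div_nonneg hL hr.le, fun x y => ?_, fun x hx => h2 _ ?_⟩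
  · have := h1 (x / r) (y / r)
    rw [← sub_div, abs_div, abs_of_pos hr] at this
    calc _ ≤ _ := this
      _ = _ := by ring
  · rw [abs_div, abs_of_pos hr, le_div_iff₀ hr]
    exact hx

theorem Nice.div_const {g : ℝ → ℝ} (hg : Nice g) {r : ℝ} (hr : 0 < r) : Nice fun s => g s / r := by
  obtain ⟨L, A, hL, h1, h2⟩ := hg
  refine ⟨L / r, A, div_nonneg hL hr.le, fun x y => ?_, fun x hx => by simp [h2 x hx]⟩
  rw [← sub_div, abs_div, abs_of_pos hr, div_le_iff₀ hr]
  calc _ ≤ _ := h1 x y
    _ = _ := by field_simp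

theorem Nice.delta {g : ℝ → ℝ} (hg : Nice g) : Nice fun s => g (s + 1) - g s := by
  obtain ⟨L, A, hL, h1, h2⟩ := hg
  refine ⟨2 * L, A + 1, by positivity, fun x y => ?_, fun x hx => ?_⟩
  · have a := h1 (x + 1) (y + 1)
    have b := h1 x y
    rw [add_sub_add_right_eq_sub] at a
    have := abs_sub (g (x + 1) - g (y + 1)) (g x - g y)
    rw [show g (x + 1) - g x - (g (y + 1) - g y) = g (x + 1) - g (y + 1) - (g x - g y) by ring]
    linarith
  · have h3 : A ≤ |x + 1| := by
      have := abs_sub_abs_le_abs_sub x (-1)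
      rw [sub_neg_eq_add, abs_neg, abs_one] at this
      linarith
    simp [h2 _ h3, h2 x (by linarith)]

end Crest.Agent.R72
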