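import Crest.Agent.R72.Tele
import Crest.Agent.R72.Defs2

/-! Row 72: the smooth single-scale kernels. -/

set_option autoImplicit false
set_option linter.unusedSectionVars false
set_option linter.unusedSimpArgs false

namespace Crest.Agent.R72.Core

open Matrix Finset MeasureTheory

lemma young3 {x y z : ℝ} (hx : 0 ≤ x) (hy : 0 ≤ y) (hz : 0 ≤ z) :
    x * y * z ≤ (x ^ 3 + y ^ 3 + z ^ 3) / 3 := by
  have : 0 ≤ (x + y + z) * ((x - y) ^ 2 + (y - z) ^ 2 + (z - x) ^ 2) := by positivity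
  nlinarith

/-- restriction to `S` -/
def mat (S : Finset ℤ) (f : ℤ → ℤ → ℝ) : Matrix S S ℝ := Matrix.of fun i j => f i j

lemma sum_coe2 (S : Finset ℤ) (f : ℤ → ℤ → ℝ) :
    ∑ i : S, ∑ j : S, f i j = ∑ i ∈ S, ∑ j ∈ S, f i j := by
  rw [← sum_coe_sort S]
  exact sum_congr rfl fun i _ => sum_coe_sort S (f i)

lemma mat_cube (S : Finset ℤ) (f : ℤ → ℤ → ℝ) : ∑ i, ∑ j, |mat S f i j| ^ 3 = cube S f :=
  sum_coe2 S fun i j => |f i j| ^ 3

lemma cube_nonneg (S : Finset ℤ) (f : ℤ → ℤ → ℝ) : 0 ≤ cube S f :=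
  sum_nonneg fun _ _ => sum_nonneg fun _ _ => by positivity

lemma cube_swap (S : Finset ℤ) (f : ℤ → ℤ → ℝ) : cube S (fun i j => f j i) = cube S f := sum_comm

lemma sum_reindex {S : Finset ℤ} {g : ℤ → ℤ → ℝ} {B : ℝ}
    (h : ∀ U : Finset (ℤ × ℤ), ∑ u ∈ U, g u.1 u.2 ^ 3 ≤ B) (φ : ℤ × ℤ → ℤ × ℤ)
    (hφ : Function.Injective φ) :
    ∑ i : S, ∑ j : S, g (φ (i, j)).1 (φ (i, j)).2 ^ 3 ≤ B := by
  rw [sum_coe2 S fun i j => g (φ (i, j)).1 (φ (i, j)).2 ^ 3, ← sum_product']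
  have := h ((S ×ˢ S).image φ)
  rwa [sum_image fun _ _ _ _ e => hφ e] at this

/-- the integrated gap -/
noncomputable def gapI (S : Finset ℤ) (a b : Matrix S S ℝ) (r ρ : ℝ) : ℝ :=
  ∫ z : ℝ × ℝ, gapq a b (wt S (trap (2 * r) (2 * ρ)) z.1)
    (mid (ρ / 2) (wt S (hat ρ)) (-z.1 - z.2 - ρ / 2))
    (mid (ρ / 2) (wt S (hat ρ)) (-z.1 - z.2 + ρ / 2)) (wt S (trap (2 * r) (2 * ρ)) z.2)

/-- the Bellman functional at scales `(r, ρ)` -/
noncomputable def WI (S : Finset ℤ) (a b : Matrix S S ℝ) (r ρ : ℝ) : ℝ :=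
  WW a b (wt S (trap r ρ)) (wt S (hat ρ)) (wt S (trap r ρ))

variable {S : Finset ℤ}

lemma gapI_le (a b : Matrix S S ℝ) {r ρ : ℝ} (hρ : 0 < ρ) (h : ρ ≤ r) :
    gapI S a b r ρ ≤ WI S a b r ρ - WI S a b (2 * r) (2 * ρ) := by
  have := WW_step a b (wt1_trap S hρ h).toWt (wt1_trap S hρ le_rfl).toWt (wt1_trap S hρ h).toWt
    (r / 2) (ρ / 2)
  rw [wt_trap_two, wt_trap_two] at this
  exact this

lemma gapI_sum (A : ℕ → Matrix S S ℝ) (b : Matrix S S ℝ) {r ρ : ℝ} (hρ : 0 < ρ) (h : ρ ≤ r)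
    (K : ℕ) : ∑ k ∈ range K, gapI S (A k) b (r * 2 ^ k) (ρ * 2 ^ k) ≤
      9 / 2 * (∑ i, ∑ j, |A 0 i j| ^ 3 + ∑ j, ∑ l, |b j l| ^ 3) +
      ∑ k ∈ range K, (WI S (A (k + 1)) b (r * 2 ^ (k + 1)) (ρ * 2 ^ (k + 1)) -
        WI S (A k) b (r * 2 ^ (k + 1)) (ρ * 2 ^ (k + 1))) := by
  have main : ∑ k ∈ range K, gapI S (A k) b (r * 2 ^ k) (ρ * 2 ^ k) +
      WI S (A K) b (r * 2 ^ K) (ρ * 2 ^ K) ≤ WI S (A 0) b r ρ +
      ∑ k ∈ range K, (WI S (A (k + 1)) b (r * 2 ^ (k + 1)) (ρ * 2 ^ (k + 1)) -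
        WI S (A k) b (r * 2 ^ (k + 1)) (ρ * 2 ^ (k + 1))) := by
    induction K with
    | zero => simp
    | succ K ih =>
      have := gapI_le (A K) b (r := r * 2 ^ K) (ρ := ρ * 2 ^ K) (by positivity) (by gcongr)
      rw [show 2 * (r * 2 ^ K) = r * 2 ^ (K + 1) by ring,
        show 2 * (ρ * 2 ^ K) = ρ * 2 ^ (K + 1) by ring] at this
      rw [sum_range_succ, sum_range_succ]; linarith
  have h1 : 0 ≤ WI S (A K) b (r * 2 ^ K) (ρ * 2 ^ K) := WW_nonneg _ _ _ _ _
  have h2 : WI S (A 0) b r ρ ≤ _ :=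
    WW_le (A 0) b (wt1_trap S hρ h) (wt1_trap S hρ le_rfl) (wt1_trap S hρ h)
  linarith

lemma gapI_flip (a b : Matrix S S ℝ) (r ρ : ℝ) : gapI S a b r ρ = gapI S bᵀ aᵀ r ρ := by
  unfold gapI
  rw [Measure.volume_eq_prod, ← integral_prod_swap]
  congr 1; ext z
  rw [gapq_flip]
  simp only [Prod.fst_swap, Prod.snd_swap]
  congr 2 <;> ring

lemma WI_change {h b gh gb : ℤ → ℤ → ℝ} (Hh : SM S h gh) (Hb : SM S b gb) {lam : ℝ} (h0 : 0 ≤ lam)
    (h1 : lam ≤ 1) (σ σ' : ℤ → ℤ → ℝ) (hσ : ∀ i j, |σ' i j| ≤ 1) {r : ℝ} (hr : 0 < r) :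
    WI S (mat S fun i j => lam * h i j * σ' i j) (mat S b) r r -
      WI S (mat S fun i j => lam * h i j * σ i j) (mat S b) r r ≤
      294 * lam ^ 2 * ∑ i : S, ∑ j : S, |σ' i j - σ i j| *
        (|h i j| * gh i j * (gh i j + gb j (-i - j))) := by
  have w := wt1_trap S hr le_rfl
  have := WW_change (mat S fun i j => lam * h i j * σ i j) (mat S b)
    (mat S fun i j => lam * h i j * σ' i j) w w w.toWt
    (fun i j => (7 * (lam * gh i j)) * (7 * (gh i j + gb j (-i - j))))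
    (fun i j => by
      have := Hh.nonneg i j; have := Hb.nonneg j (-i - j); positivity) (by
      intro x y i j hi hj
      have g1 := Hh.nonneg i j
      have g2 := Hb.nonneg j (-i - j)
      have si := wt_supp S hr le_rfl hi
      have sj := wt_supp S hr le_rfl hj
      have sq : ∀ i' j' : S, (mat S fun i j => lam * h i j * σ' i j) i' j' ^ 2 ≤
          lam ^ 2 * h i' j' ^ 2 := by
        intro i' j'
        simp only [mat, of_apply, mul_pow]
        refine mul_le_of_le_one_right (by positivity) ?_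
        rw [← sq_abs]; exact pow_le_one₀ (abs_nonneg _) (hσ _ _)
      have r1 := Hh.row (wt S (trap r r) (-x - y)) (D := 2) (by norm_num) hr
        (wt_le S hr le_rfl _) i j fun j' hj' => by
          have := wt_supp S hr le_rfl hj'
          rw [abs_le] at *; constructor <;> linarith [this.1, this.2, sj.1, sj.2]
      have r2 := Hh.col (wt S (trap r r) x) (D := 2) (by norm_num) hr (w.nonneg _)
        (wt_le S hr le_rfl _) i j fun j' hj' => by
          have := wt_supp S hr le_rfl hj'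
          rw [abs_le] at *; constructor <;> linarith [this.1, this.2, si.1, si.2]
      have r3 := Hb.row (wt S (trap r r) y) (D := 3) (by norm_num) hr
        (wt_le S hr le_rfl _) j (-i - j) fun j' hj' => by
          have := wt_supp S hr le_rfl hj'
          push_cast
          rw [abs_le] at *; constructor <;> linarith [this.1, this.2, sj.1, sj.2, si.1, si.2]
      have t1 : ∑ j', wt S (trap r r) (-x - y) j' *
          (mat S fun i j => lam * h i j * σ' i j) i j' ^ 2 ≤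
          lam ^ 2 * ∑ j', wt S (trap r r) (-x - y) j' * h i j' ^ 2 := by
        rw [mul_sum]
        refine sum_le_sum fun j' _ => ?_
        rw [mul_left_comm]
        exact mul_le_mul_of_nonneg_left (sq i j') (w.nonneg _ _)
      have t2 : ∑ i', wt S (trap r r) x i' * (mat S fun i j => lam * h i j * σ' i j) i' j ^ 2 ≤
          ∑ i', wt S (trap r r) x i' * h i' j ^ 2 := by
        refine sum_le_sum fun i' _ => mul_le_mul_of_nonneg_left ((sq i' j).trans ?_) (w.nonneg _ _)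
        exact mul_le_of_le_one_left (sq_nonneg _) (pow_le_one₀ h0 h1)
      refine mul_le_mul (Real.sqrt_le_iff.2 ⟨by positivity, t1.trans ?_⟩)
        (Real.sqrt_le_iff.2 ⟨by positivity, ?_⟩) (Real.sqrt_nonneg _) (by positivity)
      · have := mul_le_mul_of_nonneg_left r1 (sq_nonneg lam)
        nlinarith [sq_nonneg (lam * gh i j)]
      · simp only [mat, of_apply] at t2 ⊢
        nlinarith [mul_nonneg g1 g2, sq_nonneg (gh i j), sq_nonneg (gb j (-i - j))])
  refine this.trans (le_of_eq ?_)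
  simp only [mul_sum]
  refine sum_congr rfl fun i _ => sum_congr rfl fun j _ => ?_
  simp only [mat, of_apply]
  rw [← mul_sub, abs_mul, abs_mul, abs_of_nonneg h0]
  ring

lemma vertex_var (hM : MaxStmt) : ∃ C : ℝ, 0 ≤ C ∧ ∀ (n : ℕ), 1 ≤ n → ∀ (S : Finset ℤ) (r₀ : ℝ),
    0 < r₀ → ∀ (K : ℕ) (σ : ℕ → ℤ → ℤ → ℝ), (∀ k i j, |σ k i j| ≤ 1) →
    (∀ i j, ∑ k ∈ range K, |σ (k + 1) i j - σ k i j| ≤ 2 * n) → ∀ h b : ℤ → ℤ → ℝ,
    ∑ k ∈ range K, gapI S (mat S fun i j => (Real.sqrt n)⁻¹ * h i j * σ k i j) (mat S b)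
      (r₀ * 2 ^ k) (r₀ * 2 ^ k) ≤ C * (cube S h + cube S b) := by
  obtain ⟨C, hC, hS⟩ := exists_SM hM
  refine ⟨9 / 2 + 588 * (1 + C), by positivity, fun n hn S r₀ hr K σ hσ hv h b => ?_⟩
  obtain ⟨gh, Hh, ch⟩ := hS S h
  obtain ⟨gb, Hb, cb⟩ := hS S b
  have hn1 : (1 : ℝ) ≤ n := by exact_mod_cast hn
  have hs1 : 1 ≤ Real.sqrt n := Real.one_le_sqrt.2 hn1
  set lam := (Real.sqrt n)⁻¹ with hlam
  have h0 : 0 ≤ lam := by positivity
  have h1 : lam ≤ 1 := inv_le_one_of_one_le₀ hs1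
  have h2 : lam ^ 2 * n = 1 := by
    rw [hlam, inv_pow, Real.sq_sqrt (by positivity), inv_mul_cancel₀ (by positivity)]
  refine (gapI_sum (fun k => mat S fun i j => lam * h i j * σ k i j) (mat S b) hr le_rfl K).trans ?_
  have a1 : ∑ i, ∑ j, |(mat S fun i j => lam * h i j * σ 0 i j) i j| ^ 3 ≤ cube S h := by
    rw [← mat_cube]
    refine sum_le_sum fun i _ => sum_le_sum fun j _ => pow_le_pow_left₀ (abs_nonneg _) ?_ 3
    simp only [mat, of_apply, abs_mul, abs_of_nonneg h0]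
    exact (mul_le_of_le_one_right (by positivity) (hσ _ _ _)).trans
      (mul_le_of_le_one_left (abs_nonneg _) h1)
  have a2 := sum_le_sum (s := range K) fun k _ => WI_change Hh Hb h0 h1 (σ k) (σ (k + 1))
    (hσ (k + 1)) (r := r₀ * 2 ^ (k + 1)) (by positivity)
  have a3 : ∑ k ∈ range K, 294 * lam ^ 2 * ∑ i : S, ∑ j : S, |σ (k + 1) i j - σ k i j| *
      (|h i j| * gh i j * (gh i j + gb j (-i - j))) ≤
      588 * ∑ i : S, ∑ j : S, (|h i j| * gh i j * (gh i j + gb j (-i - j))) := by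
    rw [← mul_sum, sum_comm, show (588 : ℝ) = 294 * lam ^ 2 * (2 * n) by linear_combination -588 * h2,
      mul_assoc _ (2 * (n : ℝ))]
    refine mul_le_mul_of_nonneg_left ?_ (by positivity)
    rw [mul_sum]
    refine sum_le_sum fun i _ => ?_
    rw [sum_comm, mul_sum]
    refine sum_le_sum fun j _ => ?_
    rw [← sum_mul]
    have := Hh.nonneg i j; have := Hb.nonneg j (-i - j)
    exact mul_le_mul_of_nonneg_right (hv i j) (by positivity)
  have a4 : ∑ i : S, ∑ j : S, (|h i j| * gh i j * (gh i j + gb j (-i - j))) ≤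
      ∑ i : S, ∑ j : S, |h i j| ^ 3 + ∑ i : S, ∑ j : S, gh i j ^ 3 +
        ∑ i : S, ∑ j : S, gb j (-i - j) ^ 3 := by
    simp only [← sum_add_distrib]
    refine sum_le_sum fun i _ => sum_le_sum fun j _ => ?_
    have g1 := Hh.nonneg i j
    have g2 := Hb.nonneg j (-i - j)
    have y1 := young3 (abs_nonneg (h i j)) g1 g1
    have y2 := young3 (abs_nonneg (h i j)) g1 g2
    nlinarith [pow_nonneg (abs_nonneg (h i j)) 3, pow_nonneg g2 3]
  have a5 := sum_reindex (S := S) ch id Function.injective_id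
  have a6 := sum_reindex (S := S) cb (fun u => (u.2, -u.1 - u.2)) fun u v e => by
    simp only [Prod.mk.injEq] at e
    ext <;> omega
  have a7 : ∑ i : S, ∑ j : S, |h i j| ^ 3 = cube S h := mat_cube S h
  rw [mat_cube S b]
  simp only [id] at a5 a6
  nlinarith [cube_nonneg S h, cube_nonneg S b, mul_nonneg hC (cube_nonneg S h),
    mul_nonneg hC (cube_nonneg S b)]

lemma continuous_oddA (r : ℝ) : Continuous (oddA r) := by
  have : Continuous (hat r) := continuous_trap r r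
  unfold oddA; fun_prop

lemma oddA_zero {r : ℝ} (hr : 0 < r) {y : ℝ} (hy : 2 * r ≤ |y|) : oddA r y = 0 := by
  have h1 := abs_sub (y + r) r
  have h2 := abs_add_le (y - r) r
  rw [add_sub_cancel_right, abs_of_pos hr] at h1
  rw [sub_add_cancel, abs_of_pos hr] at h2
  unfold oddA hat
  rw [trap_zero hr le_rfl (by linarith), trap_zero hr le_rfl (by linarith)]; simp

lemma plane_conv3 {u : ℝ → ℝ} (hu : Continuous u) {L : ℝ} (h : ∀ y, L ≤ |y| → u y = 0) (α β γ : ℝ) :
    Integrable (fun z : ℝ × ℝ => u (α - z.1) * u (β - (-z.1 - z.2)) * u (γ - z.2)) ∧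
    ∫ z : ℝ × ℝ, u (α - z.1) * u (β - (-z.1 - z.2)) * u (γ - z.2) =
      conv u (conv u u) (α + β + γ) := by
  have i : Integrable (fun z : ℝ × ℝ => u (α - z.1) * u (β - (-z.1 - z.2)) * u (γ - z.2)) := by
    refine integrable_of_box (by fun_prop) (L + |α| + |γ|) fun z hz => ?_
    have h1 := abs_sub α (α - z.1)
    have h2 := abs_sub γ (γ - z.2)
    rw [sub_sub_cancel] at h1 h2
    rcases hz with hz | hz
    · rw [h (α - z.1) (by linarith [abs_nonneg γ])]; simp
    · rw [h (γ - z.2) (by linarith [abs_nonneg α])]; simp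
  refine ⟨i, ?_⟩
  rw [Measure.volume_eq_prod, integral_prod _ i]
  unfold conv
  rw [← integral_sub_left_eq_self _ _ α]
  congr 1; ext x
  rw [← integral_sub_left_eq_self _ _ γ, ← integral_const_mul]
  congr 1; ext y
  simp only [sub_sub_cancel]
  rw [show β - (-(α - x) - (γ - y)) = α + β + γ - x - y by ring]; ring

lemma single_scale (a b c : Matrix S S ℝ) {r : ℝ} (hr : 0 < r) :
    |∑ i, ∑ j, ∑ l, a i j * b j l * c l i * conv (avg (oddA r)) (conv (avg (oddA r)) (avg (oddA r)))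
      (((i : ℤ) + j + l : ℤ) : ℝ)| ≤ 4 / 3 * (gapI S c a r r + gapI S a b r r + gapI S b c r r) := by
  have hu := continuous_avg (continuous_oddA r)
  have hz : ∀ y, 2 * r + 1 ≤ |y| → avg (oddA r) y = 0 := fun y hy =>
    avg_zero (fun y hy => oddA_zero hr hy) hy
  have pc := fun i j l : S => plane_conv3 hu hz (i : ℤ) (j : ℤ) (l : ℤ)
  have e : ∑ i, ∑ j, ∑ l, a i j * b j l * c l i * conv (avg (oddA r))
      (conv (avg (oddA r)) (avg (oddA r))) (((i : ℤ) + j + l : ℤ) : ℝ) =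
      ∫ z : ℝ × ℝ, ∑ i, ∑ j, ∑ l, a i j * b j l * c l i * (avg (oddA r) ((i : ℤ) - z.1) *
        avg (oddA r) ((j : ℤ) - (-z.1 - z.2)) * avg (oddA r) ((l : ℤ) - z.2)) := by
    rw [integral_finsetSum _ fun i _ => integrable_finsetSum _ fun j _ =>
      integrable_finsetSum _ fun l _ => (pc i j l).1.const_mul _]
    refine sum_congr rfl fun i _ => ?_
    rw [integral_finsetSum _ fun j _ => integrable_finsetSum _ fun l _ => (pc i j l).1.const_mul _]
    refine sum_congr rfl fun j _ => ?_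
    rw [integral_finsetSum _ fun l _ => (pc i j l).1.const_mul _]
    refine sum_congr rfl fun l _ => ?_
    rw [integral_const_mul, (pc i j l).2]
    push_cast; rfl
  have w := (wt1_trap S hr le_rfl).toWt
  have w1 := w.mid (r / 2)
  have w2 := (wt1_trap S (show 0 < 2 * r by positivity) le_rfl).toWt
  have ig := fun a b : Matrix S S ℝ => integrable_gapq a b w2 w1 w2 (r / 2)
  have i0 := integrable_rot2 (ig c a)
  have i2 := integrable_rot (ig b c)
  have i01 := i0.fun_add (ig a b)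
  have i3 := i01.fun_add i2
  unfold gapI
  rw [e, ← integral_rot2 (fun z => gapq c a _ _ _ _), ← integral_rot (fun z => gapq b c _ _ _ _)]
  refine abs_integral_le_integral_abs.trans ?_
  refine le_trans (integral_mono_of_nonneg (Filter.Eventually.of_forall fun z => abs_nonneg _)
    (i3.const_mul (4 / 3)) (Filter.Eventually.of_forall fun z => ?_)) (le_of_eq ?_)
  · have t := tri_weights a b c (w1.nonneg (z.1 - r / 2)) (w1.nonneg (z.1 + r / 2))
      (w1.nonneg (-z.1 - z.2 - r / 2)) (w1.nonneg (-z.1 - z.2 + r / 2))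
      (w1.nonneg (z.2 - r / 2)) (w1.nonneg (z.2 + r / 2))
    simp only [mid_mid, wt_trap_two] at t
    have at1 := wt_atom S r
    unfold hat at at1
    simp only [at1] at t
    simp only [show -z.2 - (-z.1 - z.2) = z.1 by ring, show -(-z.1 - z.2) - z.1 = z.2 by ring]
    exact t
  · rw [integral_const_mul, integral_add i01 i2, integral_add i0 (ig a b)]
    rfl

theorem mainStmt (hM : MaxStmt) : MainStmt := by
  obtain ⟨C, hC, hV⟩ := vertex_var hM
  refine ⟨4 / 3 * (2 * C + 9), by positivity, fun n hn S r₀ hr K σ hσ hv h b c => ?_⟩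
  have hn1 : (1 : ℝ) ≤ n := by exact_mod_cast hn
  have hs1 : 1 ≤ Real.sqrt n := Real.one_le_sqrt.2 hn1
  have v1 := hV n hn S r₀ hr K σ hσ hv h b
  have v0 := hV n hn S r₀ hr K (fun k i j => σ k j i) (fun k i j => hσ k j i) (fun i j => hv j i)
    (fun i j => h j i) (fun i j => c j i)
  have v2 := gapI_sum (fun _ => mat S b) (mat S c) hr le_rfl K
  simp only [sub_self, sum_const_zero, add_zero, mat_cube] at v2
  rw [cube_swap S h, cube_swap S c] at v0
  have s := fun k : ℕ => single_scale (mat S fun i j => (Real.sqrt n)⁻¹ * h i j * σ k i j) (mat S b)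
    (mat S c) (r := r₀ * 2 ^ k) (by positivity)
  have e : ∑ k ∈ range K, ∑ i ∈ S, ∑ j ∈ S, ∑ l ∈ S, h i j * b j l * c l i * (σ k i j *
        conv (avg (oddA (r₀ * 2 ^ k))) (conv (avg (oddA (r₀ * 2 ^ k))) (avg (oddA (r₀ * 2 ^ k))))
          ((i + j + l : ℤ) : ℝ)) = Real.sqrt n * ∑ k ∈ range K, ∑ i, ∑ j, ∑ l,
        (mat S fun i j => (Real.sqrt n)⁻¹ * h i j * σ k i j) i j * mat S b j l * mat S c l i *
        conv (avg (oddA (r₀ * 2 ^ k))) (conv (avg (oddA (r₀ * 2 ^ k))) (avg (oddA (r₀ * 2 ^ k))))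
          (((i : ℤ) + j + l : ℤ) : ℝ) := by
    rw [mul_sum]
    refine sum_congr rfl fun k _ => ?_
    rw [← sum_coe_sort S, mul_sum]
    refine sum_congr rfl fun i _ => ?_
    rw [← sum_coe_sort S, mul_sum]
    refine sum_congr rfl fun j _ => ?_
    rw [← sum_coe_sort S, mul_sum]
    refine sum_congr rfl fun l _ => ?_
    simp only [mat, of_apply]
    field_simp
  rw [e, abs_mul, abs_of_nonneg (Real.sqrt_nonneg _), mul_comm _ (Real.sqrt n), mul_assoc]
  refine mul_le_mul_of_nonneg_left ?_ (Real.sqrt_nonneg _)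
  refine (abs_sum_le_sum_abs _ _).trans ((sum_le_sum fun k _ => s k).trans ?_)
  rw [← mul_sum, sum_add_distrib, sum_add_distrib]
  have f : ∀ k : ℕ, gapI S (mat S c) (mat S fun i j => (Real.sqrt n)⁻¹ * h i j * σ k i j)
      (r₀ * 2 ^ k) (r₀ * 2 ^ k) = gapI S (mat S fun i j => (Real.sqrt n)⁻¹ * h j i * σ k j i)
      (mat S fun i j => c j i) (r₀ * 2 ^ k) (r₀ * 2 ^ k) := fun k => gapI_flip _ _ _ _
  simp only [f]
  nlinarith [cube_nonneg S h, cube_nonneg S b, cube_nonneg S c, mul_nonneg hC (cube_nonneg S h),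
    mul_nonneg hC (cube_nonneg S b), mul_nonneg hC (cube_nonneg S c)]

end Crest.Agent.R72.Core
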