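import Mathlib

/-! Row 72: the convex functional `tr G^{3/2}` on real positive semidefinite matrices. -/

set_option autoImplicit false

namespace Crest.Agent.R72

open Matrix Finset
open scoped MatrixOrder

variable {n m : Type*} [Fintype n] [DecidableEq n] [Fintype m] [DecidableEq m]

omit [DecidableEq n] [Fintype n] in
lemma psd_symm {A : Matrix n n ℝ} (hA : A.PosSemidef) : Aᵀ = A := by
  have := hA.1
  rwa [IsHermitian, conjTranspose_eq_transpose_of_trivial] at this

omit [DecidableEq n] [Fintype n] in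
lemma herm_of_symm {A : Matrix n n ℝ} (hA : Aᵀ = A) : A.IsHermitian := by
  rwa [IsHermitian, conjTranspose_eq_transpose_of_trivial]

omit [DecidableEq n] [DecidableEq m] in
lemma psd_conj {A : Matrix n n ℝ} (hA : A.PosSemidef) (B : Matrix m n ℝ) :
    (B * A * Bᵀ).PosSemidef := by
  have := hA.mul_mul_conjTranspose_same B
  rwa [conjTranspose_eq_transpose_of_trivial] at this

omit [DecidableEq n] [DecidableEq m] in
lemma psd_conj' {A : Matrix n n ℝ} (hA : A.PosSemidef) (B : Matrix n m ℝ) :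
    (Bᵀ * A * B).PosSemidef := by
  simpa using psd_conj hA Bᵀ

omit [DecidableEq n] [DecidableEq m] in
lemma psd_mul_tr (B : Matrix m n ℝ) : (B * Bᵀ).PosSemidef := by
  have := posSemidef_self_mul_conjTranspose B
  rwa [conjTranspose_eq_transpose_of_trivial] at this

omit [DecidableEq n] [DecidableEq m] in
lemma psd_tr_mul (B : Matrix m n ℝ) : (Bᵀ * B).PosSemidef := by
  simpa using psd_mul_tr Bᵀ

omit [DecidableEq n] in
lemma psd_quad {A : Matrix n n ℝ} (hA : A.PosSemidef) (v : n → ℝ) : 0 ≤ v ⬝ᵥ (A *ᵥ v) := by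
  simpa using hA.dotProduct_mulVec_nonneg v

omit [DecidableEq n] [Fintype n] in
lemma psd_smul {A : Matrix n n ℝ} (hA : A.PosSemidef) {c : ℝ} (hc : 0 ≤ c) : (c • A).PosSemidef :=
  hA.smul hc

/-- real spectral theorem -/
lemma spec {A : Matrix n n ℝ} (hA : Aᵀ = A) :
    ∃ (V : Matrix n n ℝ) (d : n → ℝ), Vᵀ * V = 1 ∧ V * Vᵀ = 1 ∧ A = V * diagonal d * Vᵀ := by
  have hH := herm_of_symm hA
  refine ⟨hH.eigenvectorUnitary, hH.eigenvalues, ?_, ?_, ?_⟩
  · have := Unitary.coe_star_mul_self hH.eigenvectorUnitary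
    rwa [star_eq_conjTranspose, conjTranspose_eq_transpose_of_trivial] at this
  · have := Unitary.coe_mul_star_self hH.eigenvectorUnitary
    rw [Unitary.coe_star, star_eq_conjTranspose, conjTranspose_eq_transpose_of_trivial] at this
    exact this
  · have := hH.spectral_theorem
    rw [Unitary.conjStarAlgAut_apply, star_eq_conjTranspose,
      conjTranspose_eq_transpose_of_trivial] at this
    simpa using this

lemma psd_of_eig {D : Matrix n n ℝ} (hD : Dᵀ = D)
    (h : ∀ (v : n → ℝ) (l : ℝ), D *ᵥ v = l • v → v ⬝ᵥ v = 1 → 0 ≤ l) : D.PosSemidef := by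
  have hH := herm_of_symm hD
  rw [hH.posSemidef_iff_eigenvalues_nonneg]
  intro i
  refine h _ _ (hH.mulVec_eigenvectorBasis i) ?_
  have := hH.eigenvectorBasis.orthonormal.1 i
  have h2 := EuclideanSpace.inner_eq_star_dotProduct (hH.eigenvectorBasis i) (hH.eigenvectorBasis i)
  rw [inner_self_eq_norm_sq_to_K, this] at h2
  simpa using h2.symm

/-- the positive square root -/
noncomputable def sq (G : Matrix n n ℝ) : Matrix n n ℝ := CFC.sqrt G

lemma sq_psd (G : Matrix n n ℝ) : (sq G).PosSemidef :=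
  nonneg_iff_posSemidef.1 (CFC.sqrt_nonneg G)

lemma sq_symm (G : Matrix n n ℝ) : (sq G)ᵀ = sq G := psd_symm (sq_psd G)

lemma sq_mul {G : Matrix n n ℝ} (hG : G.PosSemidef) : sq G * sq G = G :=
  CFC.sqrt_mul_sqrt_self G (nonneg_iff_posSemidef.2 hG)

lemma sq_unique {G S : Matrix n n ℝ} (hS : S.PosSemidef) (h : S * S = G) : sq G = S :=
  CFC.sqrt_unique h (nonneg_iff_posSemidef.2 hS)

omit [DecidableEq n] in
lemma dot_symm {A : Matrix n n ℝ} (hA : Aᵀ = A) (v w : n → ℝ) :
    v ⬝ᵥ (A *ᵥ w) = (A *ᵥ v) ⬝ᵥ w := by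
  rw [dotProduct_mulVec, ← mulVec_transpose, hA]

lemma sq_mono {X Y : Matrix n n ℝ} (hX : Xᵀ = X) (hY : Y.PosSemidef)
    (h : (Y * Y - X * X).PosSemidef) : (Y - X).PosSemidef := by
  have hD : (Y - X)ᵀ = Y - X := by rw [transpose_sub, hX, psd_symm hY]
  refine psd_of_eig hD fun v l hv h1 => ?_
  have e : Y * Y - X * X = Y * (Y - X) + (Y - X) * Y - (Y - X) * (Y - X) := by noncomm_ring
  have h2 := psd_quad h v
  rw [e, sub_mulVec, add_mulVec, ← mulVec_mulVec, ← mulVec_mulVec, ← mulVec_mulVec, dotProduct_sub,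
    dotProduct_add, dot_symm hD v (Y *ᵥ v), dot_symm hD v ((Y - X) *ᵥ v), hv, mulVec_smul] at h2
  simp only [dotProduct_smul, smul_dotProduct, smul_eq_mul, h1] at h2
  have h3 := psd_quad hY v
  by_contra hl
  push Not at hl
  nlinarith

lemma lyap {S E : Matrix n n ℝ} (hS : ∀ v : n → ℝ, v ⬝ᵥ v = 1 → 0 < v ⬝ᵥ (S *ᵥ v)) (hE : Eᵀ = E)
    (h : (S * E + E * S).PosSemidef) : E.PosSemidef := by
  refine psd_of_eig hE fun v l hv h1 => ?_
  have h2 := psd_quad h v
  rw [add_mulVec, ← mulVec_mulVec, ← mulVec_mulVec, dotProduct_add, dot_symm hE v (S *ᵥ v), hv,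
    mulVec_smul] at h2
  simp only [dotProduct_smul, smul_dotProduct, smul_eq_mul] at h2
  have h3 := hS v h1
  by_contra hl
  push Not at hl
  nlinarith

lemma tr_mul_nonneg {P Q : Matrix n n ℝ} (hP : P.PosSemidef) (hQ : Q.PosSemidef) :
    0 ≤ (P * Q).trace := by
  have h := (psd_conj hQ (sq P)).trace_nonneg
  rw [sq_symm, trace_mul_cycle, sq_mul hP] at h
  exact h

lemma tr_mul_mono {P Q Q' : Matrix n n ℝ} (hP : P.PosSemidef) (hQ : (Q' - Q).PosSemidef) :
    (P * Q).trace ≤ (P * Q').trace := by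
  have := tr_mul_nonneg hP hQ
  rw [mul_sub, trace_sub] at this
  linarith

/-- `tr G^{3/2}` -/
noncomputable def phi (G : Matrix n n ℝ) : ℝ := (sq G * G).trace

lemma phi_nonneg {G : Matrix n n ℝ} (hG : G.PosSemidef) : 0 ≤ phi G :=
  tr_mul_nonneg (sq_psd G) hG

/-- Klein's inequality for `tr G^{3/2}`. -/
lemma klein {X G : Matrix n n ℝ} (hX : X.PosSemidef) (hG : G.PosSemidef) :
    3 / 2 * (X * G).trace - 1 / 2 * (X * X * X).trace ≤ phi G := by
  obtain ⟨S, hS, rfl, hφ⟩ : ∃ S : Matrix n n ℝ, S.PosSemidef ∧ S * S = G ∧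
      phi G = (S * (S * S)).trace := ⟨sq G, sq_psd G, sq_mul hG, by rw [sq_mul hG]; rfl⟩
  have hD : (X - S)ᵀ = X - S := by rw [transpose_sub, psd_symm hX, psd_symm hS]
  have h := (psd_conj (hX.add (hS.add hS)) (X - S)).trace_nonneg
  rw [hD] at h
  have e : (X - S) * (X + (S + S)) * (X - S) = X * X * X - X * X * S + (X * S * X + X * S * X)
      - (X * S * S + X * S * S) - S * X * X + S * X * S - (S * S * X + S * S * X)
      + (S * S * S + S * S * S) := by noncomm_ring
  rw [e] at h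
  simp only [trace_add, trace_sub] at h
  have a1 : (X * S * X).trace = (X * X * S).trace := trace_mul_cycle _ _ _
  have a2 : (S * X * X).trace = (X * X * S).trace := by
    rw [trace_mul_cycle, trace_mul_cycle]
  have a3 : (S * X * S).trace = (X * S * S).trace := by
    rw [trace_mul_cycle, trace_mul_cycle]
  have a4 : (S * S * X).trace = (X * S * S).trace := trace_mul_cycle _ _ _
  rw [hφ, ← mul_assoc, ← mul_assoc]
  linarith

lemma phi_tangent {G G' : Matrix n n ℝ} (hG : G.PosSemidef) (hG' : G'.PosSemidef) :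
    phi G + 3 / 2 * (sq G * (G' - G)).trace ≤ phi G' := by
  have h := klein (sq_psd G) hG'
  rw [mul_assoc, sq_mul hG] at h
  rw [mul_sub, trace_sub]
  unfold phi at *
  linarith

lemma phi_convex {G₁ G₂ : Matrix n n ℝ} (h₁ : G₁.PosSemidef) (h₂ : G₂.PosSemidef) :
    phi ((1 / 2 : ℝ) • (G₁ + G₂)) ≤ 1 / 2 * phi G₁ + 1 / 2 * phi G₂ := by
  have hG : ((1 / 2 : ℝ) • (G₁ + G₂)).PosSemidef := psd_smul (h₁.add h₂) (by norm_num)
  have a := phi_tangent hG h₁
  have b := phi_tangent hG h₂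
  simp only [mul_sub, trace_sub, Matrix.mul_smul, trace_smul, mul_add, trace_add, smul_eq_mul] at a b
  linarith

lemma sq_le_sq {G G' : Matrix n n ℝ} (hG : G.PosSemidef) (h : (G' - G).PosSemidef) :
    (sq G' - sq G).PosSemidef := by
  have hG' : G'.PosSemidef := by simpa using h.add hG
  refine sq_mono (sq_symm G) (sq_psd G') ?_
  rwa [sq_mul hG, sq_mul hG']

lemma sq_concave {G₁ G₂ : Matrix n n ℝ} (h₁ : G₁.PosSemidef) (h₂ : G₂.PosSemidef) :
    (sq ((1 / 2 : ℝ) • (G₁ + G₂)) - (1 / 2 : ℝ) • (sq G₁ + sq G₂)).PosSemidef := by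
  have hG : ((1 / 2 : ℝ) • (G₁ + G₂)).PosSemidef := psd_smul (h₁.add h₂) (by norm_num)
  refine sq_mono (by rw [transpose_smul, transpose_add, sq_symm, sq_symm]) (sq_psd _) ?_
  rw [sq_mul hG]
  have hD : (sq G₁ - sq G₂)ᵀ = sq G₁ - sq G₂ := by rw [transpose_sub, sq_symm, sq_symm]
  have := psd_smul (psd_mul_tr (sq G₁ - sq G₂)) (c := 1 / 4) (by norm_num)
  rw [hD] at this
  convert this using 1
  simp only [smul_mul_smul_comm, mul_add, add_mul, mul_sub, sub_mul, sq_mul h₁, sq_mul h₂]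
  module

/-- The midpoint convexity gap decreases when a positive matrix is added. -/
lemma gap_mono {G₁ G₂ β : Matrix n n ℝ} (h₁ : G₁.PosSemidef) (h₂ : G₂.PosSemidef)
    (hβ : β.PosSemidef) :
    1 / 2 * phi (G₁ + β) + 1 / 2 * phi (G₂ + β) - phi ((1 / 2 : ℝ) • (G₁ + G₂) + β) ≤
      1 / 2 * phi G₁ + 1 / 2 * phi G₂ - phi ((1 / 2 : ℝ) • (G₁ + G₂)) := by
  set G := (1 / 2 : ℝ) • (G₁ + G₂) with hGdef
  have hG : G.PosSemidef := psd_smul (h₁.add h₂) (by norm_num)
  set f : ℝ → ℝ := fun t => (sq (G + t • β) * β).trace with hf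
  -- one step
  have step : ∀ s t : ℝ, 0 ≤ s → s ≤ t →
      (1 / 2 * phi (G₁ + t • β) + 1 / 2 * phi (G₂ + t • β) - phi (G + t • β)) ≤
        (1 / 2 * phi (G₁ + s • β) + 1 / 2 * phi (G₂ + s • β) - phi (G + s • β)) +
          3 / 2 * (t - s) * (f t - f s) := by
    intro s t hs hst
    have hs' := psd_smul hβ hs
    have ht' := psd_smul hβ (hs.trans hst)
    have a1 := phi_tangent (h₁.add ht') (h₁.add hs')
    have a2 := phi_tangent (h₂.add ht') (h₂.add hs')
    have a3 := phi_tangent (hG.add hs') (hG.add ht')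
    have c := sq_concave (h₁.add ht') (h₂.add ht')
    have e : (1 / 2 : ℝ) • (G₁ + t • β + (G₂ + t • β)) = G + t • β := by rw [hGdef]; module
    rw [e] at c
    have c' := tr_mul_mono hβ c
    have e1 : ∀ H : Matrix n n ℝ, H + s • β - (H + t • β) = (s - t) • β := fun H => by module
    have e2 : G + t • β - (G + s • β) = (t - s) • β := by module
    rw [e1] at a1 a2
    rw [e2] at a3
    simp only [Matrix.mul_smul, trace_smul, smul_eq_mul, mul_add, trace_add] at a1 a2 a3 c'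
    rw [trace_mul_comm β, trace_mul_comm β, trace_mul_comm β] at c'
    have hts : 0 ≤ t - s := by linarith
    have := mul_le_mul_of_nonneg_left c' hts
    simp only [hf]
    nlinarith
  have iter : ∀ (N : ℕ) (δ : ℝ), 0 ≤ δ →
      (1 / 2 * phi (G₁ + (N * δ) • β) + 1 / 2 * phi (G₂ + (N * δ) • β) - phi (G + (N * δ) • β)) ≤
        (1 / 2 * phi G₁ + 1 / 2 * phi G₂ - phi G) + 3 / 2 * δ * (f (N * δ) - f 0) := by
    intro N δ hδ
    induction N with
    | zero => simp
    | succ N ih =>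
      have := step (N * δ) ((N + 1 : ℕ) * δ) (by positivity) (by push_cast; nlinarith)
      have e : ((N + 1 : ℕ) : ℝ) * δ - N * δ = δ := by push_cast; ring
      rw [e] at this
      linarith
  refine le_of_forall_pos_le_add fun η hη => ?_
  obtain ⟨N, hN⟩ := exists_nat_gt (3 / 2 * |f 1 - f 0| / η)
  have hN0 : (0 : ℝ) < N := lt_of_le_of_lt (by positivity) hN
  have := iter N (1 / N) (by positivity)
  rw [mul_one_div_cancel hN0.ne', one_smul] at this
  have h2 : 3 / 2 * (1 / (N : ℝ)) * (f 1 - f 0) ≤ η := by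
    rw [div_lt_iff₀ hη] at hN
    have : 3 / 2 * (1 / (N : ℝ)) * (f 1 - f 0) = (3 / 2 * (f 1 - f 0)) / N := by ring
    rw [this, div_le_iff₀ hN0]
    have := le_abs_self (f 1 - f 0)
    nlinarith
  linarith

end Crest.Agent.R72
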