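import Crest.Agent.R72.Mat1

/-! Row 72: strong convexity of `tr G^{3/2}`, singular value decomposition. -/

set_option autoImplicit false
set_option linter.unusedSectionVars false

namespace Crest.Agent.R72

open Matrix Finset

variable {n m k : Type*} [Fintype n] [DecidableEq n] [Fintype m] [DecidableEq m]
  [Fintype k] [DecidableEq k]

lemma lyap_solve {S Y : Matrix n n ℝ} (hS : Sᵀ = S)
    (hpos : ∀ v : n → ℝ, v ⬝ᵥ v = 1 → 0 < v ⬝ᵥ (S *ᵥ v)) (hY : Yᵀ = Y) :
    ∃ δ : Matrix n n ℝ, δᵀ = δ ∧ S * δ + δ * S = Y := by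
  obtain ⟨V, d, h1, h2, hSV⟩ := spec hS
  have hd : ∀ p, 0 < d p := by
    intro p
    have a : (Vᵀ * S * V) p p = d p := by
      rw [hSV]
      have : Vᵀ * (V * diagonal d * Vᵀ) * V = (Vᵀ * V) * diagonal d * (Vᵀ * V) := by
        simp only [Matrix.mul_assoc]
      rw [this, h1]; simp
    have b : (fun i => V i p) ⬝ᵥ (fun i => V i p) = 1 := by
      have := congrFun (congrFun h1 p) p
      simpa [mul_apply, dotProduct] using this
    have c := hpos _ b
    rw [← a, Matrix.mul_assoc]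
    simpa [mul_apply, dotProduct, mulVec] using c
  set Z := Vᵀ * Y * V with hZ
  have hZs : Zᵀ = Z := by simp [hZ, transpose_mul, hY, Matrix.mul_assoc]
  set E : Matrix n n ℝ := Matrix.of fun p q => Z p q / (d p + d q) with hE
  have hEs : Eᵀ = E := by
    ext p q
    have := congrFun (congrFun hZs p) q
    simp only [transpose_apply] at this
    simp [hE, this, add_comm]
  have hEq : diagonal d * E + E * diagonal d = Z := by
    ext p q
    have := hd p
    have := hd q
    simp only [Matrix.add_apply, diagonal_mul, mul_diagonal, hE, of_apply]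
    field_simp
  refine ⟨V * E * Vᵀ, by simp [transpose_mul, hEs, Matrix.mul_assoc], ?_⟩
  have e : S * (V * E * Vᵀ) + V * E * Vᵀ * S =
      V * (diagonal d * (Vᵀ * V) * E + E * (Vᵀ * V) * diagonal d) * Vᵀ := by
    conv_lhs => rw [hSV]
    simp only [Matrix.mul_assoc, Matrix.mul_add, Matrix.add_mul]
  rw [e, h1, Matrix.mul_one, Matrix.mul_one, hEq, hZ]
  have : V * (Vᵀ * Y * V) * Vᵀ = (V * Vᵀ) * Y * (V * Vᵀ) := by simp only [Matrix.mul_assoc]
  rw [this, h2]; simp

lemma strong_pd {G Y X : Matrix n n ℝ} (h₁ : (G + Y).PosSemidef) (h₂ : (G - Y).PosSemidef)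
    (hX : Xᵀ = X) (hpos : ∀ v : n → ℝ, v ⬝ᵥ v = 1 → 0 < v ⬝ᵥ (sq G *ᵥ v)) :
    3 / 2 * ((X * Y).trace - (X * X * sq G).trace) ≤
      1 / 2 * phi (G + Y) + 1 / 2 * phi (G - Y) - phi G := by
  have hG : G.PosSemidef := by
    have := psd_smul (h₁.add h₂) (c := 1 / 2) (by norm_num)
    convert this using 1; module
  have hY : Yᵀ = Y := by
    have a := psd_symm h₁
    rw [transpose_add, psd_symm hG] at a
    exact add_left_cancel a
  obtain ⟨δ, hδ, hδY⟩ := lyap_solve (sq_symm G) hpos hY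
  obtain ⟨S, hS, hSS, hφ, hsq⟩ : ∃ S : Matrix n n ℝ, S.PosSemidef ∧ S * S = G ∧
      phi G = (S * S * S).trace ∧ sq G = S :=
    ⟨sq G, sq_psd G, sq_mul hG, by rw [mul_assoc, sq_mul hG]; rfl, rfl⟩
  rw [hsq] at hpos hδY ⊢
  have hSs := psd_symm hS
  have p1 : (S + δ).PosSemidef := by
    refine lyap hpos (by rw [transpose_add, hSs, hδ]) ?_
    have : S * (S + δ) + (S + δ) * S = (G + Y) + G := by rw [← hSS, ← hδY]; noncomm_ring
    rw [this]; exact h₁.add hG
  have p2 : (S - δ).PosSemidef := by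
    refine lyap hpos (by rw [transpose_sub, hSs, hδ]) ?_
    have : S * (S - δ) + (S - δ) * S = (G - Y) + G := by rw [← hSS, ← hδY]; noncomm_ring
    rw [this]; exact h₂.add hG
  have k1 := klein p1 h₁
  have k2 := klein p2 h₂
  have hD : (X - δ)ᵀ = X - δ := by rw [transpose_sub, hX, hδ]
  have k3 := (psd_conj hS (X - δ)).trace_nonneg
  rw [hD] at k3
  have e1 : ((S + δ) * (G + Y)).trace + ((S - δ) * (G - Y)).trace =
      2 * (S * S * S).trace + 2 * (δ * Y).trace := by
    rw [← trace_add, two_mul, two_mul, ← trace_add, ← trace_add, ← trace_add, ← hSS]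
    congr 1; noncomm_ring
  have e2 : ((S + δ) * (S + δ) * (S + δ)).trace + ((S - δ) * (S - δ) * (S - δ)).trace =
      2 * (S * S * S).trace + 2 * ((S * δ * δ).trace + (δ * S * δ).trace + (δ * δ * S).trace) := by
    rw [← trace_add, ← trace_add, ← trace_add, two_mul, two_mul, ← trace_add, ← trace_add,
      ← trace_add]
    congr 1; noncomm_ring
  have e3 : ((X - δ) * S * (X - δ)).trace = (X * S * X).trace - (X * S * δ).trace -
      (δ * S * X).trace + (δ * S * δ).trace := by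
    rw [← trace_sub, ← trace_sub, ← trace_add]
    congr 1; noncomm_ring
  have e4 : (X * Y).trace = (X * S * δ).trace + (X * δ * S).trace := by
    rw [← hδY, ← trace_add]; congr 1; noncomm_ring
  have e5 : (δ * Y).trace = (δ * S * δ).trace + (δ * δ * S).trace := by
    rw [← hδY, ← trace_add]; congr 1; noncomm_ring
  have c1 : (S * δ * δ).trace = (δ * S * δ).trace := trace_mul_cycle _ _ _
  have c2 : (δ * S * δ).trace = (δ * δ * S).trace := trace_mul_cycle _ _ _
  have c3 : (X * S * X).trace = (X * X * S).trace := trace_mul_cycle _ _ _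
  have c4 : (δ * S * X).trace = (X * δ * S).trace := trace_mul_cycle _ _ _
  linarith

/-- Strong convexity in dual form. -/
lemma strong {G Y X : Matrix n n ℝ} (h₁ : (G + Y).PosSemidef) (h₂ : (G - Y).PosSemidef)
    (hX : Xᵀ = X) :
    3 / 2 * ((X * Y).trace - (X * X * sq G).trace) ≤
      1 / 2 * phi (G + Y) + 1 / 2 * phi (G - Y) - phi G := by
  have hG : G.PosSemidef := by
    have := psd_smul (h₁.add h₂) (c := 1 / 2) (by norm_num)
    convert this using 1; module
  have hXX : (X * X).PosSemidef := by simpa [hX] using psd_mul_tr X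
  have main : ∀ t : ℝ, 0 < t → 3 / 2 * ((X * Y).trace - (X * X * sq G).trace) ≤
      1 / 2 * phi (G + Y) + 1 / 2 * phi (G - Y) - phi G + 3 / 2 * t * (X * X).trace := by
    intro t ht
    have hβ : ((t ^ 2) • (1 : Matrix n n ℝ)).PosSemidef := psd_smul PosSemidef.one (by positivity)
    have ht1 : (t • (1 : Matrix n n ℝ)).PosSemidef := psd_smul PosSemidef.one ht.le
    have g := gap_mono h₁ h₂ hβ
    have e0 : (1 / 2 : ℝ) • (G + Y + (G - Y)) = G := by module
    rw [e0] at g
    set G' := G + (t ^ 2) • (1 : Matrix n n ℝ) with hG'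
    have hG'p : G'.PosSemidef := hG.add hβ
    have low : (sq G' - t • (1 : Matrix n n ℝ)).PosSemidef := by
      refine sq_mono (by simp) (sq_psd _) ?_
      rw [sq_mul hG'p]
      convert hG using 1
      simp [hG', smul_smul, pow_two]
    have up : (sq G + t • (1 : Matrix n n ℝ) - sq G').PosSemidef := by
      refine sq_mono (sq_symm _) ((sq_psd G).add ht1) ?_
      rw [sq_mul hG'p]
      convert psd_smul (sq_psd G) (c := 2 * t) (by positivity) using 1
      simp only [hG', mul_add, add_mul, sq_mul hG, Matrix.mul_smul, Matrix.smul_mul, mul_one,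
        one_mul]
      module
    have s := strong_pd (G := G') (Y := Y) (X := X)
      (by convert h₁.add hβ using 1; rw [hG']; abel)
      (by convert h₂.add hβ using 1; rw [hG']; abel) hX (by
        intro v hv
        have := psd_quad low v
        rw [sub_mulVec, dotProduct_sub, smul_mulVec, one_mulVec, dotProduct_smul, hv] at this
        simp only [smul_eq_mul, mul_one] at this
        linarith)
    have e1 : G' + Y = G + Y + (t ^ 2) • (1 : Matrix n n ℝ) := by rw [hG']; abel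
    have e2 : G' - Y = G - Y + (t ^ 2) • (1 : Matrix n n ℝ) := by rw [hG']; abel
    rw [e1, e2] at s
    have u := tr_mul_mono hXX up
    rw [mul_add, trace_add, Matrix.mul_smul, trace_smul, mul_one, smul_eq_mul] at u
    linarith
  refine le_of_forall_pos_le_add fun η hη => ?_
  have h0 := hXX.trace_nonneg
  have := main (η / (2 * ((X * X).trace + 1))) (by positivity)
  have h3 : 3 / 2 * (η / (2 * ((X * X).trace + 1))) * (X * X).trace ≤ η := by
    have : 3 / 2 * (η / (2 * ((X * X).trace + 1))) * (X * X).trace =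
      η * (3 * (X * X).trace / (4 * ((X * X).trace + 1))) := by field_simp; ring
    rw [this]
    refine mul_le_of_le_one_right hη.le ?_
    rw [div_le_one (by positivity)]; linarith
  linarith

/-- compression: for a contraction `P`, `Pᵀ √G P ≤ √(Pᵀ G P)` -/
lemma sq_compress {G : Matrix n n ℝ} (hG : G.PosSemidef) (P : Matrix n m ℝ)
    (hP : (1 - P * Pᵀ).PosSemidef) : (sq (Pᵀ * G * P) - Pᵀ * sq G * P).PosSemidef := by
  refine sq_mono (by simp [transpose_mul, sq_symm, Matrix.mul_assoc]) (sq_psd _) ?_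
  rw [sq_mul (psd_conj' hG P)]
  have := psd_conj' hP (sq G * P)
  convert this using 1
  conv_lhs => rw [← sq_mul hG]
  simp only [transpose_mul, sq_symm, Matrix.mul_sub, Matrix.sub_mul, Matrix.mul_one,
    Matrix.mul_assoc, sq_unique (sq_psd G) rfl]

/-- singular value decomposition data -/
structure SVD (A : Matrix m n ℝ) where
  U : Matrix m n ℝ
  V : Matrix n n ℝ
  σ : n → ℝ
  e : n → ℝ
  σ_nonneg : ∀ p, 0 ≤ σ p
  e01 : ∀ p, e p = 0 ∨ e p = 1
  eσ : ∀ p, e p * σ p = σ p
  VV : Vᵀ * V = 1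
  VV' : V * Vᵀ = 1
  UU : Uᵀ * U = diagonal e
  eq : A = U * diagonal σ * Vᵀ

lemma exists_svd (A : Matrix m n ℝ) : Nonempty (SVD A) := by
  obtain ⟨V, d, h1, h2, hV⟩ := spec (sq_symm (Aᵀ * A))
  have hdiag : Vᵀ * sq (Aᵀ * A) * V = diagonal d := by
    rw [hV]
    have : Vᵀ * (V * diagonal d * Vᵀ) * V = (Vᵀ * V) * diagonal d * (Vᵀ * V) := by
      simp only [Matrix.mul_assoc]
    rw [this, h1]; simp
  have hd : ∀ p, 0 ≤ d p := by
    have := psd_conj' (sq_psd (Aᵀ * A)) V
    rw [hdiag] at this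
    exact posSemidef_diagonal_iff.1 this
  have hAA : (A * V)ᵀ * (A * V) = diagonal (fun p => d p * d p) := by
    rw [← diagonal_mul_diagonal, ← hdiag, transpose_mul]
    have : Vᵀ * sq (Aᵀ * A) * V * (Vᵀ * sq (Aᵀ * A) * V) =
      Vᵀ * (sq (Aᵀ * A) * (V * Vᵀ) * sq (Aᵀ * A)) * V := by simp only [Matrix.mul_assoc]
    rw [this, h2, Matrix.mul_one, sq_mul (psd_tr_mul A)]
    simp only [Matrix.mul_assoc]
  refine ⟨⟨A * V * diagonal (fun p => (d p)⁻¹), V, d, fun p => if d p = 0 then 0 else 1, hd,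
    fun p => by by_cases h : d p = 0 <;> simp [h], fun p => by by_cases h : d p = 0 <;> simp [h],
    h1, h2, ?_, ?_⟩⟩
  · rw [transpose_mul, diagonal_transpose]
    have : diagonal (fun p => (d p)⁻¹) * (A * V)ᵀ * (A * V * diagonal fun p => (d p)⁻¹) =
      diagonal (fun p => (d p)⁻¹) * ((A * V)ᵀ * (A * V)) * diagonal fun p => (d p)⁻¹ := by
      simp only [Matrix.mul_assoc]
    rw [this, hAA, diagonal_mul_diagonal, diagonal_mul_diagonal]
    congr 1; ext p
    by_cases h : d p = 0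
    · simp [h]
    · simp [h]
  · have : A * V * diagonal (fun p => (d p)⁻¹) * diagonal d = A * V := by
      rw [Matrix.mul_assoc, diagonal_mul_diagonal]
      ext i p
      rw [mul_diagonal]
      by_cases h : d p = 0
      · have := congrFun (congrFun hAA p) p
        rw [diagonal_apply_eq, h, mul_zero, mul_apply] at this
        simp only [transpose_apply] at this
        have h0 := (sum_eq_zero_iff_of_nonneg (fun j _ => mul_self_nonneg _)).1 this i (mem_univ _)
        rw [mul_self_eq_zero.1 h0, zero_mul]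
      · simp [h]
    rw [this, Matrix.mul_assoc, h2, Matrix.mul_one]

namespace SVD

variable {A : Matrix m n ℝ} (s : SVD A)

lemma deσ : diagonal s.σ * diagonal s.e * diagonal s.σ = diagonal fun p => s.σ p * s.σ p := by
  rw [diagonal_mul_diagonal, diagonal_mul_diagonal]
  congr 1; ext p; rw [mul_assoc, s.eσ]

lemma AAt : A * Aᵀ = s.U * diagonal (fun p => s.σ p * s.σ p) * s.Uᵀ := by
  conv_lhs => rw [s.eq]
  rw [← diagonal_mul_diagonal]
  simp only [transpose_mul, diagonal_transpose, transpose_transpose, Matrix.mul_assoc]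
  rw [← Matrix.mul_assoc s.Vᵀ, s.VV, Matrix.one_mul]

lemma AtA : Aᵀ * A = s.V * diagonal (fun p => s.σ p * s.σ p) * s.Vᵀ := by
  conv_lhs => rw [s.eq]
  rw [← s.deσ]
  simp only [transpose_mul, diagonal_transpose, transpose_transpose, Matrix.mul_assoc]
  rw [← Matrix.mul_assoc s.Uᵀ, s.UU]

lemma sqL : sq (A * Aᵀ) = s.U * diagonal s.σ * s.Uᵀ := by
  refine sq_unique (psd_conj (PosSemidef.diagonal s.σ_nonneg) _) ?_
  rw [s.AAt, ← s.deσ]
  simp only [Matrix.mul_assoc]
  rw [← Matrix.mul_assoc s.Uᵀ, s.UU]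

lemma sqR : sq (Aᵀ * A) = s.V * diagonal s.σ * s.Vᵀ := by
  refine sq_unique (psd_conj (PosSemidef.diagonal s.σ_nonneg) _) ?_
  rw [s.AtA, ← diagonal_mul_diagonal]
  simp only [Matrix.mul_assoc]
  rw [← Matrix.mul_assoc s.Vᵀ, s.VV, Matrix.one_mul]

lemma phiL : phi (A * Aᵀ) = ∑ p, s.σ p ^ 3 := by
  rw [phi, s.sqL, s.AAt]
  simp only [Matrix.mul_assoc]
  rw [← Matrix.mul_assoc s.Uᵀ, s.UU, trace_mul_comm]
  simp only [Matrix.mul_assoc]
  rw [s.UU]
  simp only [diagonal_mul_diagonal, trace_diagonal]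
  refine sum_congr rfl fun p _ => ?_
  have := s.eσ p
  rcases s.e01 p with h | h <;> rw [h] at this ⊢
  · rw [← this]; ring
  · ring

lemma phiR : phi (Aᵀ * A) = ∑ p, s.σ p ^ 3 := by
  rw [phi, s.sqR, s.AtA]
  simp only [Matrix.mul_assoc]
  rw [← Matrix.mul_assoc s.Vᵀ, s.VV, Matrix.one_mul, trace_mul_comm]
  simp only [Matrix.mul_assoc]
  rw [s.VV]
  simp only [Matrix.mul_one, diagonal_mul_diagonal, trace_diagonal]
  refine sum_congr rfl fun p _ => by ring

lemma hs : ∑ i, ∑ j, A i j ^ 2 = ∑ p, s.σ p ^ 2 := by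
  have : (Aᵀ * A).trace = ∑ i, ∑ j, A i j ^ 2 := by
    rw [sum_comm]; simp [trace, mul_apply, pow_two]
  rw [← this, s.AtA, trace_mul_cycle, s.VV, Matrix.one_mul, trace_diagonal]
  simp [pow_two]

lemma σ_le (p : n) : s.σ p ≤ Real.sqrt (∑ i, ∑ j, A i j ^ 2) := by
  rw [s.hs]
  exact Real.le_sqrt_of_sq_le (single_le_sum (f := fun p => s.σ p ^ 2) (fun _ _ => sq_nonneg _)
    (mem_univ p))

end SVD

/-- The cube of the Schatten 3-norm. -/
noncomputable def Phi (Z : Matrix m n ℝ) : ℝ := phi (Z * Zᵀ)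

lemma Phi_eq (Z : Matrix m n ℝ) : Phi Z = phi (Zᵀ * Z) := by
  obtain ⟨s⟩ := exists_svd Z
  rw [Phi, s.phiL, s.phiR]

lemma Phi_transpose (Z : Matrix m n ℝ) : Phi Zᵀ = Phi Z := by
  rw [Phi_eq Z, Phi, transpose_transpose]

lemma Phi_nonneg (Z : Matrix m n ℝ) : 0 ≤ Phi Z := phi_nonneg (psd_mul_tr Z)

lemma Phi_le (Z : Matrix m n ℝ) : Phi Z ≤ Real.sqrt (∑ i, ∑ j, Z i j ^ 2) ^ 3 := by
  obtain ⟨s⟩ := exists_svd Z
  rw [Phi, s.phiL, pow_succ, Real.sq_sqrt (by positivity)]
  nth_rewrite 1 [s.hs]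
  rw [sum_mul]
  refine sum_le_sum fun p _ => ?_
  rw [pow_succ]
  exact mul_le_mul_of_nonneg_left (s.σ_le p) (sq_nonneg _)

lemma Phi_zero : Phi (0 : Matrix m n ℝ) = 0 :=
  le_antisymm (by simpa using Phi_le (0 : Matrix m n ℝ)) (Phi_nonneg _)

/-- change of `Phi` -/
lemma Phi_change (Z Z' : Matrix m n ℝ) :
    Phi Z' - Phi Z ≤ 3 * ∑ i, ∑ j, |Z' i j - Z i j| *
      (Real.sqrt (∑ j', Z' i j' ^ 2) * Real.sqrt (∑ i', Z' i' j ^ 2)) := by
  obtain ⟨s⟩ := exists_svd Z'
  have t := phi_tangent (psd_tr_mul Z') (psd_tr_mul Z)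
  rw [Phi_eq, Phi_eq]
  set W := sq (Z'ᵀ * Z') with hW
  have hWs : Wᵀ = W := sq_symm _
  have p := tr_mul_nonneg (sq_psd (Z'ᵀ * Z')) (psd_tr_mul (Z' - Z))
  rw [← hW] at p
  have e : (Z' - Z)ᵀ * (Z' - Z) = (Zᵀ * Z - Z'ᵀ * Z') + Z'ᵀ * (Z' - Z) + (Z' - Z)ᵀ * Z' := by
    simp only [transpose_sub, Matrix.mul_sub, Matrix.sub_mul]; abel
  have e2 : (W * ((Z' - Z)ᵀ * Z')).trace = (W * (Z'ᵀ * (Z' - Z))).trace := by
    rw [← trace_transpose, transpose_mul, transpose_mul, transpose_transpose, hWs, trace_mul_comm]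
  have e3 : (W * (Z'ᵀ * (Z' - Z))).trace = ∑ i, ∑ j, (Z' i j - Z i j) * (Z' * W) i j := by
    rw [← Matrix.mul_assoc, ← hWs, ← transpose_mul, hWs, sum_comm]
    generalize Z' * W = T
    simp [trace, mul_apply, mul_comm]
  rw [e, mul_add, mul_add, trace_add, trace_add, e2, e3] at p
  have e4 : Z' * W = s.U * diagonal (fun p => s.σ p * s.σ p) * s.Vᵀ := by
    rw [hW, s.sqR, ← diagonal_mul_diagonal]
    nth_rewrite 1 [s.eq]
    simp only [Matrix.mul_assoc]
    rw [← Matrix.mul_assoc s.Vᵀ, s.VV, Matrix.one_mul]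
  have b : ∀ i j, |(Z' * W) i j| ≤ Real.sqrt (∑ j', Z' i j' ^ 2) * Real.sqrt (∑ i', Z' i' j ^ 2) := by
    intro i j
    have r1 : ∑ j', Z' i j' ^ 2 = ∑ p, (s.U i p * s.σ p) ^ 2 := by
      have := congrFun (congrFun s.AAt i) i
      rw [mul_apply, mul_apply] at this
      simp only [transpose_apply, mul_diagonal] at this
      simp only [pow_two, this]
      exact sum_congr rfl fun p _ => by ring
    have r2 : ∑ i', Z' i' j ^ 2 = ∑ p, (s.V j p * s.σ p) ^ 2 := by
      have := congrFun (congrFun s.AtA j) j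
      rw [mul_apply, mul_apply] at this
      simp only [transpose_apply, mul_diagonal] at this
      simp only [pow_two, this]
      exact sum_congr rfl fun p _ => by ring
    have r3 : (Z' * W) i j = ∑ p, (s.U i p * s.σ p) * (s.V j p * s.σ p) := by
      rw [e4, mul_apply]
      simp only [transpose_apply, mul_diagonal]
      exact sum_congr rfl fun p _ => by ring
    rw [r1, r2, r3, ← Real.sqrt_mul (by positivity)]
    exact Real.abs_le_sqrt (sum_mul_sq_le_sq_mul_sq _ _ _)
  have : ∑ i, ∑ j, (Z' i j - Z i j) * (Z' * W) i j ≤ ∑ i, ∑ j, |Z' i j - Z i j| *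
      (Real.sqrt (∑ j', Z' i j' ^ 2) * Real.sqrt (∑ i', Z' i' j ^ 2)) := by
    refine sum_le_sum fun i _ => sum_le_sum fun j _ => (le_abs_self _).trans ?_
    rw [abs_mul]
    exact mul_le_mul_of_nonneg_left (b i j) (abs_nonneg _)
  linarith

end Crest.Agent.R72
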