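import Crest.Agent.R72.Mat2

/-! Row 72: the convexity gain and the trilinear lemma. -/

set_option autoImplicit false
set_option linter.unusedSectionVars false
set_option linter.unusedSimpArgs false

namespace Crest.Agent.R72

open Matrix Finset

variable {n m k : Type*} [Fintype n] [DecidableEq n] [Fintype m] [DecidableEq m]
  [Fintype k] [DecidableEq k]

/-- `g` dominates the quadratic test functional of `A * diagonal μ * B`. -/
def Gain (A : Matrix m k ℝ) (μ : k → ℝ) (B : Matrix k n ℝ) (g : ℝ) : Prop :=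
  ∀ ξ : Matrix n m ℝ, 2 * (ξ * A * diagonal μ * B).trace - (ξᵀ * ξ * sq (A * Aᵀ)).trace -
    (ξ * ξᵀ * sq (Bᵀ * B)).trace ≤ g

lemma gain_aux {ι : Type*} [Fintype ι] [DecidableEq ι] (Z : Matrix ι k ℝ) (P : Matrix ι m ℝ)
    (Q : Matrix ι n ℝ) (hP : Pᵀ * P = 1) (hQ : Qᵀ * Q = 1) (hPQ : Pᵀ * Q = 0)
    (h1 : P * Pᵀ + Q * Qᵀ = 1) (μ : k → ℝ) (hμ : ∀ j, |μ j| ≤ 1) :
    Gain (Pᵀ * Z) μ (Zᵀ * Q) (2 / 3 * (1 / 2 * phi (Z * diagonal (fun j => 1 + μ j) * Zᵀ) +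
      1 / 2 * phi (Z * diagonal (fun j => 1 - μ j) * Zᵀ) - Phi Z)) := by
  intro ξ
  have hQP : Qᵀ * P = 0 := by simpa [transpose_mul] using congrArg transpose hPQ
  have e1 : Z * diagonal (fun j => 1 + μ j) * Zᵀ = Z * Zᵀ + Z * diagonal μ * Zᵀ := by
    rw [← diagonal_add, diagonal_one, Matrix.mul_add, Matrix.add_mul, Matrix.mul_one]
  have e2 : Z * diagonal (fun j => 1 - μ j) * Zᵀ = Z * Zᵀ - Z * diagonal μ * Zᵀ := by
    rw [← diagonal_sub, diagonal_one, Matrix.mul_sub, Matrix.sub_mul, Matrix.mul_one]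
  have p1 : (Z * Zᵀ + Z * diagonal μ * Zᵀ).PosSemidef := by
    rw [← e1]
    exact psd_conj (PosSemidef.diagonal fun j => by
      have := abs_le.1 (hμ j); simp only [Pi.zero_apply]; linarith) Z
  have p2 : (Z * Zᵀ - Z * diagonal μ * Zᵀ).PosSemidef := by
    rw [← e2]
    exact psd_conj (PosSemidef.diagonal fun j => by
      have := abs_le.1 (hμ j); simp only [Pi.zero_apply]; linarith) Z
  set X : Matrix ι ι ℝ := P * ξᵀ * Qᵀ + Q * ξ * Pᵀ with hX
  have hXs : Xᵀ = X := by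
    simp only [hX, transpose_add, transpose_mul, transpose_transpose, Matrix.mul_assoc, add_comm]
  have s := strong p1 p2 hXs
  have a1 : (X * (Z * diagonal μ * Zᵀ)).trace =
      2 * (ξ * (Pᵀ * Z) * diagonal μ * (Zᵀ * Q)).trace := by
    have b1 : (Q * ξ * Pᵀ * (Z * diagonal μ * Zᵀ)).trace =
        (ξ * (Pᵀ * Z) * diagonal μ * (Zᵀ * Q)).trace := by
      rw [Matrix.mul_assoc Q, Matrix.mul_assoc Q, trace_mul_comm]
      simp only [Matrix.mul_assoc]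
    have b2 : (P * ξᵀ * Qᵀ * (Z * diagonal μ * Zᵀ)).trace =
        (Q * ξ * Pᵀ * (Z * diagonal μ * Zᵀ)).trace := by
      rw [← trace_transpose, transpose_mul, trace_mul_comm]
      simp only [transpose_mul, transpose_transpose, diagonal_transpose, Matrix.mul_assoc]
    rw [hX, Matrix.add_mul, trace_add, b2, b1]; ring
  have a2 : X * X = P * (ξᵀ * ξ) * Pᵀ + Q * (ξ * ξᵀ) * Qᵀ := by
    have : X * X = P * ξᵀ * (Qᵀ * P) * ξᵀ * Qᵀ + P * ξᵀ * (Qᵀ * Q) * ξ * Pᵀ +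
        Q * ξ * (Pᵀ * P) * ξᵀ * Qᵀ + Q * ξ * (Pᵀ * Q) * ξ * Pᵀ := by
      simp only [hX, Matrix.mul_add, Matrix.add_mul, Matrix.mul_assoc]; abel
    rw [this, hP, hQ, hPQ, hQP]
    simp [Matrix.mul_assoc]
  have c1 := sq_compress (psd_mul_tr Z) P (by
    rw [← h1, add_sub_cancel_left]; exact psd_mul_tr Q)
  have c2 := sq_compress (psd_mul_tr Z) Q (by
    rw [← h1, add_sub_cancel_right]; exact psd_mul_tr P)
  have d1 := tr_mul_mono (psd_tr_mul ξ) c1
  have d2 := tr_mul_mono (psd_mul_tr ξ) c2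
  have a3 : (X * X * sq (Z * Zᵀ)).trace = (ξᵀ * ξ * (Pᵀ * sq (Z * Zᵀ) * P)).trace +
      (ξ * ξᵀ * (Qᵀ * sq (Z * Zᵀ) * Q)).trace := by
    rw [a2, Matrix.add_mul, trace_add, Matrix.mul_assoc P, Matrix.mul_assoc P, Matrix.mul_assoc Q,
      Matrix.mul_assoc Q, trace_mul_comm P, trace_mul_comm Q]
    simp only [Matrix.mul_assoc]
  have f1 : Pᵀ * Z * (Pᵀ * Z)ᵀ = Pᵀ * (Z * Zᵀ) * P := by
    simp only [transpose_mul, transpose_transpose, Matrix.mul_assoc]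
  have f2 : (Zᵀ * Q)ᵀ * (Zᵀ * Q) = Qᵀ * (Z * Zᵀ) * Q := by
    simp only [transpose_mul, transpose_transpose, Matrix.mul_assoc]
  rw [f1, f2, e1, e2, Phi]
  linarith

lemma gain_fromRows (A : Matrix m k ℝ) (B : Matrix k n ℝ) (μ : k → ℝ) (hμ : ∀ j, |μ j| ≤ 1) :
    Gain A μ B (2 / 3 * (1 / 2 * phi (fromRows A Bᵀ * diagonal (fun j => 1 + μ j) *
      (fromRows A Bᵀ)ᵀ) + 1 / 2 * phi (fromRows A Bᵀ * diagonal (fun j => 1 - μ j) *
        (fromRows A Bᵀ)ᵀ) - Phi (fromRows A Bᵀ))) := by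
  have := gain_aux (fromRows A Bᵀ) (fromRows (1 : Matrix m m ℝ) (0 : Matrix n m ℝ))
    (fromRows (0 : Matrix m n ℝ) (1 : Matrix n n ℝ))
    (by simp [transpose_fromRows, fromCols_mul_fromRows])
    (by simp [transpose_fromRows, fromCols_mul_fromRows])
    (by simp [transpose_fromRows, fromCols_mul_fromRows])
    (by
      rw [transpose_fromRows, transpose_fromRows, fromRows_mul_fromCols, fromRows_mul_fromCols]
      simp [fromBlocks_add]) μ hμ
  simpa [transpose_fromRows, fromCols_mul_fromRows] using this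

lemma tr_sq_le (A : Matrix m k ℝ) (ξ : Matrix n m ℝ) :
    (ξᵀ * ξ * sq (A * Aᵀ)).trace ≤ (∑ i, ∑ j, ξ i j ^ 2) * Real.sqrt (∑ i, ∑ j, A i j ^ 2) := by
  obtain ⟨s⟩ := exists_svd Aᵀ
  have h := s.sqR
  rw [transpose_transpose] at h
  set t := Real.sqrt (∑ i, ∑ j, A i j ^ 2) with ht
  have hp : (t • (1 : Matrix m m ℝ) - sq (A * Aᵀ)).PosSemidef := by
    have := psd_conj (PosSemidef.diagonal (d := fun p => t - s.σ p) fun p => by
      have := s.σ_le p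
      rw [sum_comm] at this
      simpa [ht] using this) s.V
    convert this using 1
    rw [h, ← diagonal_sub, Matrix.mul_sub, Matrix.sub_mul, ← smul_one_eq_diagonal, Matrix.mul_smul,
      Matrix.smul_mul, Matrix.mul_one, s.VV']
  have := tr_mul_mono (psd_tr_mul ξ) hp
  rw [Matrix.mul_smul, Matrix.mul_one, trace_smul, smul_eq_mul] at this
  have e : (ξᵀ * ξ).trace = ∑ i, ∑ j, ξ i j ^ 2 := by
    rw [sum_comm]; simp [trace, mul_apply, pow_two]
  rw [← e, mul_comm]; exact this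

/-- the crude form of the gain -/
lemma Gain.crude {A : Matrix m k ℝ} {μ : k → ℝ} {B : Matrix k n ℝ} {g : ℝ} (h : Gain A μ B g)
    (ξ : Matrix n m ℝ) : 2 * (ξ * A * diagonal μ * B).trace ≤ g + (∑ i, ∑ j, ξ i j ^ 2) *
      (Real.sqrt (∑ i, ∑ j, A i j ^ 2) + Real.sqrt (∑ i, ∑ j, B i j ^ 2)) := by
  have a := h ξ
  have b := tr_sq_le A ξ
  have c := tr_sq_le Bᵀ ξᵀ
  simp only [transpose_transpose, transpose_apply] at c
  rw [sum_comm, sum_comm (f := fun i j => B j i ^ 2)] at c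
  linarith

lemma gain_svd {A : Matrix m k ℝ} {μ : k → ℝ} {B : Matrix k n ℝ} {g : ℝ} (h : Gain A μ B g)
    (s : SVD A) (t : SVD B) :
    ∑ p, ∑ q, 1 / 2 * (min (s.σ p) (t.σ q) ^ 2 * max (s.σ p) (t.σ q)) *
      (s.Vᵀ * diagonal μ * t.U) p q ^ 2 ≤ g := by
  set x := s.Vᵀ * diagonal μ * t.U with hx
  set η : Matrix n k ℝ := Matrix.of fun q p => 1 / 2 * min (s.σ p) (t.σ q) * x p q with hη
  have a := h (t.V * η * s.Uᵀ)
  have e1 : (t.V * η * s.Uᵀ * A * diagonal μ * B).trace = ∑ p, ∑ q, η q p * s.σ p * x p q * t.σ q := by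
    have : t.V * η * s.Uᵀ * A * diagonal μ * B =
        t.V * (η * diagonal s.e * diagonal s.σ * x * diagonal t.σ * t.Vᵀ) := by
      rw [congrArg₂ (fun (A' : Matrix m k ℝ) (B' : Matrix k n ℝ) =>
        t.V * η * s.Uᵀ * A' * diagonal μ * B') s.eq t.eq, ← s.UU, hx]
      simp only [Matrix.mul_assoc]
    rw [this, trace_mul_comm, Matrix.mul_assoc, t.VV, Matrix.mul_one, Matrix.mul_assoc η,
      diagonal_mul_diagonal, sum_comm]
    simp [trace, mul_apply (N := x), s.eσ, sum_mul]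
  have e2 : ((t.V * η * s.Uᵀ)ᵀ * (t.V * η * s.Uᵀ) * sq (A * Aᵀ)).trace =
      ∑ p, ∑ q, η q p ^ 2 * s.σ p := by
    have : (t.V * η * s.Uᵀ)ᵀ * (t.V * η * s.Uᵀ) * sq (A * Aᵀ) =
        s.U * (ηᵀ * (t.Vᵀ * t.V) * η * (s.Uᵀ * s.U) * diagonal s.σ * s.Uᵀ) := by
      rw [s.sqL]; simp only [transpose_mul, transpose_transpose, Matrix.mul_assoc]
    rw [this, trace_mul_comm, Matrix.mul_assoc, t.VV, s.UU, Matrix.mul_one, Matrix.mul_assoc,
      Matrix.mul_assoc, diagonal_mul_diagonal, diagonal_mul_diagonal]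
    simp only [trace, diag_apply, mul_diagonal, mul_apply (M := ηᵀ), transpose_apply, sum_mul]
    refine sum_congr rfl fun p _ => sum_congr rfl fun q _ => ?_
    rw [mul_comm (s.σ p), s.eσ, s.eσ]; ring
  have e3 : ((t.V * η * s.Uᵀ) * (t.V * η * s.Uᵀ)ᵀ * sq (Bᵀ * B)).trace =
      ∑ p, ∑ q, η q p ^ 2 * s.e p * t.σ q := by
    have : (t.V * η * s.Uᵀ) * (t.V * η * s.Uᵀ)ᵀ * sq (Bᵀ * B) =
        t.V * (η * (s.Uᵀ * s.U) * ηᵀ * (t.Vᵀ * t.V) * diagonal t.σ * t.Vᵀ) := by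
      rw [t.sqR]; simp only [transpose_mul, transpose_transpose, Matrix.mul_assoc]
    rw [this, trace_mul_comm, Matrix.mul_assoc, t.VV, s.UU, Matrix.mul_one, Matrix.mul_one, sum_comm]
    simp only [trace, diag_apply, mul_diagonal, mul_apply (N := ηᵀ), transpose_apply, sum_mul]
    refine sum_congr rfl fun p _ => sum_congr rfl fun q _ => by ring
  rw [e1, e2, e3, mul_sum, ← sum_sub_distrib, ← sum_sub_distrib] at a
  refine le_trans (sum_le_sum fun p _ => ?_) a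
  rw [mul_sum, ← sum_sub_distrib, ← sum_sub_distrib]
  refine sum_le_sum fun q _ => ?_
  have h1 := s.σ_nonneg p
  have h2 := t.σ_nonneg q
  have h3 : η q p ^ 2 * s.e p * t.σ q ≤ η q p ^ 2 * t.σ q := by
    rcases s.e01 p with h | h <;> rw [h]
    · simp only [mul_zero, zero_mul]; positivity
    · simp
  refine le_trans ?_ (sub_le_sub_left h3 _)
  simp only [hη, of_apply]
  have hx2 := sq_nonneg (x p q)
  rcases le_total (s.σ p) (t.σ q) with h | h
  · rw [min_eq_left h, max_eq_right h]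
    have := mul_nonneg (mul_nonneg (sq_nonneg (s.σ p)) (sub_nonneg.2 h)) hx2
    nlinarith
  · rw [min_eq_right h, max_eq_left h]
    have := mul_nonneg (mul_nonneg (sq_nonneg (t.σ q)) (sub_nonneg.2 h)) hx2
    nlinarith

lemma contr {A : Matrix m k ℝ} {μ : k → ℝ} {B : Matrix k n ℝ} (hμ : ∀ j, |μ j| ≤ 1)
    (s : SVD A) (t : SVD B) (a : k → ℝ) (b : n → ℝ) :
    |∑ p, ∑ q, a p * (s.Vᵀ * diagonal μ * t.U) p q * b q| ≤
      1 / 2 * (∑ p, a p ^ 2 + ∑ q, b q ^ 2) := by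
  have e : ∑ p, ∑ q, a p * (s.Vᵀ * diagonal μ * t.U) p q * b q =
      ∑ i, (s.V *ᵥ a) i * μ i * (t.U *ᵥ b) i := by
    simp only [mul_apply (N := t.U), mul_diagonal, transpose_apply, mulVec, dotProduct, sum_mul,
      mul_sum]
    rw [sum_comm]
    conv_rhs => rw [sum_comm]
    refine sum_congr rfl fun q _ => ?_
    rw [sum_comm]
    exact sum_congr rfl fun i _ => sum_congr rfl fun p _ => by ring
  have e1 : ∑ i, (s.V *ᵥ a) i ^ 2 = ∑ p, a p ^ 2 := by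
    have : (s.V *ᵥ a) ⬝ᵥ (s.V *ᵥ a) = a ⬝ᵥ a := by
      rw [dotProduct_mulVec, ← mulVec_transpose, mulVec_mulVec, s.VV, one_mulVec]
    simpa [dotProduct, pow_two] using this
  have e2 : ∑ i, (t.U *ᵥ b) i ^ 2 ≤ ∑ q, b q ^ 2 := by
    have : (t.U *ᵥ b) ⬝ᵥ (t.U *ᵥ b) = (diagonal t.e *ᵥ b) ⬝ᵥ b := by
      rw [dotProduct_mulVec, ← mulVec_transpose, mulVec_mulVec, t.UU]
    simp only [dotProduct, ← pow_two, mulVec_diagonal] at this
    rw [this]
    refine sum_le_sum fun q _ => ?_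
    rcases t.e01 q with h | h <;> rw [h]
    · simp only [zero_mul]; positivity
    · rw [one_mul, pow_two]
  rw [e, ← e1]
  refine (abs_sum_le_sum_abs _ _).trans (le_trans ?_ (mul_le_mul_of_nonneg_left
    (add_le_add_right e2 _) (by norm_num)))
  rw [← sum_add_distrib, mul_sum]
  refine sum_le_sum fun i _ => ?_
  rw [abs_mul, abs_mul]
  have h1 := hμ i
  have h2 := abs_nonneg ((s.V *ᵥ a) i)
  have h3 := abs_nonneg ((t.U *ᵥ b) i)
  rw [← sq_abs ((s.V *ᵥ a) i), ← sq_abs ((t.U *ᵥ b) i)]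
  have h4 := mul_le_mul_of_nonneg_left h1 (mul_nonneg h2 h3)
  nlinarith [sq_nonneg (|(s.V *ᵥ a) i| - |(t.U *ᵥ b) i|)]

lemma region {σ : k → ℝ} {τ : n → ℝ} {ν : m → ℝ} (hσ : ∀ p, 0 ≤ σ p) (hτ : ∀ q, 0 ≤ τ q)
    (hν : ∀ r, 0 ≤ ν r) (x : k → n → ℝ) (y : n → m → ℝ) (z : m → k → ℝ)
    (hy : ∀ (a : n → ℝ) (b : m → ℝ), |∑ q, ∑ r, a q * y q r * b r| ≤
      1 / 2 * (∑ q, a q ^ 2 + ∑ r, b r ^ 2))
    (P : k → n → Prop) (Q : k → m → Prop) [∀ p q, Decidable (P p q)] [∀ p r, Decidable (Q p r)]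
    (hP : ∀ p q, P p q → τ q ≤ σ p) (hQ : ∀ p r, Q p r → ν r ≤ σ p) :
    |∑ p, ∑ q, ∑ r, if P p q ∧ Q p r then σ p * x p q * τ q * y q r * ν r * z r p else 0| ≤
      ∑ p, ∑ q, 1 / 2 * (min (σ p) (τ q) ^ 2 * max (σ p) (τ q)) * x p q ^ 2 +
        ∑ r, ∑ p, 1 / 2 * (min (ν r) (σ p) ^ 2 * max (ν r) (σ p)) * z r p ^ 2 := by
  rw [sum_comm (f := fun r p => 1 / 2 * (min (ν r) (σ p) ^ 2 * max (ν r) (σ p)) * z r p ^ 2),
    ← sum_add_distrib]
  refine (abs_sum_le_sum_abs _ _).trans (sum_le_sum fun p _ => ?_)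
  have e : (∑ q, ∑ r, if P p q ∧ Q p r then σ p * x p q * τ q * y q r * ν r * z r p else 0) =
      σ p * ∑ q, ∑ r, (if P p q then x p q * τ q else 0) * y q r *
        (if Q p r then ν r * z r p else 0) := by
    simp only [mul_sum]
    refine sum_congr rfl fun q _ => sum_congr rfl fun r _ => ?_
    by_cases h1 : P p q <;> by_cases h2 : Q p r <;> simp [h1, h2]
    ring
  rw [e, abs_mul, abs_of_nonneg (hσ p)]
  refine (mul_le_mul_of_nonneg_left (hy _ _) (hσ p)).trans ?_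
  rw [mul_add, mul_add, mul_sum, mul_sum, mul_sum, mul_sum]
  have h0 := hσ p
  refine add_le_add (sum_le_sum fun q _ => ?_) (sum_le_sum fun r _ => ?_)
  · have := hτ q
    split_ifs with h
    · rw [min_eq_right (hP p q h), max_eq_left (hP p q h)]; exact le_of_eq (by ring)
    · simp only [ne_eq, OfNat.ofNat_ne_zero, not_false_eq_true, zero_pow, mul_zero]; positivity
  · have := hν r
    split_ifs with h
    · rw [min_eq_left (hQ p r h), max_eq_right (hQ p r h)]; exact le_of_eq (by ring)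
    · simp only [ne_eq, OfNat.ofNat_ne_zero, not_false_eq_true, zero_pow, mul_zero]; positivity

/-- The trilinear lemma. -/
theorem trilinear {A : Matrix m k ℝ} {B : Matrix k n ℝ} {C : Matrix n m ℝ} {μ₁ : k → ℝ}
    {μ₂ : n → ℝ} {μ₀ : m → ℝ} {g₀ g₁ g₂ : ℝ} (h₁ : Gain A μ₁ B g₁) (h₂ : Gain B μ₂ C g₂)
    (h₀ : Gain C μ₀ A g₀) (b₁ : ∀ j, |μ₁ j| ≤ 1) (b₂ : ∀ j, |μ₂ j| ≤ 1) (b₀ : ∀ j, |μ₀ j| ≤ 1) :
    |(A * diagonal μ₁ * B * diagonal μ₂ * C * diagonal μ₀).trace| ≤ 2 * (g₀ + g₁ + g₂) := by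
  obtain ⟨s⟩ := exists_svd A
  obtain ⟨t⟩ := exists_svd B
  obtain ⟨u⟩ := exists_svd C
  have G₁ := gain_svd h₁ s t
  have G₂ := gain_svd h₂ t u
  have G₀ := gain_svd h₀ u s
  have c₁ := contr b₁ s t
  have c₂ := contr b₂ t u
  have c₀ := contr b₀ u s
  have e : (A * diagonal μ₁ * B * diagonal μ₂ * C * diagonal μ₀).trace =
      (diagonal s.σ * (s.Vᵀ * diagonal μ₁ * t.U) * diagonal t.σ * (t.Vᵀ * diagonal μ₂ * u.U) *
        diagonal u.σ * (u.Vᵀ * diagonal μ₀ * s.U)).trace := by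
    conv_lhs => rw [s.eq, t.eq, u.eq]
    simp only [Matrix.mul_assoc]
    rw [trace_mul_comm]
    simp only [Matrix.mul_assoc]
  generalize s.Vᵀ * diagonal μ₁ * t.U = x at *
  generalize t.Vᵀ * diagonal μ₂ * u.U = y at *
  generalize u.Vᵀ * diagonal μ₀ * s.U = z at *
  have e' : (diagonal s.σ * x * diagonal t.σ * y * diagonal u.σ * z).trace =
      ∑ p, ∑ q, ∑ r, s.σ p * x p q * t.σ q * y q r * u.σ r * z r p := by
    simp only [trace, diag_apply, mul_apply (N := z), mul_apply (N := y), mul_diagonal,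
      diagonal_mul, sum_mul]
    exact sum_congr rfl fun p _ => sum_comm
  have r1 := region s.σ_nonneg t.σ_nonneg u.σ_nonneg x y z c₂ (fun p q => t.σ q ≤ s.σ p)
    (fun p r => u.σ r ≤ s.σ p) (fun _ _ h => h) (fun _ _ h => h)
  have r2 := region t.σ_nonneg u.σ_nonneg s.σ_nonneg y z x c₀ (fun q r => u.σ r ≤ t.σ q)
    (fun q p => s.σ p < t.σ q) (fun _ _ h => h) (fun _ _ h => h.le)
  have r3 := region u.σ_nonneg s.σ_nonneg t.σ_nonneg z x y c₁ (fun r p => s.σ p < u.σ r)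
    (fun r q => t.σ q < u.σ r) (fun _ _ h => h.le) (fun _ _ h => h.le)
  have split : ∑ p, ∑ q, ∑ r, s.σ p * x p q * t.σ q * y q r * u.σ r * z r p =
      (∑ p, ∑ q, ∑ r, if t.σ q ≤ s.σ p ∧ u.σ r ≤ s.σ p then
        s.σ p * x p q * t.σ q * y q r * u.σ r * z r p else 0) +
      (∑ q, ∑ r, ∑ p, if u.σ r ≤ t.σ q ∧ s.σ p < t.σ q then
        t.σ q * y q r * u.σ r * z r p * s.σ p * x p q else 0) +
      (∑ r, ∑ p, ∑ q, if s.σ p < u.σ r ∧ t.σ q < u.σ r then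
        u.σ r * z r p * s.σ p * x p q * t.σ q * y q r else 0) := by
    have s2 : ∀ f : n → m → k → ℝ, ∑ q, ∑ r, ∑ p, f q r p = ∑ p, ∑ q, ∑ r, f q r p := fun f => by
      conv_rhs => rw [sum_comm]
      exact sum_congr rfl fun q _ => sum_comm
    have s3 : ∀ f : m → k → n → ℝ, ∑ r, ∑ p, ∑ q, f r p q = ∑ p, ∑ q, ∑ r, f r p q := fun f => by
      rw [sum_comm]
      exact sum_congr rfl fun q _ => sum_comm
    rw [s2, s3]
    simp only [← sum_add_distrib]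
    refine sum_congr rfl fun p _ => sum_congr rfl fun q _ => sum_congr rfl fun r _ => ?_
    by_cases h1 : t.σ q ≤ s.σ p <;> by_cases h2 : u.σ r ≤ s.σ p <;> by_cases h3 : u.σ r ≤ t.σ q <;>
      simp only [h1, h2, h3, ← not_le, not_true, not_false_iff, and_true, true_and, and_false,
        false_and, if_true, if_false, add_zero, zero_add] <;>
      first | ring1 | (exfalso; push Not at *; linarith)
  rw [e, e', split]
  refine (abs_add_three _ _ _).trans ?_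
  linarith

end Crest.Agent.R72
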