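import Crest.Agent.R72.Defs

/-! Row 72, sub-task A: the discrete Hardy--Littlewood maximal inequality. -/

set_option autoImplicit false

namespace Crest.Agent.R72

open MeasureTheory Finset

/-- Greedy Vitali covering: weak type `(1,1)`. -/
theorem max_weak (u : ℤ → ℝ) (hu : ∀ j, 0 ≤ u j) (lam : ℝ) (hlam : 0 ≤ lam) (R : ℤ → ℕ) :
    ∀ (k : ℕ) (T S : Finset ℤ), T.card = k →
      (∀ i ∈ T, lam * (2 * (R i : ℝ) + 1) ≤ ∑ j ∈ S.filter (fun j => |j - i| ≤ (R i : ℤ)), u j) →
      lam * T.card ≤ 2 * ∑ j ∈ S, u j := by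
  intro k
  induction k using Nat.strong_induction_on with
  | _ k ih =>
    intro T S hk hT
    rcases T.eq_empty_or_nonempty with h0 | hne
    · subst h0
      simp only [card_empty, Nat.cast_zero, mul_zero]
      exact mul_nonneg (by norm_num) (sum_nonneg fun j _ => hu j)
    obtain ⟨i, hi, hmax⟩ := T.exists_max_image R hne
    set T' := T.filter (fun j => ¬ |j - i| ≤ 2 * (R i : ℤ)) with hT'
    set S' := S.filter (fun j => ¬ |j - i| ≤ (R i : ℤ)) with hS'
    have hlt : T'.card < k := by
      rw [← hk]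
      refine card_lt_card ⟨filter_subset _ _, fun h => ?_⟩
      have := (mem_filter.1 (h hi)).2
      apply this
      simp
    have h1 := ih _ hlt T' S' rfl (by
      intro a ha
      obtain ⟨ha1, ha2⟩ := mem_filter.1 ha
      refine (hT a ha1).trans (le_of_eq ?_)
      refine sum_congr ?_ fun _ _ => rfl
      ext j
      simp only [hS', mem_filter]
      constructor
      · rintro ⟨h1, h2⟩
        refine ⟨⟨h1, fun h3 => ha2 ?_⟩, h2⟩
        have h4 : (R a : ℤ) ≤ R i := by exact_mod_cast hmax a ha1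
        rw [abs_le] at h2 h3 ⊢
        constructor <;> omega
      · rintro ⟨⟨h1, _⟩, h2⟩
        exact ⟨h1, h2⟩)
    have h2 : (T.filter (fun j => |j - i| ≤ 2 * (R i : ℤ))).card ≤ 4 * R i + 1 := by
      have : T.filter (fun j => |j - i| ≤ 2 * (R i : ℤ)) ⊆ Icc (i - 2 * R i) (i + 2 * R i) := by
        intro j hj
        have := (mem_filter.1 hj).2
        rw [abs_le] at this
        rw [mem_Icc]
        constructor <;> omega
      refine (card_le_card this).trans ?_
      rw [Int.card_Icc]
      omega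
    have h3 : T.card = (T.filter (fun j => |j - i| ≤ 2 * (R i : ℤ))).card + T'.card :=
      (card_filter_add_card_filter_not (s := T) _).symm
    have h4 : ∑ j ∈ S, u j =
        ∑ j ∈ S.filter (fun j => |j - i| ≤ (R i : ℤ)), u j + ∑ j ∈ S', u j :=
      (sum_filter_add_sum_filter_not S _ u).symm
    have h5 := hT i hi
    have h6 : ((T.filter (fun j => |j - i| ≤ 2 * (R i : ℤ))).card : ℝ) ≤ 4 * R i + 1 := by
      exact_mod_cast h2
    rw [h3, h4]
    push_cast
    nlinarith [mul_le_mul_of_nonneg_left h6 hlam]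

theorem card_ball_le (S : Finset ℤ) (i : ℤ) (R : ℕ) :
    ((S.filter (fun j => |j - i| ≤ (R : ℤ))).card : ℝ) ≤ 2 * R + 1 := by
  have : S.filter (fun j => |j - i| ≤ (R : ℤ)) ⊆ Icc (i - R) (i + R) := by
    intro j hj
    have := (mem_filter.1 hj).2
    rw [abs_le] at this
    rw [mem_Icc]
    constructor <;> omega
  have h := card_le_card this
  rw [Int.card_Icc] at h
  have h' : (S.filter (fun j => |j - i| ≤ (R : ℤ))).card ≤ 2 * R + 1 := by omega
  exact_mod_cast h'

theorem int_ind_sq (x : ℝ) (hx : 0 ≤ x) :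
    ∫ t, (Set.Ioc (0 : ℝ) x).indicator (fun t => 3 * t ^ 2) t = x ^ 3 := by
  rw [integral_indicator measurableSet_Ioc, ← intervalIntegral.integral_of_le hx]
  simp only [intervalIntegral.integral_const_mul, integral_pow]
  norm_num
  ring

theorem int_ind_const (x c : ℝ) (hx : 0 ≤ x) :
    ∫ t, (Set.Ioc (0 : ℝ) x).indicator (fun _ => c) t = c * x := by
  rw [integral_indicator measurableSet_Ioc, ← intervalIntegral.integral_of_le hx]
  simp [mul_comm]

theorem maxStmt : MaxStmt := by
  refine ⟨48, by norm_num, fun S f => ?_⟩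
  set A : ℤ → ℕ → ℝ := fun i R =>
    (∑ j ∈ S.filter (fun j => |j - i| ≤ (R : ℤ)), f j ^ 2) / (2 * R + 1) with hA
  have hA0 : ∀ i R, 0 ≤ A i R := fun i R =>
    div_nonneg (sum_nonneg fun j _ => sq_nonneg _) (by positivity)
  have hbdd : ∀ i, BddAbove (Set.range (A i)) := by
    intro i
    refine ⟨∑ j ∈ S, f j ^ 2, ?_⟩
    rintro _ ⟨R, rfl⟩
    refine (div_le_self (sum_nonneg fun j _ => sq_nonneg _) ?_).trans ?_
    · have : (0 : ℝ) ≤ R := Nat.cast_nonneg _
      linarith
    · exact sum_le_sum_of_subset_of_nonneg (filter_subset _ _) fun j _ _ => sq_nonneg _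
  have hM0 : ∀ i, 0 ≤ ⨆ R, A i R := fun i => (hA0 i 0).trans (le_ciSup (hbdd i) 0)
  refine ⟨fun i => Real.sqrt (⨆ R, A i R), fun i => Real.sqrt_nonneg _, fun i R => ?_,
    fun T => ?_⟩
  · rw [Real.sq_sqrt (hM0 i)]
    have h := le_ciSup (hbdd i) R
    simp only [hA] at h
    rw [div_le_iff₀ (by positivity)] at h
    linarith
  · set g : ℤ → ℝ := fun i => Real.sqrt (⨆ R, A i R) with hg
    have hg0 : ∀ i, 0 ≤ g i := fun i => Real.sqrt_nonneg _
    have key : ∀ t : ℝ, ∑ i ∈ T, (Set.Ioo (0 : ℝ) (g i)).indicator (fun t => 3 * t ^ 2) t ≤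
        ∑ j ∈ S, (Set.Ioc (0 : ℝ) (2 * |f j|)).indicator (fun _ => 24 * f j ^ 2) t := by
      intro t
      have hR0 : 0 ≤ ∑ j ∈ S, (Set.Ioc (0 : ℝ) (2 * |f j|)).indicator
          (fun _ => 24 * f j ^ 2) t :=
        sum_nonneg fun j _ => Set.indicator_nonneg (fun _ _ => by positivity) _
      rcases le_or_gt t 0 with ht | ht
      · refine le_trans (le_of_eq (sum_eq_zero fun i _ => ?_)) hR0
        exact Set.indicator_of_notMem (fun h => absurd h.1 (not_lt.2 ht)) _
      have hex : ∀ i, ∃ R : ℕ, t < g i → t ^ 2 < A i R := by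
        intro i
        by_cases h : t < g i
        · have h1 : t ^ 2 < ⨆ R, A i R := by
            rw [← Real.sq_sqrt (hM0 i)]
            exact pow_lt_pow_left₀ h ht.le (by norm_num)
          obtain ⟨R, hR⟩ := exists_lt_of_lt_ciSup h1
          exact ⟨R, fun _ => hR⟩
        · exact ⟨0, fun h' => absurd h' h⟩
      choose R hR using hex
      set u : ℤ → ℝ := fun j => if t ≤ 2 * |f j| then f j ^ 2 else 0 with hu
      have hu0 : ∀ j, 0 ≤ u j := fun j => by
        simp only [hu]; split_ifs <;> positivity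
      have hul : ∀ j, f j ^ 2 ≤ u j + t ^ 2 / 4 := fun j => by
        simp only [hu]
        split_ifs with h
        · have := sq_nonneg t
          linarith
        · have h1 : 2 * |f j| < t := not_le.1 h
          have h2 := abs_nonneg (f j)
          rw [← sq_abs (f j)]
          nlinarith
      have hw := max_weak u hu0 (t ^ 2 / 2) (by positivity) R _ (T.filter (fun i => t < g i)) S rfl
        (by
          intro i hi
          have h1 := hR i (mem_filter.1 hi).2
          simp only [hA] at h1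
          rw [lt_div_iff₀ (by positivity)] at h1
          have h2 : ∑ j ∈ S.filter (fun j => |j - i| ≤ (R i : ℤ)), f j ^ 2 ≤
              ∑ j ∈ S.filter (fun j => |j - i| ≤ (R i : ℤ)), (u j + t ^ 2 / 4) :=
            sum_le_sum fun j _ => hul j
          rw [sum_add_distrib, sum_const, nsmul_eq_mul] at h2
          have h3 := card_ball_le S i (R i)
          have h4 : 0 ≤ t ^ 2 / 4 := by positivity
          have h5 : (0 : ℝ) ≤ R i := Nat.cast_nonneg _
          nlinarith [mul_le_mul_of_nonneg_right h3 h4, sq_nonneg t])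
      have hL : ∑ i ∈ T, (Set.Ioo (0 : ℝ) (g i)).indicator (fun t => 3 * t ^ 2) t =
          3 * t ^ 2 * (T.filter (fun i => t < g i)).card := by
        rw [card_filter]
        push_cast
        rw [mul_sum]
        refine sum_congr rfl fun i _ => ?_
        by_cases h : t < g i
        · rw [Set.indicator_of_mem (show t ∈ Set.Ioo 0 (g i) from ⟨ht, h⟩), if_pos h, mul_one]
        · rw [Set.indicator_of_notMem (fun h' => h h'.2), if_neg h, mul_zero]
      have hRr : ∑ j ∈ S, (Set.Ioc (0 : ℝ) (2 * |f j|)).indicator (fun _ => 24 * f j ^ 2) t =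
          24 * ∑ j ∈ S, u j := by
        rw [mul_sum]
        refine sum_congr rfl fun j _ => ?_
        simp only [hu]
        by_cases h : t ≤ 2 * |f j|
        · rw [Set.indicator_of_mem (show t ∈ Set.Ioc 0 (2 * |f j|) from ⟨ht, h⟩), if_pos h]
        · rw [Set.indicator_of_notMem (fun h' => h h'.2), if_neg h, mul_zero]
      rw [hL, hRr]
      have : 0 ≤ ∑ j ∈ S, u j := sum_nonneg fun j _ => hu0 j
      nlinarith
    have hi1 : ∀ i, Integrable ((Set.Ioo (0 : ℝ) (g i)).indicator (fun t : ℝ => 3 * t ^ 2)) := by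
      intro i
      rw [integrable_indicator_iff measurableSet_Ioo]
      exact ((by fun_prop : Continuous fun t : ℝ => 3 * t ^ 2).integrableOn_Icc).mono_set
        Set.Ioo_subset_Icc_self
    have hi2 : ∀ j, Integrable
        ((Set.Ioc (0 : ℝ) (2 * |f j|)).indicator (fun _ : ℝ => 24 * f j ^ 2)) := by
      intro j
      rw [integrable_indicator_iff measurableSet_Ioc]
      exact (continuous_const.integrableOn_Icc).mono_set Set.Ioc_subset_Icc_self
    have hint := integral_mono (integrable_finsetSum T fun i _ => hi1 i)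
      (integrable_finsetSum S fun j _ => hi2 j) key
    rw [integral_finsetSum T fun i _ => hi1 i, integral_finsetSum S fun j _ => hi2 j] at hint
    have e1 : ∀ i, ∫ t, (Set.Ioo (0 : ℝ) (g i)).indicator (fun t : ℝ => 3 * t ^ 2) t =
        g i ^ 3 := by
      intro i
      rw [← int_ind_sq _ (hg0 i), integral_indicator measurableSet_Ioo,
        integral_indicator measurableSet_Ioc, integral_Ioc_eq_integral_Ioo]
    have e2 : ∀ j, ∫ t, (Set.Ioc (0 : ℝ) (2 * |f j|)).indicator (fun _ : ℝ => 24 * f j ^ 2) t =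
        48 * |f j| ^ 3 := by
      intro j
      rw [int_ind_const _ _ (by positivity), ← sq_abs (f j)]
      ring
    simp only [e1, e2] at hint
    rw [mul_sum]
    exact hint

end Crest.Agent.R72
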