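import Crest.Agent.R72.Psi

/-! Row 72: the Bellman functional integrated over the plane `a₀ + a₁ + a₂ = ξ`. -/

set_option autoImplicit false
set_option linter.unusedSectionVars false
set_option linter.unusedSimpArgs false

namespace Crest.Agent.R72

open Matrix Finset MeasureTheory

variable {n m k : Type*} [Fintype n] [DecidableEq n] [Fintype m] [DecidableEq m]
  [Fintype k] [DecidableEq k]

/-- admissible families of weights -/
structure Wt (p : ℝ → m → ℝ) : Prop where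
  cont : Continuous p
  nonneg : ∀ x i, 0 ≤ p x i
  supp : ∃ L : ℝ, ∀ x, L ≤ |x| → p x = 0

/-- midpoint average of two translates -/
noncomputable def mid (h : ℝ) (p : ℝ → m → ℝ) : ℝ → m → ℝ := fun x i => (p (x + h) i + p (x - h) i) / 2

lemma Wt.zero : Wt (0 : ℝ → m → ℝ) := ⟨continuous_const, fun _ _ => le_rfl, 0, fun _ _ => rfl⟩

lemma Wt.shift {p : ℝ → m → ℝ} (hp : Wt p) (h : ℝ) : Wt fun x => p (x + h) := by
  obtain ⟨L, hL⟩ := hp.supp
  refine ⟨hp.cont.comp (by fun_prop), fun x i => hp.nonneg _ _, L + |h|, fun x hx => hL _ ?_⟩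
  have := abs_sub (x + h) h
  rw [add_sub_cancel_right] at this; linarith

lemma Wt.shift' {p : ℝ → m → ℝ} (hp : Wt p) (h : ℝ) : Wt fun x => p (x - h) := by
  simpa only [sub_eq_add_neg] using hp.shift (-h)

lemma Wt.mid {p : ℝ → m → ℝ} (hp : Wt p) (h : ℝ) : Wt (mid h p) := by
  obtain ⟨L, hL⟩ := (hp.shift h).supp
  obtain ⟨L', hL'⟩ := (hp.shift' h).supp
  refine ⟨continuous_pi fun i => ?_, fun x i => ?_, max L L', fun x hx => ?_⟩
  · have := hp.cont
    unfold R72.mid; fun_prop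
  · have := hp.nonneg (x + h) i
    have := hp.nonneg (x - h) i
    unfold R72.mid; positivity
  · ext i
    have a := hL x ((le_max_left _ _).trans hx)
    have b := hL' x ((le_max_right _ _).trans hx)
    simp [R72.mid, a, b]

lemma mid_zero (h : ℝ) : mid h (0 : ℝ → m → ℝ) = 0 := by
  ext x i; simp [mid]

lemma integrable_of_box {f : ℝ × ℝ → ℝ} (hf : Continuous f) (L : ℝ)
    (h : ∀ z : ℝ × ℝ, L ≤ |z.1| ∨ L ≤ |z.2| → f z = 0) : Integrable f := by
  refine hf.integrable_of_hasCompactSupport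
    (HasCompactSupport.intro (isCompact_closedBall (0 : ℝ × ℝ) L) fun z hz => h z ?_)
  rw [Metric.mem_closedBall, dist_zero_right, Prod.norm_def, not_le, lt_max_iff] at hz
  exact hz.imp le_of_lt le_of_lt

lemma int_mid3 {f g h : ℝ × ℝ → ℝ} (hf : Integrable f) (hg : Integrable g) (hh : Integrable h) :
    ∫ z, (1 / 2 * f z + 1 / 2 * g z - h z) = 1 / 2 * (∫ z, f z) + 1 / 2 * (∫ z, g z) - ∫ z, h z := by
  have i : Integrable fun z => 1 / 2 * f z + 1 / 2 * g z :=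
    (hf.const_mul _).add (hg.const_mul _)
  rw [integral_sub i hh, integral_add (hf.const_mul _) (hg.const_mul _), integral_const_mul,
    integral_const_mul]

variable (a : Matrix m k ℝ) (b : Matrix k n ℝ)

lemma integrable_Psi {p : ℝ → m → ℝ} {q : ℝ → k → ℝ} {s : ℝ → n → ℝ} (hp : Wt p) (hq : Wt q)
    (hs : Wt s) (ξ : ℝ) :
    Integrable fun z : ℝ × ℝ => Psi a b (p z.1) (q (ξ - z.1 - z.2)) (s z.2) := by
  obtain ⟨L₁, h₁⟩ := hp.supp
  obtain ⟨L₂, h₂⟩ := hq.supp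
  obtain ⟨L₃, h₃⟩ := hs.supp
  have c1 := hp.cont
  have c2 := hq.cont
  have c3 := hs.cont
  refine integrable_of_box ((continuous_Psi a b).comp
    (f := fun z : ℝ × ℝ => (p z.1, q (ξ - z.1 - z.2), s z.2)) (by fun_prop))
    (|L₁| + |L₂| + |L₃| + |ξ|) fun z hz => ?_
  by_cases hq0 : L₂ ≤ |ξ - z.1 - z.2|
  · rw [h₂ _ hq0, Psi_zero_q]
  · have e1 := le_abs_self L₁
    have e2 := le_abs_self L₂
    have e3 := le_abs_self L₃
    have e4 := abs_nonneg L₁
    have e5 := abs_nonneg L₂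
    have e6 := abs_nonneg L₃
    have e7 := abs_nonneg ξ
    have t1 : |z.1| ≤ |ξ - z.1 - z.2| + |ξ| + |z.2| := by
      have : z.1 = -(ξ - z.1 - z.2) + ξ + -z.2 := by ring
      conv_lhs => rw [this]
      simpa only [abs_neg] using abs_add_three (-(ξ - z.1 - z.2)) ξ (-z.2)
    have t2 : |z.2| ≤ |ξ - z.1 - z.2| + |ξ| + |z.1| := by
      have : z.2 = -(ξ - z.1 - z.2) + ξ + -z.1 := by ring
      conv_lhs => rw [this]
      simpa only [abs_neg] using abs_add_three (-(ξ - z.1 - z.2)) ξ (-z.1)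
    rw [h₁ z.1 (by rcases hz with hz | hz <;> linarith), h₃ z.2 (by rcases hz with hz | hz <;> linarith),
      Psi_zero_ps]

/-- the plane integral -/
noncomputable def FF (p : ℝ → m → ℝ) (q : ℝ → k → ℝ) (s : ℝ → n → ℝ) (ξ : ℝ) : ℝ :=
  ∫ z : ℝ × ℝ, Psi a b (p z.1) (q (ξ - z.1 - z.2)) (s z.2)

lemma FF_nonneg (p : ℝ → m → ℝ) (q : ℝ → k → ℝ) (s : ℝ → n → ℝ) (ξ : ℝ) : 0 ≤ FF a b p q s ξ :=
  integral_nonneg fun _ => Psi_nonneg _ _ _ _ _

lemma FF_shift (p : ℝ → m → ℝ) (q : ℝ → k → ℝ) (s : ℝ → n → ℝ) (ξ u v : ℝ) :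
    FF a b (fun x => p (x + u)) q (fun x => s (x + v)) ξ = FF a b p q s (ξ + u + v) := by
  unfold FF
  rw [← integral_add_right_eq_self (fun z : ℝ × ℝ => Psi a b (p z.1) (q (ξ + u + v - z.1 - z.2))
    (s z.2)) (u, v)]
  congr 1; ext z
  simp only [Prod.fst_add, Prod.snd_add]
  congr 2; ring

lemma FF_flip (p : ℝ → m → ℝ) (q : ℝ → k → ℝ) (s : ℝ → n → ℝ) (ξ : ℝ) :
    FF a b p q s ξ = FF bᵀ aᵀ s q p ξ := by
  unfold FF
  rw [Measure.volume_eq_prod, ← integral_prod_swap]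
  congr 1; ext z
  rw [Psi_flip]
  simp only [Prod.fst_swap, Prod.snd_swap]
  congr 2; ring

variable {p : ℝ → m → ℝ} {q : ℝ → k → ℝ} {s : ℝ → n → ℝ}

lemma FF_zero_s (p : ℝ → m → ℝ) (q : ℝ → k → ℝ) (ξ : ℝ) : FF a b p q 0 ξ = FF a b p q 0 0 := by
  have := FF_shift a b p q 0 0 0 ξ
  simp only [add_zero, zero_add] at this
  exact this.symm

lemma FF_mid_q (hp : Wt p) (hq : Wt q) (hs : Wt s) (h ξ : ℝ) :
    FF a b p (mid h q) s ξ ≤ 1 / 2 * FF a b p q s (ξ + h) + 1 / 2 * FF a b p q s (ξ - h) := by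
  unfold FF
  rw [← integral_const_mul, ← integral_const_mul, ← integral_add
    ((integrable_Psi a b hp hq hs _).const_mul _) ((integrable_Psi a b hp hq hs _).const_mul _)]
  refine integral_mono (integrable_Psi a b hp (hq.mid h) hs _)
    (((integrable_Psi a b hp hq hs _).const_mul _).add
      ((integrable_Psi a b hp hq hs _).const_mul _)) fun z => ?_
  have := Psi_convex_q a b (p z.1) (s z.2) (hq.nonneg (ξ - z.1 - z.2 + h))
    (hq.nonneg (ξ - z.1 - z.2 - h))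
  have e1 : ξ + h - z.1 - z.2 = ξ - z.1 - z.2 + h := by ring
  have e2 : ξ - h - z.1 - z.2 = ξ - z.1 - z.2 - h := by ring
  simp only [e1, e2]
  exact this

lemma FF_mid_ps (hp : Wt p) (hq : Wt q) (hs : Wt s) (h ξ : ℝ) :
    FF a b (mid h p) q (mid h s) ξ ≤ FF a b p q s ξ := by
  have e1 := FF_shift a b p q s ξ h (-h)
  have e2 := FF_shift a b p q s ξ (-h) h
  rw [add_neg_cancel_right] at e1
  rw [neg_add_cancel_right] at e2
  have : FF a b (mid h p) q (mid h s) ξ ≤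
      1 / 2 * FF a b (fun x => p (x + h)) q (fun x => s (x + -h)) ξ +
      1 / 2 * FF a b (fun x => p (x + -h)) q (fun x => s (x + h)) ξ := by
    unfold FF
    have i1 := (integrable_Psi a b (hp.shift h) hq (hs.shift (-h)) ξ).const_mul (1 / 2)
    have i2 := (integrable_Psi a b (hp.shift (-h)) hq (hs.shift h) ξ).const_mul (1 / 2)
    rw [← integral_const_mul, ← integral_const_mul, ← integral_add i1 i2]
    refine integral_mono (integrable_Psi a b (hp.mid h) hq (hs.mid h) _) (i1.add i2) fun z => ?_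
    have := Psi_convex_ps a b (hp.nonneg (z.1 + h)) (hp.nonneg (z.1 + -h)) (hs.nonneg (z.2 + -h))
      (hs.nonneg (z.2 + h)) (q (ξ - z.1 - z.2))
    have e : mid h s z.2 = fun i => (s (z.2 + -h) i + s (z.2 + h) i) / 2 := by
      ext i; simp [mid, sub_eq_add_neg, add_comm]
    simp only [e]
    exact this
  linarith

lemma FF_comp_p (hp : Wt p) (hq : Wt q) (hs : Wt s) (h ξ : ℝ) :
    1 / 2 * FF a b p q s (ξ + h) + 1 / 2 * FF a b p q s (ξ - h) ≤
      FF a b (mid h p) q s ξ + (FF a b p q 0 0 - FF a b (mid h p) q 0 0) := by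
  have key : ∀ s : ℝ → n → ℝ, Wt s → 1 / 2 * FF a b p q s (ξ + h) + 1 / 2 * FF a b p q s (ξ - h) -
      FF a b (mid h p) q s ξ = ∫ z : ℝ × ℝ,
        (1 / 2 * Psi a b (p (z.1 + h)) (q (ξ - z.1 - z.2)) (s z.2) +
          1 / 2 * Psi a b (p (z.1 + -h)) (q (ξ - z.1 - z.2)) (s z.2) -
          Psi a b (mid h p z.1) (q (ξ - z.1 - z.2)) (s z.2)) := by
    intro s hs
    have e1 := FF_shift a b p q s ξ h 0
    have e2 := FF_shift a b p q s ξ (-h) 0
    simp only [add_zero, ← sub_eq_add_neg] at e1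
    simp only [add_zero] at e2
    rw [int_mid3 (integrable_Psi a b (hp.shift h) hq hs ξ)
      (integrable_Psi a b (hp.shift (-h)) hq hs ξ) (integrable_Psi a b (hp.mid h) hq hs _),
      sub_eq_add_neg ξ h, ← e1, ← e2]
    rfl
  have k1 := key s hs
  have k2 := key 0 Wt.zero
  rw [FF_zero_s a b p q (ξ + h), FF_zero_s a b p q (ξ - h), FF_zero_s a b _ q ξ] at k2
  have int : ∀ s : ℝ → n → ℝ, Wt s → Integrable fun z : ℝ × ℝ =>
      (1 / 2 * Psi a b (p (z.1 + h)) (q (ξ - z.1 - z.2)) (s z.2) +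
          1 / 2 * Psi a b (p (z.1 + -h)) (q (ξ - z.1 - z.2)) (s z.2) -
          Psi a b (mid h p z.1) (q (ξ - z.1 - z.2)) (s z.2)) := fun s hs =>
    (((integrable_Psi a b (hp.shift h) hq hs ξ).const_mul (1 / 2)).add
      ((integrable_Psi a b (hp.shift (-h)) hq hs ξ).const_mul (1 / 2))).sub
      (integrable_Psi a b (hp.mid h) hq hs _)
  have := integral_mono (int s hs) (int 0 Wt.zero) fun z => by
    have := Psi_gap_p a b (hp.nonneg (z.1 + h)) (hp.nonneg (z.1 + -h)) (hs.nonneg z.2)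
      (q (ξ - z.1 - z.2))
    exact this
  linarith

lemma FF_comp_s (hp : Wt p) (hq : Wt q) (hs : Wt s) (h ξ : ℝ) :
    1 / 2 * FF a b p q s (ξ + h) + 1 / 2 * FF a b p q s (ξ - h) ≤
      FF a b p q (mid h s) ξ + (FF a b 0 q s 0 - FF a b 0 q (mid h s) 0) := by
  simp only [FF_flip a b]
  exact FF_comp_p bᵀ aᵀ hs hq hp h ξ

lemma FF_edge (hp : Wt p) (hq : Wt q) (α h : ℝ) :
    FF a b (mid α p) (mid h (mid h q)) 0 0 ≤ FF a b p q 0 0 := by
  have h1 := FF_mid_q a b (hp.mid α) (hq.mid h) Wt.zero h 0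
  have h2 := FF_mid_q a b (hp.mid α) hq Wt.zero h 0
  have h3 := FF_mid_ps a b hp hq Wt.zero α 0
  rw [mid_zero] at h3
  rw [FF_zero_s a b _ _ (0 + h), FF_zero_s a b _ _ (0 - h)] at h1 h2
  linarith

/-- the Bellman functional of a vertex -/
noncomputable def WW (p : ℝ → m → ℝ) (q : ℝ → k → ℝ) (s : ℝ → n → ℝ) : ℝ :=
  FF a b p q s 0 + FF a b p q 0 0 + FF a b 0 q s 0

lemma WW_nonneg (p : ℝ → m → ℝ) (q : ℝ → k → ℝ) (s : ℝ → n → ℝ) : 0 ≤ WW a b p q s :=
  add_nonneg (add_nonneg (FF_nonneg _ _ _ _ _ _) (FF_nonneg _ _ _ _ _ _)) (FF_nonneg _ _ _ _ _ _)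

lemma integrable_gapq (hp : Wt p) (hq : Wt q) (hs : Wt s) (h : ℝ) :
    Integrable fun z : ℝ × ℝ =>
      gapq a b (p z.1) (q (-z.1 - z.2 - h)) (q (-z.1 - z.2 + h)) (s z.2) := by
  have i1 := (integrable_Psi a b hp (hq.shift' h) hs 0).const_mul (1 / 2)
  have i2 := (integrable_Psi a b hp (hq.shift h) hs 0).const_mul (1 / 2)
  have i3 := integrable_Psi a b hp (hq.mid h) hs 0
  simp only [zero_sub] at i1 i2 i3
  convert (i1.add i2).sub i3 using 1
  ext z
  simp only [gapq, Pi.sub_apply, Pi.add_apply]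
  congr 2; ext i; simp [mid, add_comm]

/-- One step of the telescoping. -/
theorem WW_step (hp : Wt p) (hq : Wt q) (hs : Wt s) (α h : ℝ) :
    ∫ z : ℝ × ℝ, gapq a b (mid α (mid h p) z.1) (mid h q (-z.1 - z.2 - h)) (mid h q (-z.1 - z.2 + h))
      (mid α (mid h s) z.2) ≤
      WW a b p q s - WW a b (mid α (mid h p)) (mid h (mid h q)) (mid α (mid h s)) := by
  have hp1 := hp.mid h
  have hs1 := hs.mid h
  have hq1 := hq.mid h
  have hp2 := hp1.mid α
  have hs2 := hs1.mid α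
  have e : ∫ z : ℝ × ℝ, gapq a b (mid α (mid h p) z.1) (mid h q (-z.1 - z.2 - h))
      (mid h q (-z.1 - z.2 + h)) (mid α (mid h s) z.2) =
      1 / 2 * FF a b (mid α (mid h p)) (mid h q) (mid α (mid h s)) (-h) +
      1 / 2 * FF a b (mid α (mid h p)) (mid h q) (mid α (mid h s)) h -
        FF a b (mid α (mid h p)) (mid h (mid h q)) (mid α (mid h s)) 0 := by
    have i1 := integrable_Psi a b hp2 hq1 hs2 (-h)
    have i2 := integrable_Psi a b hp2 hq1 hs2 h
    have i3 := integrable_Psi a b hp2 (hq1.mid h) hs2 0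
    unfold FF
    rw [← int_mid3 i1 i2 i3]
    congr 1; ext z
    simp only [gapq]
    congr 2
    · congr 3; ring
    · congr 3; ring
    · ext i; simp [mid, add_comm]
  have a1 := FF_mid_ps a b hp1 hq1 hs1 α (-h)
  have a2 := FF_mid_ps a b hp1 hq1 hs1 α h
  have b1 := FF_mid_q a b hp1 hq hs1 h (-h)
  have b2 := FF_mid_q a b hp1 hq hs1 h h
  have c1 := FF_mid_ps a b hp hq hs h (-h + h)
  have c2 := FF_mid_ps a b hp hq hs h (-h - h)
  have c3 := FF_mid_ps a b hp hq hs h (h + h)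
  have c4 := FF_mid_ps a b hp hq hs h (h - h)
  have d1 := FF_comp_p a b hp hq hs h (-h)
  have d2 := FF_comp_p a b hp hq hs h h
  have e1 := FF_comp_s a b hp1 hq hs h 0
  have f1 := FF_mid_ps a b hp hq hs h 0
  have g1 := FF_edge a b hp1 hq α h
  have g2 := FF_edge bᵀ aᵀ hs1 hq α h
  have g3 := FF_mid_ps a b Wt.zero hq hs h 0
  rw [← FF_flip, ← FF_flip] at g2
  rw [zero_add, zero_sub] at e1
  have e2 : FF a b 0 q (mid h s) 0 = FF a b 0 q (mid h s) 0 := rfl
  unfold WW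
  linarith

end Crest.Agent.R72
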