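import Crest.Agent.R72.Mat3

/-! Row 72: the vertex Bellman functional with weights. -/

set_option autoImplicit false
set_option linter.unusedSectionVars false
set_option linter.unusedSimpArgs false

namespace Crest.Agent.R72

open Matrix Finset

variable {n m k : Type*} [Fintype n] [DecidableEq n] [Fintype m] [DecidableEq m]
  [Fintype k] [DecidableEq k]

lemma continuous_Phi : Continuous (Phi : Matrix m n ℝ → ℝ) := by
  rw [continuous_iff_continuousAt]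
  intro Z
  set f : Matrix m n ℝ → Matrix m n ℝ → ℝ := fun Z Z' => 3 * ∑ i, ∑ j, |Z' i j - Z i j| *
      (Real.sqrt (∑ j', Z' i j' ^ 2) * Real.sqrt (∑ i', Z' i' j ^ 2)) with hf
  have c1 : Continuous fun Z' => Phi Z + f Z Z' := by simp only [hf]; fun_prop
  have c2 : Continuous fun Z' => Phi Z - f Z' Z := by simp only [hf]; fun_prop
  have t1 := c1.tendsto Z
  have t2 := c2.tendsto Z
  have e : f Z Z = 0 := by simp [hf]
  rw [e, add_zero] at t1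
  rw [e, sub_zero] at t2
  refine tendsto_of_tendsto_of_tendsto_of_le_of_le t2 t1 (fun Z' => ?_) (fun Z' => ?_)
  · have := Phi_change Z' Z
    simp only [hf]; linarith
  · have := Phi_change Z Z'
    simp only [hf]; linarith

/-- weighted matrix -/
noncomputable def wm (p : m → ℝ) (a : Matrix m k ℝ) (q : k → ℝ) : Matrix m k ℝ :=
  Matrix.of fun i j => Real.sqrt (p i) * a i j * Real.sqrt (q j)

lemma wm_eq (p : m → ℝ) (a : Matrix m k ℝ) (q : k → ℝ) :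
    wm p a q = diagonal (fun i => Real.sqrt (p i)) * a * diagonal (fun i => Real.sqrt (q i)) := by
  ext i j; simp [wm]

lemma wm_transpose (p : m → ℝ) (a : Matrix m k ℝ) (q : k → ℝ) : (wm p a q)ᵀ = wm q aᵀ p := by
  ext i j; simp [wm]; ring

/-- the vertex functional -/
noncomputable def Psi (a : Matrix m k ℝ) (b : Matrix k n ℝ) (p : m → ℝ) (q : k → ℝ) (s : n → ℝ) :
    ℝ := Phi (fromRows (wm p a q) (wm q b s)ᵀ)

variable (a : Matrix m k ℝ) (b : Matrix k n ℝ)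

lemma Psi_nonneg (p : m → ℝ) (q : k → ℝ) (s : n → ℝ) : 0 ≤ Psi a b p q s := Phi_nonneg _

lemma continuous_Psi : Continuous fun x : (m → ℝ) × (k → ℝ) × (n → ℝ) =>
    Psi a b x.1 x.2.1 x.2.2 := by
  refine continuous_Phi.comp ?_
  refine continuous_pi fun i => continuous_pi fun j => ?_
  rcases i with i | i
  · simp only [fromRows_apply_inl, wm, of_apply]; fun_prop
  · simp only [fromRows_apply_inr, wm, of_apply, transpose_apply]; fun_prop

lemma Psi_zero_q (p : m → ℝ) (s : n → ℝ) : Psi a b p 0 s = 0 := by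
  have : fromRows (wm p a 0) (wm 0 b s)ᵀ = 0 := by
    ext (i | i) j <;> simp [wm]
  rw [Psi, this, Phi_zero]

lemma Psi_zero_ps (q : k → ℝ) : Psi a b 0 q 0 = 0 := by
  have : fromRows (wm 0 a q) (wm q b 0)ᵀ = 0 := by
    ext (i | i) j <;> simp [wm]
  rw [Psi, this, Phi_zero]

lemma Psi_zero_p (a' : Matrix m k ℝ) (q : k → ℝ) (s : n → ℝ) : Psi a b 0 q s = Psi a' b 0 q s := by
  have : wm 0 a q = wm 0 a' q := by
    ext i j; simp [wm]
  rw [Psi, Psi, this]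

/-- Gram matrix on the middle variable -/
noncomputable def gram (a : Matrix m k ℝ) (p : m → ℝ) (q : k → ℝ) : Matrix k k ℝ :=
  Matrix.of fun j j' => ∑ i, p i * (Real.sqrt (q j) * a i j * (a i j' * Real.sqrt (q j')))

lemma gram_eq {p : m → ℝ} (hp : ∀ i, 0 ≤ p i) (q : k → ℝ) :
    (wm p a q)ᵀ * wm p a q = gram a p q := by
  ext j j'
  simp only [mul_apply, transpose_apply, wm, gram, of_apply]
  refine sum_congr rfl fun i _ => ?_
  conv_rhs => rw [← Real.mul_self_sqrt (hp i)]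
  ring

lemma gram_psd {p : m → ℝ} (hp : ∀ i, 0 ≤ p i) (q : k → ℝ) : (gram a p q).PosSemidef := by
  rw [← gram_eq a hp]; exact psd_tr_mul _

lemma gram_mid (p₁ p₂ : m → ℝ) (q : k → ℝ) :
    gram a (fun i => (p₁ i + p₂ i) / 2) q = (1 / 2 : ℝ) • (gram a p₁ q + gram a p₂ q) := by
  ext j j'
  simp only [gram, of_apply, Matrix.smul_apply, Matrix.add_apply, smul_eq_mul, ← sum_add_distrib,
    mul_sum]
  exact sum_congr rfl fun i _ => by ring

lemma gram_zero (q : k → ℝ) : gram a 0 q = 0 := by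
  ext j j'; simp [gram]

lemma Psi_eq {p : m → ℝ} {s : n → ℝ} (hp : ∀ i, 0 ≤ p i) (hs : ∀ i, 0 ≤ s i) (q : k → ℝ) :
    Psi a b p q s = phi (gram a p q + gram bᵀ s q) := by
  rw [Psi, Phi_eq, transpose_fromRows, fromCols_mul_fromRows, gram_eq a hp, wm_transpose q b s,
    gram_eq bᵀ hs]

lemma Psi_flip (p : m → ℝ) (q : k → ℝ) (s : n → ℝ) : Psi a b p q s = Psi bᵀ aᵀ s q p := by
  rw [Psi, Psi, Phi_eq, Phi_eq, transpose_fromRows, transpose_fromRows, fromCols_mul_fromRows,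
    fromCols_mul_fromRows, add_comm]
  simp only [wm_transpose, transpose_transpose]

lemma Psi_convex_ps {p₁ p₂ : m → ℝ} {s₁ s₂ : n → ℝ} (hp₁ : ∀ i, 0 ≤ p₁ i) (hp₂ : ∀ i, 0 ≤ p₂ i)
    (hs₁ : ∀ i, 0 ≤ s₁ i) (hs₂ : ∀ i, 0 ≤ s₂ i) (q : k → ℝ) :
    Psi a b (fun i => (p₁ i + p₂ i) / 2) q (fun i => (s₁ i + s₂ i) / 2) ≤
      1 / 2 * Psi a b p₁ q s₁ + 1 / 2 * Psi a b p₂ q s₂ := by
  rw [Psi_eq a b (fun i => by have := hp₁ i; have := hp₂ i; positivity)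
    (fun i => by have := hs₁ i; have := hs₂ i; positivity), Psi_eq a b hp₁ hs₁, Psi_eq a b hp₂ hs₂,
    gram_mid, gram_mid]
  have := phi_convex ((gram_psd a hp₁ q).add (gram_psd bᵀ hs₁ q))
    ((gram_psd a hp₂ q).add (gram_psd bᵀ hs₂ q))
  convert this using 2
  module

lemma Psi_gap_p {p₁ p₂ : m → ℝ} {s : n → ℝ} (hp₁ : ∀ i, 0 ≤ p₁ i) (hp₂ : ∀ i, 0 ≤ p₂ i)
    (hs : ∀ i, 0 ≤ s i) (q : k → ℝ) :
    1 / 2 * Psi a b p₁ q s + 1 / 2 * Psi a b p₂ q s - Psi a b (fun i => (p₁ i + p₂ i) / 2) q s ≤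
      1 / 2 * Psi a b p₁ q 0 + 1 / 2 * Psi a b p₂ q 0 -
        Psi a b (fun i => (p₁ i + p₂ i) / 2) q 0 := by
  have hp : ∀ i, 0 ≤ (p₁ i + p₂ i) / 2 := fun i => by have := hp₁ i; have := hp₂ i; positivity
  have h0 : ∀ i, 0 ≤ (0 : n → ℝ) i := fun i => le_rfl
  rw [Psi_eq a b hp₁ hs, Psi_eq a b hp₂ hs, Psi_eq a b hp hs, Psi_eq a b hp₁ h0, Psi_eq a b hp₂ h0,
    Psi_eq a b hp h0, gram_mid, gram_zero, add_zero, add_zero, add_zero]
  exact gap_mono (gram_psd a hp₁ q) (gram_psd a hp₂ q) (gram_psd bᵀ hs q)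

lemma Psi_scale (p : m → ℝ) (s : n → ℝ) {q q' ν : k → ℝ} (hq : ∀ j, 0 ≤ q j) (hq' : ∀ j, 0 ≤ q' j)
    (h : ∀ j, q j * ν j = q' j) :
    phi (fromRows (wm p a q) (wm q b s)ᵀ * diagonal ν * (fromRows (wm p a q) (wm q b s)ᵀ)ᵀ) =
      Psi a b p q' s := by
  rw [Psi, Phi]
  congr 1
  ext i i'
  simp only [mul_apply (N := _ᵀ), mul_diagonal, transpose_apply]
  refine sum_congr rfl fun j _ => ?_
  have h1 := Real.mul_self_sqrt (hq j)
  have h2 := Real.mul_self_sqrt (hq' j)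
  have h3 : Real.sqrt (q j) * Real.sqrt (q j) * ν j = Real.sqrt (q' j) * Real.sqrt (q' j) := by
    rw [h1, h2, h]
  rcases i with i | i <;> rcases i' with i' | i' <;>
    simp only [fromRows_apply_inl, fromRows_apply_inr, wm, of_apply, transpose_apply]
  · linear_combination (Real.sqrt (p i) * a i j * Real.sqrt (p i') * a i' j) * h3
  · linear_combination (Real.sqrt (p i) * a i j * Real.sqrt (s i') * b j i') * h3
  · linear_combination (Real.sqrt (s i) * b j i * Real.sqrt (p i') * a i' j) * h3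
  · linear_combination (Real.sqrt (s i) * b j i * Real.sqrt (s i') * b j i') * h3

/-- midpoint gap in the middle variable -/
noncomputable def gapq (p : m → ℝ) (q₁ q₂ : k → ℝ) (s : n → ℝ) : ℝ :=
  1 / 2 * Psi a b p q₁ s + 1 / 2 * Psi a b p q₂ s - Psi a b p (fun j => (q₁ j + q₂ j) / 2) s

/-- relative atom -/
noncomputable def rel (q₁ q₂ : k → ℝ) (j : k) : ℝ := (q₁ j - q₂ j) / (q₁ j + q₂ j)

lemma rel_le {q₁ q₂ : k → ℝ} (h₁ : ∀ j, 0 ≤ q₁ j) (h₂ : ∀ j, 0 ≤ q₂ j) (j : k) :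
    |rel q₁ q₂ j| ≤ 1 := by
  have a1 := h₁ j
  have a2 := h₂ j
  rw [rel, abs_div, abs_of_nonneg (add_nonneg a1 a2)]
  refine div_le_one_of_le₀ ?_ (add_nonneg a1 a2)
  rw [abs_le]; constructor <;> linarith

lemma rel_mul {q₁ q₂ : k → ℝ} (h₁ : ∀ j, 0 ≤ q₁ j) (h₂ : ∀ j, 0 ≤ q₂ j) (j : k) :
    (q₁ j + q₂ j) / 2 * rel q₁ q₂ j = (q₁ j - q₂ j) / 2 := by
  have a1 := h₁ j
  have a2 := h₂ j
  rw [rel]
  by_cases h : q₁ j + q₂ j = 0
  · rw [h]; simp only [zero_div, zero_mul]; linarith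
  · field_simp

lemma Psi_gain (p : m → ℝ) (s : n → ℝ) {q₁ q₂ : k → ℝ} (h₁ : ∀ j, 0 ≤ q₁ j) (h₂ : ∀ j, 0 ≤ q₂ j) :
    Gain (wm p a fun j => (q₁ j + q₂ j) / 2) (rel q₁ q₂) (wm (fun j => (q₁ j + q₂ j) / 2) b s)
      (2 / 3 * gapq a b p q₁ q₂ s) := by
  have hq : ∀ i, 0 ≤ (q₁ i + q₂ i) / 2 := fun i => by have := h₁ i; have := h₂ i; positivity
  have := gain_fromRows (wm p a fun j => (q₁ j + q₂ j) / 2) (wm (fun j => (q₁ j + q₂ j) / 2) b s)
    (rel q₁ q₂) (rel_le h₁ h₂)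
  rw [Psi_scale a b p s hq h₁ (fun j => by rw [mul_add, rel_mul h₁ h₂]; ring),
    Psi_scale a b p s hq h₂ (fun j => by rw [mul_sub, rel_mul h₁ h₂]; ring)] at this
  exact this

lemma gapq_nonneg (p : m → ℝ) (s : n → ℝ) {q₁ q₂ : k → ℝ} (h₁ : ∀ j, 0 ≤ q₁ j)
    (h₂ : ∀ j, 0 ≤ q₂ j) : 0 ≤ gapq a b p q₁ q₂ s := by
  have := Psi_gain a b p s h₁ h₂ 0
  simp only [Matrix.zero_mul, trace_zero, transpose_zero] at this
  linarith

lemma Psi_convex_q (p : m → ℝ) (s : n → ℝ) {q₁ q₂ : k → ℝ} (h₁ : ∀ j, 0 ≤ q₁ j)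
    (h₂ : ∀ j, 0 ≤ q₂ j) : Psi a b p (fun j => (q₁ j + q₂ j) / 2) s ≤
      1 / 2 * Psi a b p q₁ s + 1 / 2 * Psi a b p q₂ s := by
  have := gapq_nonneg a b p s h₁ h₂
  unfold gapq at this; linarith

/-- the trilinear lemma with weights -/
theorem tri_weights (c : Matrix n m ℝ) {p₁ p₂ : m → ℝ} {q₁ q₂ : k → ℝ} {s₁ s₂ : n → ℝ}
    (hp₁ : ∀ j, 0 ≤ p₁ j) (hp₂ : ∀ j, 0 ≤ p₂ j) (hq₁ : ∀ j, 0 ≤ q₁ j) (hq₂ : ∀ j, 0 ≤ q₂ j)
    (hs₁ : ∀ j, 0 ≤ s₁ j) (hs₂ : ∀ j, 0 ≤ s₂ j) :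
    |∑ i, ∑ j, ∑ l, a i j * b j l * c l i *
      ((p₁ i - p₂ i) / 2 * ((q₁ j - q₂ j) / 2) * ((s₁ l - s₂ l) / 2))| ≤
      4 / 3 * (gapq c a (fun j => (s₁ j + s₂ j) / 2) p₁ p₂ (fun j => (q₁ j + q₂ j) / 2) +
        gapq a b (fun j => (p₁ j + p₂ j) / 2) q₁ q₂ (fun j => (s₁ j + s₂ j) / 2) +
        gapq b c (fun j => (q₁ j + q₂ j) / 2) s₁ s₂ (fun j => (p₁ j + p₂ j) / 2)) := by
  have := trilinear (Psi_gain a b (fun j => (p₁ j + p₂ j) / 2) (fun j => (s₁ j + s₂ j) / 2) hq₁ hq₂)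
    (Psi_gain b c (fun j => (q₁ j + q₂ j) / 2) (fun j => (p₁ j + p₂ j) / 2) hs₁ hs₂)
    (Psi_gain c a (fun j => (s₁ j + s₂ j) / 2) (fun j => (q₁ j + q₂ j) / 2) hp₁ hp₂)
    (rel_le hq₁ hq₂) (rel_le hs₁ hs₂) (rel_le hp₁ hp₂)
  refine le_trans (le_of_eq ?_) (this.trans (le_of_eq (by ring)))
  congr 1
  simp only [trace, diag_apply, mul_diagonal, mul_apply (N := wm _ c _), mul_apply (N := wm _ b _),
    sum_mul]
  refine sum_congr rfl fun i _ => ?_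
  rw [sum_comm]
  refine sum_congr rfl fun l _ => sum_congr rfl fun j _ => ?_
  rw [← rel_mul hp₁ hp₂, ← rel_mul hq₁ hq₂, ← rel_mul hs₁ hs₂]
  simp only [wm, of_apply]
  have e1 := Real.mul_self_sqrt (show 0 ≤ (p₁ i + p₂ i) / 2 by
    have := hp₁ i; have := hp₂ i; positivity)
  have e2 := Real.mul_self_sqrt (show 0 ≤ (q₁ j + q₂ j) / 2 by
    have := hq₁ j; have := hq₂ j; positivity)
  have e3 := Real.mul_self_sqrt (show 0 ≤ (s₁ l + s₂ l) / 2 by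
    have := hs₁ l; have := hs₂ l; positivity)
  generalize Real.sqrt ((p₁ i + p₂ i) / 2) = x at *
  generalize Real.sqrt ((q₁ j + q₂ j) / 2) = y at *
  generalize Real.sqrt ((s₁ l + s₂ l) / 2) = z at *
  rw [← e1, ← e2, ← e3]; ring

/-- the crude gain with weights -/
theorem crude_weights (X : m → n → ℝ) {p : m → ℝ} {q₁ q₂ : k → ℝ} {s : n → ℝ}
    (hp : ∀ j, 0 ≤ p j) (hq₁ : ∀ j, 0 ≤ q₁ j) (hq₂ : ∀ j, 0 ≤ q₂ j) (hs : ∀ j, 0 ≤ s j) :
    2 * ∑ i, ∑ l, ∑ j, X i l * a i j * b j l * (p i * ((q₁ j - q₂ j) / 2) * s l) ≤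
      2 / 3 * gapq a b p q₁ q₂ s + (∑ i, ∑ l, X i l ^ 2 * (p i * s l)) *
        (Real.sqrt (∑ i, ∑ j, p i * ((q₁ j + q₂ j) / 2) * a i j ^ 2) +
          Real.sqrt (∑ j, ∑ l, (q₁ j + q₂ j) / 2 * s l * b j l ^ 2)) := by
  have hq : ∀ i, 0 ≤ (q₁ i + q₂ i) / 2 := fun i => by have := hq₁ i; have := hq₂ i; positivity
  have := (Psi_gain a b p s hq₁ hq₂).crude
    (Matrix.of fun l i => Real.sqrt (s l) * X i l * Real.sqrt (p i))
  convert this using 3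
  · simp only [trace, diag_apply, mul_diagonal, mul_apply (N := wm _ a _),
      mul_apply (N := wm _ b _), sum_mul]
    rw [sum_comm]
    refine sum_congr rfl fun l _ => ?_
    rw [sum_comm]
    refine sum_congr rfl fun j _ => sum_congr rfl fun i _ => ?_
    rw [← rel_mul hq₁ hq₂]
    simp only [wm, of_apply]
    have e1 := Real.mul_self_sqrt (hp i)
    have e2 := Real.mul_self_sqrt (hq j)
    have e3 := Real.mul_self_sqrt (hs l)
    generalize Real.sqrt (p i) = x at *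
    generalize Real.sqrt ((q₁ j + q₂ j) / 2) = y at *
    generalize Real.sqrt (s l) = z at *
    rw [← e1, ← e2, ← e3]; ring
  · rw [sum_comm]
    refine sum_congr rfl fun l _ => sum_congr rfl fun i _ => ?_
    simp only [of_apply, mul_pow, Real.sq_sqrt (hp i), Real.sq_sqrt (hs l)]; ring
  · congr 1
    · congr 1
      refine sum_congr rfl fun i _ => sum_congr rfl fun j _ => ?_
      simp only [wm, of_apply, mul_pow, Real.sq_sqrt (hp i), Real.sq_sqrt (hq j)]; ring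
    · congr 1
      refine sum_congr rfl fun i _ => sum_congr rfl fun j _ => ?_
      simp only [wm, of_apply, mul_pow, Real.sq_sqrt (hs j), Real.sq_sqrt (hq i)]; ring

lemma Psi_le_sqrt {p : m → ℝ} {q : k → ℝ} {s : n → ℝ}
    (hp : ∀ j, 0 ≤ p j) (hq : ∀ j, 0 ≤ q j) (hs : ∀ j, 0 ≤ s j) :
    Psi a b p q s ≤ Real.sqrt (∑ i, ∑ j, p i * q j * a i j ^ 2 +
      ∑ j, ∑ l, q j * s l * b j l ^ 2) ^ 3 := by
  refine (Phi_le _).trans (le_of_eq ?_)
  congr 2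
  rw [Fintype.sum_sum_type]
  congr 1
  · refine sum_congr rfl fun i _ => sum_congr rfl fun j _ => ?_
    simp only [fromRows_apply_inl, wm, of_apply, mul_pow, Real.sq_sqrt (hp i), Real.sq_sqrt (hq j)]
    ring
  · rw [sum_comm]
    refine sum_congr rfl fun i _ => sum_congr rfl fun j _ => ?_
    simp only [fromRows_apply_inr, wm, of_apply, mul_pow, Real.sq_sqrt (hs j), Real.sq_sqrt (hq i),
      transpose_apply]
    ring

lemma Psi_le {p : m → ℝ} {q : k → ℝ} {s : n → ℝ}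
    (hp : ∀ j, 0 ≤ p j) (hq : ∀ j, 0 ≤ q j) (hs : ∀ j, 0 ≤ s j) (hp1 : ∑ j, p j ≤ 1)
    (hq1 : ∑ j, q j ≤ 1) (hs1 : ∑ j, s j ≤ 1) :
    Psi a b p q s ≤ 3 / 2 * (∑ i, ∑ j, p i * q j * |a i j| ^ 3 +
      ∑ j, ∑ l, q j * s l * |b j l| ^ 3) := by
  refine (Psi_le_sqrt a b hp hq hs).trans ?_
  set T := ∑ i, ∑ j, p i * q j * a i j ^ 2 + ∑ j, ∑ l, q j * s l * b j l ^ 2 with hT
  have hT0 : 0 ≤ T := by
    refine add_nonneg (sum_nonneg fun i _ => sum_nonneg fun j _ => ?_)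
      (sum_nonneg fun i _ => sum_nonneg fun j _ => ?_)
    · have := hp i; have := hq j; positivity
    · have := hs j; have := hq i; positivity
  set t := Real.sqrt T with ht
  have ht0 : 0 ≤ t := Real.sqrt_nonneg _
  have htt : t ^ 2 = T := Real.sq_sqrt hT0
  have key : ∀ w x : ℝ, 0 ≤ w → 3 * (2 / 3 * t) * (w * x ^ 2) ≤
      2 * (w * |x| ^ 3) + (2 / 3 * t) ^ 3 * w := by
    intro w x hw
    rw [← sq_abs x]
    have h0 := abs_nonneg x
    have : 0 ≤ (|x| - 2 / 3 * t) ^ 2 * (2 * |x| + 2 / 3 * t) := by positivity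
    nlinarith [mul_nonneg hw this]
  have s1 : 3 * (2 / 3 * t) * ∑ i, ∑ j, p i * q j * a i j ^ 2 ≤
      2 * (∑ i, ∑ j, p i * q j * |a i j| ^ 3) + (2 / 3 * t) ^ 3 * ((∑ i, p i) * ∑ j, q j) := by
    rw [sum_mul_sum]
    simp only [mul_sum, ← sum_add_distrib]
    exact sum_le_sum fun i _ => sum_le_sum fun j _ => key _ _ (mul_nonneg (hp i) (hq j))
  have s2 : 3 * (2 / 3 * t) * ∑ i, ∑ j, q i * s j * b i j ^ 2 ≤
      2 * (∑ i, ∑ j, q i * s j * |b i j| ^ 3) + (2 / 3 * t) ^ 3 * ((∑ i, q i) * ∑ j, s j) := by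
    rw [sum_mul_sum]
    simp only [mul_sum, ← sum_add_distrib]
    exact sum_le_sum fun i _ => sum_le_sum fun j _ => key _ _ (mul_nonneg (hq i) (hs j))
  have u1 : (∑ i, p i) * ∑ j, q j ≤ 1 := mul_le_one₀ hp1 (sum_nonneg fun j _ => hq j) hq1
  have u2 : (∑ i, q i) * ∑ j, s j ≤ 1 := mul_le_one₀ hq1 (sum_nonneg fun j _ => hs j) hs1
  have h3 : 0 ≤ (2 / 3 * t) ^ 3 := by positivity
  have v1 := mul_le_mul_of_nonneg_left u1 h3
  have v2 := mul_le_mul_of_nonneg_left u2 h3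
  have : 3 * (2 / 3 * t) * T = 2 * t ^ 3 := by rw [← htt]; ring
  rw [hT, mul_add] at this
  nlinarith [pow_nonneg ht0 3]

lemma Psi_change (a' : Matrix m k ℝ) {p : m → ℝ} {q : k → ℝ} {s : n → ℝ}
    (hp : ∀ j, 0 ≤ p j) (hq : ∀ j, 0 ≤ q j) (hs : ∀ j, 0 ≤ s j) :
    Psi a' b p q s - Psi a b p q s ≤ 3 * ∑ i, ∑ j, p i * q j * |a' i j - a i j| *
      (Real.sqrt (∑ j', q j' * a' i j' ^ 2) *
        Real.sqrt (∑ i', p i' * a' i' j ^ 2 + ∑ l, s l * b j l ^ 2)) := by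
  refine (Phi_change _ _).trans (le_of_eq ?_)
  congr 1
  rw [Fintype.sum_sum_type]
  simp only [fromRows_apply_inr, sub_self, abs_zero, zero_mul, sum_const_zero, add_zero,
    fromRows_apply_inl, Fintype.sum_sum_type]
  refine sum_congr rfl fun i _ => sum_congr rfl fun j _ => ?_
  have e1 : ∑ j', wm p a' q i j' ^ 2 = p i * ∑ j', q j' * a' i j' ^ 2 := by
    rw [mul_sum]
    refine sum_congr rfl fun j _ => ?_
    simp only [wm, of_apply, mul_pow, Real.sq_sqrt (hp i), Real.sq_sqrt (hq j)]; ring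
  have e2 : ∑ i', wm p a' q i' j ^ 2 + ∑ l, (wm q b s)ᵀ l j ^ 2 =
      q j * (∑ i', p i' * a' i' j ^ 2 + ∑ l, s l * b j l ^ 2) := by
    rw [mul_add, mul_sum, mul_sum]
    congr 1
    · refine sum_congr rfl fun i _ => ?_
      simp only [wm, of_apply, mul_pow, Real.sq_sqrt (hp i), Real.sq_sqrt (hq j)]; ring
    · refine sum_congr rfl fun i _ => ?_
      simp only [wm, of_apply, mul_pow, Real.sq_sqrt (hs i), Real.sq_sqrt (hq j), transpose_apply]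
      ring
  have e3 : |wm p a' q i j - wm p a q i j| =
      Real.sqrt (p i) * Real.sqrt (q j) * |a' i j - a i j| := by
    simp only [wm, of_apply]
    rw [← abs_of_nonneg (mul_nonneg (Real.sqrt_nonneg (p i)) (Real.sqrt_nonneg (q j))), ← abs_mul]
    congr 1; ring
  rw [e1, e2, e3, Real.sqrt_mul (hp i), Real.sqrt_mul (hq j)]
  have f1 := Real.mul_self_sqrt (hp i)
  have f2 := Real.mul_self_sqrt (hq j)
  generalize Real.sqrt (p i) = x at *
  generalize Real.sqrt (q j) = y at *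
  rw [← f1, ← f2]; ring

end Crest.Agent.R72
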