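import Crest.Agent.R72.RedC
import Crest.Prelude.Def_TriangularHilbert

/-! Row 72: the statement of S0096 follows from the discrete core inequality. -/

set_option autoImplicit false

namespace Crest.Agent.R72

open MeasureTheory Filter Topology Crest.AnalysisR
open scoped ENNReal

namespace Red

lemma ae_ae_shift {F F' : ℝ × ℝ → ℂ} (h : F =ᵐ[volume] F') {v : ℝ → ℝ × ℝ} (mv : Measurable v) :
    ∀ᵐ z : ℝ × ℝ, ∀ᵐ t : ℝ, F (z + v t) = F' (z + v t) := by
  obtain ⟨N, hN, mN, hN0⟩ := exists_measurable_superset_of_null (ae_iff.mp h)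
  have h1 : ∀ᵐ z : ℝ × ℝ, ∀ᵐ t : ℝ, z + v t ∉ N := by
    rw [Measure.ae_ae_comm (p := fun (z : ℝ × ℝ) (t : ℝ) => z + v t ∉ N)
      ((measurable_fst.add (mv.comp measurable_snd)) mN.compl)]
    refine Eventually.of_forall fun t => ?_
    exact (measurePreserving_add_right volume (v t)).quasiMeasurePreserving.ae
      (measure_eq_zero_iff_ae_notMem.mp hN0)
  filter_upwards [h1] with z hz
  filter_upwards [hz] with t ht
  by_contra hne
  exact ht (hN hne)

lemma mv1 : Measurable fun t : ℝ => ((t, 0) : ℝ × ℝ) := measurable_id.prodMk measurable_const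
lemma mv2 : Measurable fun t : ℝ => ((0, t) : ℝ × ℝ) := measurable_const.prodMk measurable_id

lemma annular_eq (F G : ℝ × ℝ → ℂ) (ε R : ℝ) (z : ℝ × ℝ) :
    annularTriangularHT F G ε R z = ∫ t, F (z + (t, 0)) * G (z + (0, t)) * (k1 ε R t : ℂ) := by
  have ms : MeasurableSet {t : ℝ | ε < |t| ∧ |t| < R} :=
    (measurableSet_lt measurable_const measurable_abs).inter
      (measurableSet_lt measurable_abs measurable_const)
  unfold annularTriangularHT
  rw [← integral_indicator ms]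
  refine integral_congr_ae (Eventually.of_forall fun t => ?_)
  have e1 : z + (t, 0) = (z.1 + t, z.2) := by ext <;> simp
  have e2 : z + (0, t) = (z.1, z.2 + t) := by ext <;> simp
  simp only [e1, e2, k1, Set.indicator, Set.mem_ofPred_eq]
  split_ifs
  · push_cast
    ring
  · simp

lemma count_congr (n : ℕ) {F F' G G' : ℝ × ℝ → ℂ} (hF : F =ᵐ[volume] F') (hG : G =ᵐ[volume] G') :
    annulusCount n F G =ᵐ[volume] annulusCount n F' G' := by
  filter_upwards [ae_ae_shift hF mv1, ae_ae_shift hG mv2] with z h1 h2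
  have : ∀ ε R, annularTriangularHT F G ε R z = annularTriangularHT F' G' ε R z := by
    intro ε R
    rw [annular_eq, annular_eq]
    refine integral_congr_ae ?_
    filter_upwards [h1, h2] with t h3 h4
    rw [h3, h4]
  unfold annulusCount
  simp only [this]

lemma ae_loc {a : ℝ × ℝ → ℝ} (ma : Measurable a) (ia : Integrable a) {v : ℝ → ℝ × ℝ}
    (mv : Measurable v) : ∀ᵐ z : ℝ × ℝ, ∀ k : ℕ,
      Integrable fun t => a (z + v t) * (Set.Icc (-(k : ℝ)) k).indicator (fun _ => (1 : ℝ)) t := by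
  refine ae_all_iff.mpr fun k => ?_
  exact (integrable_shear ma ia mv (measurable_const.indicator measurableSet_Icc)
    ((integrableOn_const (C := (1 : ℝ)) (by simp)).integrable_indicator
      measurableSet_Icc)).prod_right_ae

lemma ae_int {F G : ℝ × ℝ → ℝ} (mF : Measurable F) (mG : Measurable G)
    (iF : Integrable fun z => |F z| ^ 3) (iG : Integrable fun z => |G z| ^ 3) :
    ∀ᵐ z : ℝ × ℝ, ∀ ε R : ℝ, 0 < ε →
      Integrable fun t => F (z + (t, 0)) * G (z + (0, t)) * k1 ε R t := by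
  filter_upwards [ae_loc (mF.abs.pow_const 3) iF mv1, ae_loc (mG.abs.pow_const 3) iG mv2]
    with z h1 h2 ε R hε
  obtain ⟨k, hk⟩ := exists_nat_ge R
  have h3 : Integrable ((Set.Icc (-(k : ℝ)) k).indicator (fun _ => (1 : ℝ))) :=
    (integrableOn_const (C := (1 : ℝ)) (by simp)).integrable_indicator measurableSet_Icc
  refine ((((h1 k).add (h2 k)).add h3).mul_const (1 / ε)).mono'
    (((mF.comp (mv1.const_add z)).mul (mG.comp (mv2.const_add z))).mul
      (measurable_k1 ε R)).aestronglyMeasurable (Eventually.of_forall fun t => ?_)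
  simp only [Pi.add_apply, Real.norm_eq_abs, k1]
  split_ifs with h
  · have ht : t ∈ Set.Icc (-(k : ℝ)) k := abs_le.mp (h.2.le.trans hk)
    rw [Set.indicator_of_mem ht, abs_mul]
    have h4 := abs_mul3_le (F (z + (t, 0))) (G (z + (0, t))) 1
    simp only [mul_one, abs_one, one_pow] at h4 ⊢
    refine mul_le_mul h4 ?_ (abs_nonneg _) (by positivity)
    rw [abs_div, abs_one]
    exact one_div_le_one_div_of_le hε h.1.le
  · simp only [mul_zero, abs_zero]
    have : 0 ≤ (Set.Icc (-(k : ℝ)) k).indicator (fun _ => (1 : ℝ)) t :=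
      Set.indicator_nonneg (fun _ _ => zero_le_one) t
    positivity

/-- rational signed families with at most `n` annuli -/
def RC (n : ℕ) : Type :=
  {p : Σ m : ℕ, (Fin m → ℚ) × (Fin m → ℚ) × (Fin m → Bool) // p.1 ≤ n ∧
    (∀ j, 0 < p.2.1 j ∧ p.2.1 j < p.2.2.1 j) ∧
    ∀ i j, i ≠ j → p.2.2.1 i ≤ p.2.1 j ∨ p.2.2.1 j ≤ p.2.1 i}

instance (n : ℕ) : Countable (RC n) := by
  unfold RC
  infer_instance

instance (n : ℕ) : Nonempty (RC n) :=
  ⟨⟨⟨0, Fin.elim0, Fin.elim0, Fin.elim0⟩, Nat.zero_le _, fun j => j.elim0, fun j => j.elim0⟩⟩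

/-- the family attached to rational data -/
def RC.cfg {n : ℕ} (p : RC n) : Cfg where
  m := p.1.1
  ε j := p.1.2.1 j
  R j := p.1.2.2.1 j
  sg j := if p.1.2.2.2 j then 1 else -1
  pos j := ⟨by exact_mod_cast (p.2.2.1 j).1, by exact_mod_cast (p.2.2.1 j).2⟩
  disj i j h := by exact_mod_cast p.2.2.2 i j h
  sg_le j := by split_ifs <;> simp

lemma sum_abs_le {n : ℕ} (e : ℕ → RC n) (he : Function.Surjective e) {F G : ℝ × ℝ → ℝ}
    {z : ℝ × ℝ} (hz : ∀ ε R : ℝ, 0 < ε →
      Integrable fun t => F (z + (t, 0)) * G (z + (0, t)) * k1 ε R t)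
    {m : ℕ} (hm : m ≤ n) (ε R : Fin m → ℚ) (h1 : ∀ j, 0 < ε j ∧ ε j < R j)
    (h2 : ∀ i j, i ≠ j → R i ≤ ε j ∨ R j ≤ ε i) :
    ENNReal.ofReal (∑ j, |∫ t, F (z + (t, 0)) * G (z + (0, t)) * k1 (ε j) (R j) t|) ≤
      ⨆ i, ENNReal.ofReal (T (e i).cfg F G z) := by
  classical
  set b : Fin m → ℝ := fun j => ∫ t, F (z + (t, 0)) * G (z + (0, t)) * k1 (ε j) (R j) t with hb
  obtain ⟨i, hi⟩ := he ⟨⟨m, ε, R, fun j => decide (0 ≤ b j)⟩, hm, h1, h2⟩
  refine le_iSup_of_le i (le_of_eq ?_)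
  congr 1
  rw [hi]
  change _ = ∫ t, F (z + (t, 0)) * G (z + (0, t)) *
    ∑ j : Fin m, (if decide (0 ≤ b j) then (1 : ℝ) else -1) * k1 (ε j) (R j) t
  have e1 : ∀ t, F (z + (t, 0)) * G (z + (0, t)) *
      ∑ j : Fin m, (if decide (0 ≤ b j) then (1 : ℝ) else -1) * k1 (ε j) (R j) t =
      ∑ j : Fin m, (if decide (0 ≤ b j) then (1 : ℝ) else -1) *
        (F (z + (t, 0)) * G (z + (0, t)) * k1 (ε j) (R j) t) := by
    intro t
    rw [Finset.mul_sum]
    exact Finset.sum_congr rfl fun j _ => by ring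
  simp only [e1]
  rw [integral_finsetSum _ fun j _ => (hz _ _ (by exact_mod_cast (h1 j).1)).const_mul _]
  refine Finset.sum_congr rfl fun j _ => ?_
  rw [integral_const_mul]
  change |b j| = _ * b j
  by_cases h : 0 ≤ b j
  · simp [h, abs_of_nonneg h]
  · simp [h, abs_of_neg (not_le.mp h)]

lemma norm_annular_le {F G : ℝ × ℝ → ℂ} {z : ℝ × ℝ} {ε R : ℝ}
    (h11 : Integrable fun t => (F (z + (t, 0))).re * (G (z + (0, t))).re * k1 ε R t)
    (h12 : Integrable fun t => (F (z + (t, 0))).re * (G (z + (0, t))).im * k1 ε R t)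
    (h21 : Integrable fun t => (F (z + (t, 0))).im * (G (z + (0, t))).re * k1 ε R t)
    (h22 : Integrable fun t => (F (z + (t, 0))).im * (G (z + (0, t))).im * k1 ε R t) :
    ‖annularTriangularHT F G ε R z‖ ≤
      |∫ t, (F (z + (t, 0))).re * (G (z + (0, t))).re * k1 ε R t| +
      |∫ t, (F (z + (t, 0))).re * (G (z + (0, t))).im * k1 ε R t| +
      |∫ t, (F (z + (t, 0))).im * (G (z + (0, t))).re * k1 ε R t| +
      |∫ t, (F (z + (t, 0))).im * (G (z + (0, t))).im * k1 ε R t| := by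
  rw [annular_eq]
  have e : ∀ t, F (z + (t, 0)) * G (z + (0, t)) * (k1 ε R t : ℂ) =
      (((F (z + (t, 0))).re * (G (z + (0, t))).re * k1 ε R t -
        (F (z + (t, 0))).im * (G (z + (0, t))).im * k1 ε R t : ℝ) : ℂ) +
      (((F (z + (t, 0))).re * (G (z + (0, t))).im * k1 ε R t +
        (F (z + (t, 0))).im * (G (z + (0, t))).re * k1 ε R t : ℝ) : ℂ) * Complex.I := by
    intro t
    apply Complex.ext
    · simp
      ring
    · simp
      ring
  simp only [e]
  have i1 : Integrable fun t => (((F (z + (t, 0))).re * (G (z + (0, t))).re * k1 ε R t -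
        (F (z + (t, 0))).im * (G (z + (0, t))).im * k1 ε R t : ℝ) : ℂ) := (h11.sub h22).ofReal
  have i2 : Integrable fun t => (((F (z + (t, 0))).re * (G (z + (0, t))).im * k1 ε R t +
        (F (z + (t, 0))).im * (G (z + (0, t))).re * k1 ε R t : ℝ) : ℂ) := (h12.add h21).ofReal
  rw [integral_add i1 (i2.mul_const _),
    integral_mul_const, integral_complex_ofReal, integral_complex_ofReal, integral_sub h11 h22,
    integral_add h12 h21]
  refine (norm_add_le _ _).trans ?_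
  rw [norm_mul, Complex.norm_I, mul_one, Complex.norm_real, Complex.norm_real, Real.norm_eq_abs,
    Real.norm_eq_abs]
  have a1 := abs_sub (∫ t, (F (z + (t, 0))).re * (G (z + (0, t))).re * k1 ε R t)
    (∫ t, (F (z + (t, 0))).im * (G (z + (0, t))).im * k1 ε R t)
  have a2 := abs_add_le (∫ t, (F (z + (t, 0))).re * (G (z + (0, t))).im * k1 ε R t)
    (∫ t, (F (z + (t, 0))).im * (G (z + (0, t))).re * k1 ε R t)
  linarith

theorem meas_bound {n : ℕ} {A : ℝ} (hA : 0 ≤ A) (hC : CoreAt n A) {F G : ℝ × ℝ → ℂ}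
    (mF : Measurable F) (mG : Measurable G) (iF : Integrable fun z => ‖F z‖ ^ 3)
    (iG : Integrable fun z => ‖G z‖ ^ 3) :
    (∫⁻ z, annulusCount n F G z ^ (3 / 2 : ℝ)) ^ (2 / 3 : ℝ) ≤
      ENNReal.ofReal (108 * A * (n3 (fun z => ‖F z‖) * n3 (fun z => ‖G z‖))) := by
  obtain ⟨e, he⟩ := exists_surjective_nat (RC n)
  have part : ∀ {H : ℝ × ℝ → ℂ} {f : ℝ × ℝ → ℝ}, (Integrable fun z => ‖H z‖ ^ 3) → Measurable f →
      (∀ z, |f z| ≤ ‖H z‖) → (Integrable fun z => |f z| ^ 3) ∧ n3 f ≤ n3 fun z => ‖H z‖ := by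
    intro H f iH mf hf
    have h1 : ∀ z, |f z| ^ 3 ≤ ‖H z‖ ^ 3 := fun z => pow_le_pow_left₀ (abs_nonneg _) (hf z) 3
    have i1 : Integrable fun z => |f z| ^ 3 :=
      iH.mono' (mf.abs.pow_const 3).aestronglyMeasurable (Eventually.of_forall fun z => by
        rw [Real.norm_eq_abs, abs_pow, abs_abs]; exact h1 z)
    refine ⟨i1, ?_⟩
    unfold n3
    refine Real.rpow_le_rpow (integral_nonneg fun z => by positivity) ?_ (by positivity)
    simp only [abs_norm]
    exact integral_mono i1 iH h1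
  have mF1 : Measurable fun z => (F z).re := Complex.measurable_re.comp mF
  have mF2 : Measurable fun z => (F z).im := Complex.measurable_im.comp mF
  have mG1 : Measurable fun z => (G z).re := Complex.measurable_re.comp mG
  have mG2 : Measurable fun z => (G z).im := Complex.measurable_im.comp mG
  obtain ⟨iF1, nF1⟩ := part iF mF1 fun z => Complex.abs_re_le_norm _
  obtain ⟨iF2, nF2⟩ := part iF mF2 fun z => Complex.abs_im_le_norm _
  obtain ⟨iG1, nG1⟩ := part iG mG1 fun z => Complex.abs_re_le_norm _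
  obtain ⟨iG2, nG2⟩ := part iG mG2 fun z => Complex.abs_im_le_norm _
  set S : (ℝ × ℝ → ℝ) → (ℝ × ℝ → ℝ) → ℝ × ℝ → ℝ≥0∞ :=
    fun f g z => ⨆ i, ENNReal.ofReal (T (e i).cfg f g z) with hS
  have mS : ∀ {f g : ℝ × ℝ → ℝ}, Measurable f → Measurable g → Measurable (S f g) :=
    fun mf mg => Measurable.iSup fun i => (measurable_T _ mf mg).ennreal_ofReal
  set Y := 27 * A * (n3 (fun z => ‖F z‖) * n3 (fun z => ‖G z‖)) with hY
  have hY0 : 0 ≤ Y := by
    have := n3_nonneg fun z => ‖F z‖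
    have := n3_nonneg fun z => ‖G z‖
    positivity
  have bS : ∀ {f g : ℝ × ℝ → ℝ}, Measurable f → Measurable g → (Integrable fun z => |f z| ^ 3) →
      (Integrable fun z => |g z| ^ 3) → n3 f ≤ n3 (fun z => ‖F z‖) → n3 g ≤ n3 (fun z => ‖G z‖) →
      (∫⁻ z, S f g z ^ (3 / 2 : ℝ)) ^ (1 / (3 / 2) : ℝ) ≤ ENNReal.ofReal Y := by
    intro f g mf mg i1 i2 n1 n2
    refine (real_bound hA hC (fun i => (e i).cfg) (fun i => (e i).2.1) mf mg i1 i2).trans
      (ENNReal.ofReal_le_ofReal ?_)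
    exact mul_le_mul_of_nonneg_left (mul_le_mul n1 n2 (n3_nonneg _) (n3_nonneg _)) (by positivity)
  have hpt : ∀ᵐ z : ℝ × ℝ, annulusCount n F G z ≤
      (S (fun z => (F z).re) (fun z => (G z).re) + S (fun z => (F z).re) (fun z => (G z).im) +
        S (fun z => (F z).im) (fun z => (G z).re) + S (fun z => (F z).im) (fun z => (G z).im)) z := by
    filter_upwards [ae_int mF1 mG1 iF1 iG1, ae_int mF1 mG2 iF1 iG2, ae_int mF2 mG1 iF2 iG1,
      ae_int mF2 mG2 iF2 iG2] with z h11 h12 h21 h22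
    unfold annulusCount
    refine iSup_le fun m => iSup_le fun hm => iSup_le fun ε => iSup_le fun R => iSup_le fun h1 =>
      iSup_le fun h2 => ?_
    simp only [Pi.add_apply]
    refine le_trans ?_ (add_le_add (add_le_add (add_le_add (sum_abs_le e he h11 hm ε R h1 h2)
      (sum_abs_le e he h12 hm ε R h1 h2)) (sum_abs_le e he h21 hm ε R h1 h2))
      (sum_abs_le e he h22 hm ε R h1 h2))
    rw [← ENNReal.ofReal_add (by positivity) (by positivity),
      ← ENNReal.ofReal_add (by positivity) (by positivity),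
      ← ENNReal.ofReal_add (by positivity) (by positivity), ← Finset.sum_add_distrib,
      ← Finset.sum_add_distrib, ← Finset.sum_add_distrib]
    simp only [← ofReal_norm]
    rw [← ENNReal.ofReal_sum_of_nonneg fun j _ => norm_nonneg _]
    refine ENNReal.ofReal_le_ofReal (Finset.sum_le_sum fun j _ => ?_)
    have hε : (0 : ℝ) < ε j := by exact_mod_cast (h1 j).1
    exact norm_annular_le (h11 _ _ hε) (h12 _ _ hε) (h21 _ _ hε) (h22 _ _ hε)
  have h23 : (2 / 3 : ℝ) = 1 / (3 / 2) := by norm_num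
  rw [h23]
  refine (ENNReal.rpow_le_rpow (lintegral_mono_ae (g := fun z => (S (fun z => (F z).re)
    (fun z => (G z).re) + S (fun z => (F z).re) (fun z => (G z).im) +
        S (fun z => (F z).im) (fun z => (G z).re) + S (fun z => (F z).im) (fun z => (G z).im)) z
          ^ (3 / 2 : ℝ)) ?_) (by norm_num)).trans ?_
  · filter_upwards [hpt] with z hz
    exact ENNReal.rpow_le_rpow hz (by norm_num)
  have hp : (1 : ℝ) ≤ 3 / 2 := by norm_num
  refine (ENNReal.lintegral_Lp_add_le (((mS mF1 mG1).add (mS mF1 mG2)).add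
    (mS mF2 mG1)).aemeasurable (mS mF2 mG2).aemeasurable hp).trans ?_
  refine (add_le_add (ENNReal.lintegral_Lp_add_le ((mS mF1 mG1).add (mS mF1 mG2)).aemeasurable
    (mS mF2 mG1).aemeasurable hp) le_rfl).trans ?_
  refine (add_le_add (add_le_add (ENNReal.lintegral_Lp_add_le (mS mF1 mG1).aemeasurable
    (mS mF1 mG2).aemeasurable hp) le_rfl) le_rfl).trans ?_
  refine (add_le_add (add_le_add (add_le_add (bS mF1 mG1 iF1 iG1 nF1 nG1)
    (bS mF1 mG2 iF1 iG2 nF1 nG2)) (bS mF2 mG1 iF2 iG1 nF2 nG1))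
    (bS mF2 mG2 iF2 iG2 nF2 nG2)).trans (le_of_eq ?_)
  rw [← ENNReal.ofReal_add hY0 hY0, ← ENNReal.ofReal_add (by positivity) hY0,
    ← ENNReal.ofReal_add (by positivity) hY0, hY]
  congr 1
  ring

lemma eLpNorm_eq {F : ℝ × ℝ → ℂ} (hF : MemLp F 3 volume) :
    eLpNorm F 3 volume = ENNReal.ofReal (n3 fun z => ‖F z‖) := by
  rw [hF.eLpNorm_eq_integral_rpow_norm (by norm_num) (by norm_num)]
  unfold n3
  simp only [abs_norm, ENNReal.toReal_ofNat, Nat.cast_ofNat, Real.rpow_ofNat]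

end Red

open Red in
theorem S0096_of (h : CoreStmt) :
    ∃ C : ℝ, ∀ n : ℕ, 1 ≤ n → ∀ F G : ℝ × ℝ → ℂ,
      MeasureTheory.MemLp F 3 MeasureTheory.volume → MeasureTheory.MemLp G 3 MeasureTheory.volume →
        (∫⁻ z, Crest.AnalysisR.annulusCount n F G z ^ (3 / 2 : ℝ)) ^ (2 / 3 : ℝ) ≤
          ENNReal.ofReal (C * Real.sqrt n * Real.log (2 + n)) *
            MeasureTheory.eLpNorm F 3 MeasureTheory.volume *
            MeasureTheory.eLpNorm G 3 MeasureTheory.volume := by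
  obtain ⟨C, hC0, hC⟩ := h
  refine ⟨216 * C, fun n hn F G hF hG => ?_⟩
  have hA : 0 ≤ C * Real.sqrt n := by positivity
  have aF := hF.aestronglyMeasurable
  have aG := hG.aestronglyMeasurable
  have hF' : MemLp (aF.mk F) 3 volume := (memLp_congr_ae aF.ae_eq_mk).mp hF
  have hG' : MemLp (aG.mk G) 3 volume := (memLp_congr_ae aG.ae_eq_mk).mp hG
  have e1 : ∫⁻ z, annulusCount n F G z ^ (3 / 2 : ℝ) =
      ∫⁻ z, annulusCount n (aF.mk F) (aG.mk G) z ^ (3 / 2 : ℝ) := by
    refine lintegral_congr_ae ?_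
    filter_upwards [count_congr n aF.ae_eq_mk aG.ae_eq_mk] with z hz
    rw [hz]
  rw [e1, eLpNorm_congr_ae aF.ae_eq_mk, eLpNorm_congr_ae aG.ae_eq_mk, eLpNorm_eq hF',
    eLpNorm_eq hG']
  have iF : Integrable fun z => ‖aF.mk F z‖ ^ 3 :=
    MemLp.integrable_norm_pow (p := 3) (by exact_mod_cast hF') (by norm_num)
  have iG : Integrable fun z => ‖aG.mk G z‖ ^ 3 :=
    MemLp.integrable_norm_pow (p := 3) (by exact_mod_cast hG') (by norm_num)
  refine (meas_bound hA (hC n hn) aF.measurable_mk aG.measurable_mk iF iG).trans ?_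
  have hl : 1 ≤ 2 * Real.log (2 + n) := by
    have h1 : Real.log 2 ≤ Real.log (2 + n) :=
      Real.log_le_log (by norm_num) (by linarith [Nat.cast_nonneg (α := ℝ) n])
    linarith [Real.log_two_gt_d9]
  have p1 := n3_nonneg fun z => ‖aF.mk F z‖
  have p2 := n3_nonneg fun z => ‖aG.mk G z‖
  have p3 : 0 ≤ 216 * C * Real.sqrt n * Real.log (2 + n) :=
    mul_nonneg (by positivity) (by linarith)
  rw [← ENNReal.ofReal_mul p3, ← ENNReal.ofReal_mul (mul_nonneg p3 p1)]
  refine ENNReal.ofReal_le_ofReal ?_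
  have := mul_le_mul_of_nonneg_left hl
    (show 0 ≤ 108 * (C * Real.sqrt n) * (n3 (fun z => ‖aF.mk F z‖) * n3 fun z => ‖aG.mk G z‖) by
      positivity)
  linarith

end Crest.Agent.R72
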