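import Crest.Agent.R72.Defs

/-! Row 72, reduction of S0096 to the discrete core: facts on the kernels. -/

set_option autoImplicit false

namespace Crest.Agent.R72.Red

open MeasureTheory Filter Topology

/-- The truncated kernel of one annulus. -/
noncomputable def k1 (ε R t : ℝ) : ℝ := if ε < |t| ∧ |t| < R then 1 / t else 0

/-- The signed sum of the truncated kernels of a family. -/
noncomputable def ker (c : Cfg) (t : ℝ) : ℝ := ∑ j, c.sg j * k1 (c.ε j) (c.R j) t

/-- Dilation of a family. -/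
noncomputable def scale (c : Cfg) (δ : ℝ) (hδ : 0 < δ) : Cfg where
  m := c.m
  ε j := c.ε j / δ
  R j := c.R j / δ
  sg := c.sg
  pos j := ⟨div_pos (c.pos j).1 hδ, div_lt_div_of_pos_right (c.pos j).2 hδ⟩
  disj i j h := (c.disj i j h).imp (fun h => div_le_div_of_nonneg_right h hδ.le)
    (fun h => div_le_div_of_nonneg_right h hδ.le)
  sg_le := c.sg_le

lemma logmax_scale {a δ : ℝ} (ha : 0 < a) (hδ : 0 < δ) (t : ℝ) :
    Real.log (max (a / δ) |t|) = Real.log (max a |δ * t|) - Real.log δ := by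
  have h1 : max (a / δ) |t| = max a |δ * t| / δ := by
    rw [← max_div_div_right hδ.le, abs_mul, abs_of_pos hδ]
    congr 1
    field_simp
  rw [h1, Real.log_div (lt_of_lt_of_le ha (le_max_left _ _)).ne' hδ.ne']

lemma scale_prim (c : Cfg) (δ : ℝ) (hδ : 0 < δ) :
    (scale c δ hδ).prim = fun t => c.prim (δ * t) := by
  funext t
  unfold Cfg.prim
  refine Finset.sum_congr rfl fun j _ => ?_
  have h1 := (c.pos j).1
  have h2 := h1.trans (c.pos j).2
  change c.sg j * lg (c.ε j / δ) (c.R j / δ) t = _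
  unfold lg
  rw [logmax_scale h1 hδ, logmax_scale h2 hδ]
  ring

lemma log_sub_le {e p q : ℝ} (he : 0 < e) (hp : e ≤ p) (hq : e ≤ q) :
    Real.log p - Real.log q ≤ |p - q| / e := by
  have hp0 : 0 < p := he.trans_le hp
  have hq0 : 0 < q := he.trans_le hq
  rw [← Real.log_div hp0.ne' hq0.ne']
  have h1 := Real.log_le_sub_one_of_pos (div_pos hp0 hq0)
  have h2 : p / q - 1 = (p - q) / q := by field_simp
  have h3 : (p - q) / q ≤ |p - q| / q := div_le_div_of_nonneg_right (le_abs_self _) hq0.le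
  have h4 : |p - q| / q ≤ |p - q| / e := div_le_div_of_nonneg_left (abs_nonneg _) he hq
  linarith

lemma logmax_lip {e : ℝ} (he : 0 < e) (a b : ℝ) :
    |Real.log (max e |a|) - Real.log (max e |b|)| ≤ |a - b| / e := by
  have h0 : |max e |a| - max e (|b|)| ≤ |a - b| := by
    rw [max_comm e, max_comm e]
    exact (abs_max_sub_max_le_abs _ _ _).trans (abs_abs_sub_abs_le_abs_sub a b)
  have h1 := log_sub_le he (le_max_left e |a|) (le_max_left e |b|)
  have h2 := log_sub_le he (le_max_left e |b|) (le_max_left e |a|)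
  rw [abs_sub_comm] at h2
  have h3 : |max e |a| - max e (|b|)| / e ≤ |a - b| / e := div_le_div_of_nonneg_right h0 he.le
  rw [abs_le]
  constructor <;> linarith

lemma prim_lip (c : Cfg) : ∃ L : ℝ, 0 ≤ L ∧ ∀ a b, |c.prim a - c.prim b| ≤ L * |a - b| := by
  refine ⟨∑ j, (1 / c.ε j + 1 / c.R j), Finset.sum_nonneg fun j _ => ?_, fun a b => ?_⟩
  · have h1 := (c.pos j).1
    have h2 := h1.trans (c.pos j).2
    positivity
  unfold Cfg.prim
  rw [← Finset.sum_sub_distrib, Finset.sum_mul]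
  refine (Finset.abs_sum_le_sum_abs _ _).trans (Finset.sum_le_sum fun j _ => ?_)
  have h1 := (c.pos j).1
  have h2 := h1.trans (c.pos j).2
  rw [← mul_sub, abs_mul]
  have h3 := logmax_lip h1 a b
  have h4 := logmax_lip h2 a b
  have h5 : |lg (c.ε j) (c.R j) a - lg (c.ε j) (c.R j) b| ≤ |a - b| / c.ε j + |a - b| / c.R j := by
    unfold lg
    have := abs_sub (Real.log (max (c.ε j) |a|) - Real.log (max (c.ε j) |b|))
      (Real.log (max (c.R j) |a|) - Real.log (max (c.R j) |b|))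
    refine le_trans (le_of_eq ?_) (this.trans (add_le_add h3 h4))
    congr 1
    ring
  calc |c.sg j| * |lg (c.ε j) (c.R j) a - lg (c.ε j) (c.R j) b|
      ≤ 1 * (|a - b| / c.ε j + |a - b| / c.R j) :=
        mul_le_mul (c.sg_le j) h5 (abs_nonneg _) zero_le_one
    _ = (1 / c.ε j + 1 / c.R j) * |a - b| := by ring

lemma prim_supp (c : Cfg) : ∃ ρ : ℝ, 0 ≤ ρ ∧ ∀ t, ρ ≤ |t| → c.prim t = 0 := by
  have hR : ∀ j, 0 ≤ c.R j := fun j => ((c.pos j).1.trans (c.pos j).2).le
  refine ⟨∑ j, c.R j, Finset.sum_nonneg fun j _ => hR j, fun t ht => ?_⟩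
  unfold Cfg.prim
  refine Finset.sum_eq_zero fun j _ => ?_
  have h1 : c.R j ≤ |t| :=
    (Finset.single_le_sum (f := c.R) (fun j _ => hR j) (Finset.mem_univ j)).trans ht
  have h2 : c.ε j ≤ |t| := (c.pos j).2.le.trans h1
  unfold lg
  rw [max_eq_right h1, max_eq_right h2, sub_self, mul_zero]

lemma logmax_deriv {a t : ℝ} (ha : 0 < a) (ht : |t| ≠ a) :
    HasStrictDerivAt (fun t => Real.log (max a |t|)) (if a < |t| then 1 / t else 0) t := by
  split_ifs with h
  · have ht0 : t ≠ 0 := by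
      rintro rfl
      simp only [abs_zero] at h
      linarith
    have h1 := Real.hasStrictDerivAt_log ht0
    rw [one_div]
    refine h1.congr_of_eventuallyEq ?_
    have : ∀ᶠ s in 𝓝 t, a < |s| := (continuous_abs.tendsto t).eventually (lt_mem_nhds h)
    filter_upwards [this] with s hs
    rw [max_eq_right hs.le, Real.log_abs]
  · have h' : |t| < a := lt_of_le_of_ne (not_lt.mp h) ht
    refine (hasStrictDerivAt_const t (Real.log a)).congr_of_eventuallyEq ?_
    have : ∀ᶠ s in 𝓝 t, |s| < a := (continuous_abs.tendsto t).eventually (gt_mem_nhds h')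
    filter_upwards [this] with s hs
    rw [max_eq_left hs.le]

lemma lg_deriv {ε R t : ℝ} (hε : 0 < ε) (hR : ε < R) (h1 : |t| ≠ ε) (h2 : |t| ≠ R) :
    HasStrictDerivAt (lg ε R) (k1 ε R t) t := by
  have := (logmax_deriv hε h1).fun_sub (logmax_deriv (hε.trans hR) h2)
  have e : k1 ε R t = (if ε < |t| then 1 / t else 0) - (if R < |t| then 1 / t else 0) := by
    unfold k1
    by_cases ha : ε < |t|
    · by_cases hb : R < |t|
      · rw [if_pos ha, if_pos hb, if_neg (fun h => by linarith [h.2]), sub_self]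
      · rw [if_pos ha, if_neg hb, if_pos ⟨ha, lt_of_le_of_ne (not_lt.mp hb) h2⟩, sub_zero]
    · rw [if_neg ha, if_neg (fun h => ha h.1), if_neg (fun h => ha (hR.trans h)), sub_self]
  rw [e]
  exact this

lemma ae_abs_ne (a : ℝ) : ∀ᵐ t : ℝ, |t| ≠ a := by
  filter_upwards [Measure.ae_ne volume a, Measure.ae_ne volume (-a)] with t h1 h2 h
  rcases abs_eq_abs.mp (show |t| = |a| by rw [← h, abs_abs]) with h3 | h3
  · exact h1 h3
  · exact h2 h3

lemma prim_deriv (c : Cfg) : ∀ᵐ t : ℝ, HasStrictDerivAt c.prim (ker c t) t := by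
  have h1 : ∀ᵐ t : ℝ, ∀ j, |t| ≠ c.ε j := ae_all_iff.mpr fun j => ae_abs_ne _
  have h2 : ∀ᵐ t : ℝ, ∀ j, |t| ≠ c.R j := ae_all_iff.mpr fun j => ae_abs_ne _
  filter_upwards [h1, h2] with t h1 h2
  unfold ker
  have : c.prim = fun t => ∑ j, c.sg j * lg (c.ε j) (c.R j) t := rfl
  rw [this]
  exact HasStrictDerivAt.fun_sum fun j _ =>
    (lg_deriv (c.pos j).1 (c.pos j).2 (h1 j) (h2 j)).const_mul _

lemma measurable_k1 (ε R : ℝ) : Measurable (k1 ε R) := by
  unfold k1
  refine Measurable.ite ?_ (measurable_const.div measurable_id) measurable_const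
  exact (measurableSet_lt measurable_const measurable_abs).inter
    (measurableSet_lt measurable_abs measurable_const)

lemma measurable_ker (c : Cfg) : Measurable (ker c) :=
  Finset.measurable_sum _ fun _ _ => (measurable_k1 _ _).const_mul _

lemma avg_cont {u : ℝ → ℝ} (hu : Continuous u) : Continuous (avg u) := by
  unfold avg
  exact intervalIntegral.continuous_parametric_intervalIntegral_of_continuous'
    (f := fun s y => u (s + y)) (hu.comp (continuous_fst.add continuous_snd)) 0 1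

lemma avg_near {u : ℝ → ℝ} (hu : Continuous u) {s c η : ℝ}
    (h : ∀ a, s ≤ a → a ≤ s + 1 → |u a - c| ≤ η) : |avg u s - c| ≤ η := by
  have hi : IntervalIntegrable (fun y => u (s + y)) volume 0 1 :=
    (hu.comp (continuous_const.add continuous_id)).intervalIntegrable 0 1
  have h1 : avg u s - c = ∫ y in (0 : ℝ)..1, (u (s + y) - c) := by
    rw [intervalIntegral.integral_sub hi intervalIntegrable_const]
    simp [avg]
  rw [h1]
  have := intervalIntegral.norm_integral_le_of_norm_le_const (a := 0) (b := 1) (C := η)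
    (f := fun y => u (s + y) - c) (fun y hy => by
      rw [Set.uIoc_of_le zero_le_one] at hy
      exact h _ (by linarith [hy.1]) (by linarith [hy.2]))
  simpa using this

lemma pair_near {Ψ : ℝ → ℝ} (hΨ : Continuous Ψ) {N c η : ℝ}
    (h : ∀ a, N ≤ a → a ≤ N + 2 → |Ψ (a + 1) - Ψ a - c| ≤ η) : |pair Ψ N - c| ≤ η := by
  have hc : Continuous fun s => Ψ (s + 1) - Ψ s :=
    (hΨ.comp (continuous_id.add continuous_const)).sub hΨ
  unfold pair
  refine avg_near (avg_cont hc) fun a h1 h2 => avg_near hc fun b h3 h4 => h b ?_ ?_ <;> linarith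

lemma cont_of_lip {g : ℝ → ℝ} {L : ℝ} (hL0 : 0 ≤ L) (hL : ∀ a b, |g a - g b| ≤ L * |a - b|) :
    Continuous g :=
  (LipschitzWith.of_dist_le_mul (K := ⟨L, hL0⟩) (fun a b => by
    rw [Real.dist_eq, Real.dist_eq]; exact hL a b)).continuous

/-- The discretised kernel. -/
noncomputable def dk (g : ℝ → ℝ) (δ : ℝ) (N : ℤ) : ℝ := pair (fun t => g (δ * t)) (N : ℝ)

lemma dk_bound {g : ℝ → ℝ} {L : ℝ} (hL0 : 0 ≤ L) (hL : ∀ a b, |g a - g b| ≤ L * |a - b|)
    {δ : ℝ} (hδ : 0 < δ) (N : ℤ) : |dk g δ N| ≤ L * δ := by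
  have hg := cont_of_lip hL0 hL
  have := pair_near (Ψ := fun t => g (δ * t)) (hg.comp (continuous_const.mul continuous_id))
    (N := N) (c := 0) (η := L * δ) fun a _ _ => by
      rw [sub_zero]
      refine (hL _ _).trans (le_of_eq ?_)
      rw [show δ * (a + 1) - δ * a = δ by ring, abs_of_pos hδ]
  simpa [dk] using this

lemma dk_zero {g : ℝ → ℝ} (hg : Continuous g) {ρ : ℝ} (hρ : ∀ t, ρ ≤ |t| → g t = 0)
    {δ : ℝ} (hδ : 0 < δ) (N : ℤ) (hN : ρ + 3 * δ ≤ |δ * N|) : dk g δ N = 0 := by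
  have := pair_near (Ψ := fun t => g (δ * t)) (hg.comp (continuous_const.mul continuous_id))
    (N := N) (c := 0) (η := 0) fun a h1 h2 => by
      have e1 : δ * N ≤ δ * a := mul_le_mul_of_nonneg_left h1 hδ.le
      have e2 : δ * a ≤ δ * (N + 2) := mul_le_mul_of_nonneg_left h2 hδ.le
      have f1 : ρ ≤ |δ * a| := by
        have := abs_sub_abs_le_abs_sub (δ * N) (δ * a)
        have h3 : |δ * N - δ * a| ≤ 3 * δ := by rw [abs_le]; constructor <;> nlinarith
        linarith
      have f2 : ρ ≤ |δ * (a + 1)| := by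
        have := abs_sub_abs_le_abs_sub (δ * N) (δ * (a + 1))
        have h3 : |δ * N - δ * (a + 1)| ≤ 3 * δ := by rw [abs_le]; constructor <;> nlinarith
        linarith
      simp [hρ _ f1, hρ _ f2]
  simpa [dk] using this

lemma floor_near {δ : ℝ} (hδ : 0 < δ) (t : ℝ) :
    δ * (⌊t / δ⌋ : ℝ) ≤ t ∧ t < δ * (⌊t / δ⌋ : ℝ) + δ := by
  have h1 := Int.floor_le (t / δ)
  have h2 := Int.lt_floor_add_one (t / δ)
  rw [le_div_iff₀ hδ] at h1
  rw [div_lt_iff₀ hδ] at h2
  constructor <;> nlinarith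

lemma dk_tendsto {g : ℝ → ℝ} (hg : Continuous g) {t K : ℝ} (h : HasStrictDerivAt g K t) :
    Tendsto (fun k : ℕ => (1 / ((k : ℝ) + 1))⁻¹ * dk g (1 / ((k : ℝ) + 1)) ⌊t / (1 / ((k : ℝ) + 1))⌋)
      atTop (𝓝 K) := by
  rw [Metric.tendsto_atTop]
  intro η hη
  have h1 := (hasStrictDerivAt_iff_hasStrictFDerivAt.mp h).isLittleO
  have h2 := h1.def (half_pos hη)
  obtain ⟨r, hr, h3⟩ := Metric.eventually_nhds_iff.mp h2
  obtain ⟨k0, hk0⟩ := exists_nat_one_div_lt (show 0 < r / 4 by positivity)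
  refine ⟨k0, fun k hk => ?_⟩
  set δ : ℝ := 1 / ((k : ℝ) + 1) with hδdef
  have hδ : 0 < δ := by positivity
  have hδr : δ < r / 4 := by
    refine lt_of_le_of_lt ?_ hk0
    exact Nat.one_div_le_one_div hk
  obtain ⟨f1, f2⟩ := floor_near hδ t
  have h4 := pair_near (Ψ := fun t => g (δ * t)) (hg.comp (continuous_const.mul continuous_id))
    (N := (⌊t / δ⌋ : ℝ)) (c := δ * K) (η := η / 2 * δ) fun a h1 h2 => by
      have e1 : δ * (⌊t / δ⌋ : ℝ) ≤ δ * a := mul_le_mul_of_nonneg_left h1 hδ.le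
      have e2 : δ * a ≤ δ * ((⌊t / δ⌋ : ℝ) + 2) := mul_le_mul_of_nonneg_left h2 hδ.le
      have hd : dist (δ * (a + 1), δ * a) (t, t) < r := by
        rw [Prod.dist_eq, max_lt_iff, Real.dist_eq, Real.dist_eq, abs_lt, abs_lt]
        refine ⟨⟨?_, ?_⟩, ?_, ?_⟩ <;> nlinarith
      have := h3 hd
      simp only [ContinuousLinearMap.toSpanSingleton_apply, smul_eq_mul, Real.norm_eq_abs] at this
      rw [show δ * (a + 1) - δ * a = δ by ring, abs_of_pos hδ] at this
      exact this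
  rw [Real.dist_eq]
  have h5 : δ⁻¹ * dk g δ ⌊t / δ⌋ - K = δ⁻¹ * (dk g δ ⌊t / δ⌋ - δ * K) := by
    field_simp
  rw [h5, abs_mul, abs_of_pos (inv_pos.mpr hδ)]
  calc δ⁻¹ * |dk g δ ⌊t / δ⌋ - δ * K| ≤ δ⁻¹ * (η / 2 * δ) :=
        mul_le_mul_of_nonneg_left h4 (inv_pos.mpr hδ).le
    _ = η / 2 := by field_simp
    _ < η := half_lt_self hη

end Crest.Agent.R72.Red
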