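import Crest.Agent.R72.RedA

/-! Row 72, reduction of S0096 to the discrete core: the linearised continuous inequality. -/

set_option autoImplicit false

namespace Crest.Agent.R72.Red

open MeasureTheory Filter Topology

/-- The core inequality with a given constant. -/
def CoreAt (n : ℕ) (A : ℝ) : Prop :=
  ∀ (S : Finset ℤ) (cfg : ℤ → ℤ → Cfg),
    (∀ i j, (cfg i j).m ≤ n) → ∀ h b c : ℤ → ℤ → ℝ,
      ∑ i ∈ S, ∑ j ∈ S, ∑ l ∈ S, h i j * b j l * c l i * pair (cfg i j).prim ((i + j + l : ℤ) : ℝ) ≤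
        A * (cube S h + cube S b + cube S c)

lemma sum_shift (f : ℤ → ℝ) (M : ℕ) (hf : ∀ N : ℤ, (M : ℤ) < |N| → f N = 0) (a : ℤ)
    (ha : |a| ≤ 2 * M) :
    ∑ l ∈ Finset.Icc (-(3 * M : ℤ)) (3 * M), f (a + l) = ∑ N ∈ Finset.Icc (-(M : ℤ)) M, f N := by
  have h1 : ∑ l ∈ Finset.Icc (-(3 * M : ℤ)) (3 * M), f (a + l) =
      ∑ N ∈ (Finset.Icc (-(3 * M : ℤ)) (3 * M)).map (addLeftEmbedding a), f N := by
    rw [Finset.sum_map]
    rfl
  rw [h1]
  symm
  rw [abs_le] at ha
  refine Finset.sum_subset (fun N hN => ?_) (fun N _ hN => hf N ?_)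
  · rw [Finset.mem_Icc] at hN
    rw [Finset.mem_map]
    refine ⟨N - a, Finset.mem_Icc.mpr ⟨by omega, by omega⟩, ?_⟩
    simp
  · rw [Finset.mem_Icc] at hN
    rw [lt_abs]
    omega

lemma abs_mul3_le (a b c : ℝ) : |a * b * c| ≤ |a| ^ 3 + |b| ^ 3 + |c| ^ 3 := by
  rw [abs_mul, abs_mul]
  have ha := abs_nonneg a
  have hb := abs_nonneg b
  have hc := abs_nonneg c
  set x := |a|
  set y := |b|
  set z := |c|
  have h1 : 0 ≤ (x + y + z) * ((x - y) ^ 2 + (y - z) ^ 2 + (z - x) ^ 2) := by positivity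
  have h2 : 0 ≤ x * y * z := by positivity
  nlinarith

section
variable {ι : Type} [Countable ι] [MeasurableSpace ι] [MeasurableSingletonClass ι]

lemma step1 {n : ℕ} {A : ℝ} (hA : 0 ≤ A) (hC : CoreAt n A) (c : ι → Cfg) (hc : ∀ κ, (c κ).m ≤ n)
    (σ : ℝ × ℝ → ι) (hσ : Measurable σ) {h F G : ℝ × ℝ → ℝ} (mh : Measurable h)
    (mF : Measurable F) (mG : Measurable G) (ih : Integrable fun z => |h z| ^ 3)
    (iF : Integrable fun z => |F z| ^ 3) (iG : Integrable fun z => |G z| ^ 3)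
    (δ s : ℝ) (M : ℕ) (B : ℝ) (P : ι → ℤ → ℝ) (hP : ∀ κ N, P κ N = pair (c κ).prim (N : ℝ))
    (hB : ∀ κ N, |P κ N| ≤ B) (hM : ∀ κ N, (M : ℤ) < |N| → P κ N = 0) :
    ∑ N ∈ Finset.Icc (-(M : ℤ)) M,
        ∫ z, h z * F (z + (s + δ * N, 0)) * G (z + (0, s + δ * N)) * P (σ z) N ≤
      9 * A * ((∫ z, |h z| ^ 3) + (∫ z, |F z| ^ 3) + ∫ z, |G z| ^ 3) := by
  set S0 : Finset ℤ := Finset.Icc (-(M : ℤ)) M with hS0
  set S : Finset ℤ := Finset.Icc (-(3 * M : ℤ)) (3 * M) with hS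
  set W : ℤ → ℝ × ℝ → ℝ := fun N z =>
    h z * F (z + (s + δ * N, 0)) * G (z + (0, s + δ * N)) * P (σ z) N with hW
  have hsub : S0 ⊆ S := Finset.Icc_subset_Icc (by omega) (by omega)
  have iW : ∀ N, Integrable (W N) := by
    intro N
    have m1 : Measurable (W N) :=
      ((mh.mul (mF.comp (measurable_add_const _))).mul (mG.comp (measurable_add_const _))).mul
        ((measurable_of_countable (fun κ => P κ N)).comp hσ)
    refine Integrable.mono' (((ih.add (iF.comp_add_right (s + δ * N, 0))).add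
      (iG.comp_add_right (0, s + δ * N))).mul_const B) m1.aestronglyMeasurable
      (Eventually.of_forall fun z => ?_)
    rw [Real.norm_eq_abs, hW]
    simp only [Pi.add_apply]
    rw [abs_mul]
    exact mul_le_mul (abs_mul3_le _ _ _) (hB _ _) (abs_nonneg _) (by positivity)
  have key : ∀ u : ℝ × ℝ, ∑ i ∈ S0, ∑ j ∈ S0, ∑ N ∈ S0, W N (u + (-δ * i, -δ * j)) ≤
      A * ((∑ i ∈ S, ∑ j ∈ S, |h (u + (-δ * i, -δ * j))| ^ 3) +
        (∑ j ∈ S, ∑ l ∈ S, |F (u + (s + δ * (j + l), -δ * j))| ^ 3) +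
        ∑ l ∈ S, ∑ i ∈ S, |G (u + (-δ * i, s + δ * (i + l)))| ^ 3) := by
    intro u
    have h1 := hC S (fun i j => c (σ (u + (-δ * i, -δ * j)))) (fun _ _ => hc _)
      (fun i j => if i ∈ S0 ∧ j ∈ S0 then h (u + (-δ * i, -δ * j)) else 0)
      (fun j l => F (u + (s + δ * (j + l), -δ * j))) (fun l i => G (u + (-δ * i, s + δ * (i + l))))
    refine le_trans (le_of_eq ?_) (h1.trans (mul_le_mul_of_nonneg_left ?_ hA))
    · symm
      rw [← Finset.sum_subset hsub]
      · refine Finset.sum_congr rfl fun i hi => ?_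
        rw [← Finset.sum_subset hsub]
        · refine Finset.sum_congr rfl fun j hj => ?_
          have hij : |i + j| ≤ 2 * M := by
            rw [hS0, Finset.mem_Icc] at hi hj
            rw [abs_le]
            omega
          rw [← sum_shift (fun N => W N (u + (-δ * i, -δ * j))) M
            (fun N hN => by simp only [hW, hM _ N hN, mul_zero]) (i + j) hij]
          refine Finset.sum_congr rfl fun l _ => ?_
          simp only [hW, if_pos (And.intro hi hj), hP]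
          congr 3
          · congr 1
            ext
            · simp only [Prod.fst_add]; push_cast; ring
            · simp
          · ext
            · simp
            · simp only [Prod.snd_add]; push_cast; ring
        · intro j _ hj
          simp [hj]
      · intro i _ hi
        simp [hi]
    · unfold cube
      refine add_le_add (add_le_add ?_ le_rfl) le_rfl
      refine Finset.sum_le_sum fun i _ => Finset.sum_le_sum fun j _ => ?_
      beta_reduce
      split_ifs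
      · exact le_rfl
      · simp
  have i1 : ∀ i j : ℤ, Integrable fun u : ℝ × ℝ => |h (u + (-δ * i, -δ * j))| ^ 3 :=
    fun i j => ih.comp_add_right _
  have i2 : ∀ j l : ℤ, Integrable fun u : ℝ × ℝ => |F (u + (s + δ * (j + l), -δ * j))| ^ 3 :=
    fun j l => iF.comp_add_right _
  have i3 : ∀ l i : ℤ, Integrable fun u : ℝ × ℝ => |G (u + (-δ * i, s + δ * (i + l)))| ^ 3 :=
    fun l i => iG.comp_add_right _
  have i4 : ∀ i j N : ℤ, Integrable fun u : ℝ × ℝ => W N (u + (-δ * i, -δ * j)) :=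
    fun i j N => (iW N).comp_add_right _
  have j1 := integrable_finsetSum S fun i _ => integrable_finsetSum S fun j _ => i1 i j
  have j2 := integrable_finsetSum S fun i _ => integrable_finsetSum S fun j _ => i2 i j
  have j3 := integrable_finsetSum S fun i _ => integrable_finsetSum S fun j _ => i3 i j
  have h2 := integral_mono (integrable_finsetSum S0 fun i _ => integrable_finsetSum S0 fun j _ =>
    integrable_finsetSum S0 fun N _ => i4 i j N) (((j1.add j2).add j3).const_mul A) key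
  have e1 : ∫ u : ℝ × ℝ, ∑ i ∈ S0, ∑ j ∈ S0, ∑ N ∈ S0, W N (u + (-δ * i, -δ * j)) =
      (S0.card : ℝ) * ((S0.card : ℝ) * ∑ N ∈ S0, ∫ z, W N z) := by
    rw [integral_finsetSum _ fun i _ => integrable_finsetSum S0 fun j _ =>
      integrable_finsetSum S0 fun N _ => i4 i j N]
    rw [← nsmul_eq_mul, ← Finset.sum_const]
    refine Finset.sum_congr rfl fun i _ => ?_
    rw [integral_finsetSum _ fun j _ => integrable_finsetSum S0 fun N _ => i4 i j N]
    rw [← nsmul_eq_mul, ← Finset.sum_const]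
    refine Finset.sum_congr rfl fun j _ => ?_
    rw [integral_finsetSum _ fun N _ => i4 i j N]
    exact Finset.sum_congr rfl fun N _ => integral_add_right_eq_self (W N) _
  have e2 : ∀ (f : ℝ × ℝ → ℝ), Integrable f → ∀ w : ℤ → ℤ → ℝ × ℝ,
      ∫ u : ℝ × ℝ, ∑ i ∈ S, ∑ j ∈ S, f (u + w i j) = (S.card : ℝ) * ((S.card : ℝ) * ∫ z, f z) := by
    intro f hf w
    rw [integral_finsetSum _ fun i _ => integrable_finsetSum S fun j _ => hf.comp_add_right _]
    rw [← nsmul_eq_mul, ← Finset.sum_const]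
    refine Finset.sum_congr rfl fun i _ => ?_
    rw [integral_finsetSum _ fun j _ => hf.comp_add_right _]
    rw [← nsmul_eq_mul, ← Finset.sum_const]
    exact Finset.sum_congr rfl fun j _ => integral_add_right_eq_self f _
  simp only [Pi.add_apply] at h2
  rw [e1, integral_const_mul, integral_add (j1.fun_add j2) j3, integral_add j1 j2,
    e2 _ ih, e2 _ iF, e2 _ iG] at h2
  have c0 : (S0.card : ℝ) = 2 * M + 1 := by
    rw [hS0, Int.card_Icc]
    have : ((M : ℤ) + 1 - -(M : ℤ)).toNat = 2 * M + 1 := by omega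
    rw [this]
    push_cast
    ring
  have c1 : (S.card : ℝ) = 6 * M + 1 := by
    rw [hS, Int.card_Icc]
    have : (3 * (M : ℤ) + 1 - -(3 * (M : ℤ))).toNat = 6 * M + 1 := by omega
    rw [this]
    push_cast
    ring
  rw [c0, c1] at h2
  have p1 : 0 ≤ ∫ z, |h z| ^ 3 := integral_nonneg fun z => by positivity
  have p2 : 0 ≤ ∫ z, |F z| ^ 3 := integral_nonneg fun z => by positivity
  have p3 : 0 ≤ ∫ z, |G z| ^ 3 := integral_nonneg fun z => by positivity
  set X := (∫ z, |h z| ^ 3) + (∫ z, |F z| ^ 3) + ∫ z, |G z| ^ 3 with hX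
  have hM0 : (0 : ℝ) ≤ M := Nat.cast_nonneg M
  have hX0 : 0 ≤ A * X := mul_nonneg hA (by rw [hX]; positivity)
  have h3 : (2 * M + 1 : ℝ) ^ 2 * ∑ N ∈ S0, ∫ z, W N z ≤ (2 * M + 1 : ℝ) ^ 2 * (9 * A * X) := by
    calc (2 * M + 1 : ℝ) ^ 2 * ∑ N ∈ S0, ∫ z, W N z
        = (2 * M + 1 : ℝ) * ((2 * M + 1 : ℝ) * ∑ N ∈ S0, ∫ z, W N z) := by ring
      _ ≤ _ := h2
      _ = (6 * M + 1 : ℝ) ^ 2 * (A * X) := by rw [hX]; ring
      _ ≤ (3 * (2 * M + 1 : ℝ)) ^ 2 * (A * X) := by
        refine mul_le_mul_of_nonneg_right ?_ hX0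
        exact pow_le_pow_left₀ (by positivity) (by linarith) 2
      _ = _ := by ring
  exact le_of_mul_le_mul_left h3 (by positivity)

omit [Countable ι] [MeasurableSpace ι] [MeasurableSingletonClass ι] in
lemma uniform_bounds [Finite ι] (c : ι → Cfg) : ∃ L ρ : ℝ, 0 ≤ L ∧ 0 ≤ ρ ∧
    (∀ κ a b, |(c κ).prim a - (c κ).prim b| ≤ L * |a - b|) ∧
    ∀ κ t, ρ ≤ |t| → (c κ).prim t = 0 := by
  choose L hL0 hL using fun κ => prim_lip (c κ)
  choose ρ hρ0 hρ using fun κ => prim_supp (c κ)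
  obtain ⟨L', hL'⟩ := (Set.finite_range L).bddAbove
  obtain ⟨ρ', hρ'⟩ := (Set.finite_range ρ).bddAbove
  refine ⟨max L' 0, max ρ' 0, le_max_right _ _, le_max_right _ _, fun κ a b => ?_, fun κ t ht => ?_⟩
  · exact (hL κ a b).trans (mul_le_mul_of_nonneg_right
      ((hL' ⟨κ, rfl⟩).trans (le_max_left _ _)) (abs_nonneg _))
  · exact hρ κ t (((hρ' ⟨κ, rfl⟩).trans (le_max_left _ _)).trans ht)

end

lemma integrable_shear {a : ℝ × ℝ → ℝ} (ma : Measurable a) (ia : Integrable a) {v : ℝ → ℝ × ℝ}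
    (mv : Measurable v) {χ : ℝ → ℝ} (mχ : Measurable χ) (iχ : Integrable χ) :
    Integrable (fun p : (ℝ × ℝ) × ℝ => a (p.1 + v p.2) * χ p.2) (volume.prod volume) := by
  have m1 : Measurable fun p : (ℝ × ℝ) × ℝ => a (p.1 + v p.2) * χ p.2 :=
    (ma.comp (measurable_fst.add (mv.comp measurable_snd))).mul (mχ.comp measurable_snd)
  rw [integrable_prod_iff' m1.aestronglyMeasurable]
  refine ⟨Eventually.of_forall fun t => (ia.comp_add_right (v t)).mul_const (χ t), ?_⟩
  have : (fun t => ∫ z : ℝ × ℝ, ‖a (z + v t) * χ t‖) = fun t => (∫ z, ‖a z‖) * ‖χ t‖ := by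
    funext t
    simp only [norm_mul]
    rw [integral_mul_const, integral_add_right_eq_self (fun z => ‖a z‖)]
  simp only
  rw [this]
  exact iχ.norm.const_mul _

lemma integral_le_of_cells {Ψ : ℝ → ℝ} (hΨ : Integrable Ψ) (S : Finset ℤ) (X : ℝ)
    (h0 : ∀ x ∈ Set.Ioo (0 : ℝ) 1, ∀ N : ℤ, N ∉ S → Ψ (x + N) = 0)
    (h1 : ∀ x ∈ Set.Ioo (0 : ℝ) 1, ∑ N ∈ S, Ψ (x + N) ≤ X) : ∫ x, Ψ x ≤ X := by
  have e0 : ∀ N : ℤ, ∫ x in (0 : ℝ)..1, Ψ (x + N) = ∫ x in Set.Ioo (0 : ℝ) 1, Ψ (x + N) := by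
    intro N
    rw [intervalIntegral.integral_of_le zero_le_one, integral_Ioc_eq_integral_Ioo]
  have hs := hΨ.hasSum_intervalIntegral_comp_add_int
  simp only [e0] at hs
  have hs' : HasSum (fun N : ℤ => ∫ x in Set.Ioo (0 : ℝ) 1, Ψ (x + N))
      (∑ N ∈ S, ∫ x in Set.Ioo (0 : ℝ) 1, Ψ (x + N)) := by
    refine hasSum_sum_of_ne_finset_zero fun N hN => ?_
    rw [setIntegral_congr_fun measurableSet_Ioo (fun x hx => h0 x hx N hN)]
    simp
  rw [hs.unique hs']
  have i1 : ∀ N : ℤ, IntegrableOn (fun x => Ψ (x + N)) (Set.Ioo (0 : ℝ) 1) :=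
    fun N => (hΨ.comp_add_right _).integrableOn
  rw [← integral_finsetSum _ fun N _ => i1 N]
  have := setIntegral_mono_on (μ := volume) (s := Set.Ioo (0 : ℝ) 1)
    (integrable_finsetSum S fun N _ => i1 N) (integrableOn_const (C := X) (by simp))
    measurableSet_Ioo h1
  simpa using this

theorem linearised {ι : Type} [Finite ι] [MeasurableSpace ι] [MeasurableSingletonClass ι]
    {n : ℕ} {A : ℝ} (hA : 0 ≤ A) (hC : CoreAt n A) (c : ι → Cfg) (hc : ∀ κ, (c κ).m ≤ n)
    (σ : ℝ × ℝ → ι) (hσ : Measurable σ) {h F G : ℝ × ℝ → ℝ} (mh : Measurable h)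
    (mF : Measurable F) (mG : Measurable G) (ih : Integrable fun z => |h z| ^ 3)
    (iF : Integrable fun z => |F z| ^ 3) (iG : Integrable fun z => |G z| ^ 3) :
    Integrable (fun z => h z * ∫ t, F (z + (t, 0)) * G (z + (0, t)) * ker (c (σ z)) t) ∧
    ∫ z, h z * ∫ t, F (z + (t, 0)) * G (z + (0, t)) * ker (c (σ z)) t ≤
      9 * A * ((∫ z, |h z| ^ 3) + (∫ z, |F z| ^ 3) + ∫ z, |G z| ^ 3) := by
  obtain ⟨L, ρ, hL0, hρ0, hL, hρ⟩ := uniform_bounds c
  have hcont : ∀ κ, Continuous (c κ).prim := fun κ => cont_of_lip hL0 (hL κ)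
  set χ : ℝ → ℝ := (Set.Icc (-(ρ + 4)) (ρ + 4)).indicator fun _ => L with hχ
  have mχ : Measurable χ := measurable_const.indicator measurableSet_Icc
  have iχ : Integrable χ :=
    (integrableOn_const (C := L) (by simp)).integrable_indicator measurableSet_Icc
  set kd : ℝ → ι → ℝ → ℝ := fun δ κ t => δ⁻¹ * dk (c κ).prim δ ⌊t / δ⌋ with hkd
  have kd_le : ∀ δ, 0 < δ → δ ≤ 1 → ∀ κ t, |kd δ κ t| ≤ χ t := by
    intro δ hδ hδ1 κ t
    by_cases ht : t ∈ Set.Icc (-(ρ + 4)) (ρ + 4)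
    · rw [hχ, Set.indicator_of_mem ht, hkd]
      simp only
      rw [abs_mul, abs_of_pos (inv_pos.mpr hδ)]
      calc δ⁻¹ * |dk (c κ).prim δ ⌊t / δ⌋| ≤ δ⁻¹ * (L * δ) :=
            mul_le_mul_of_nonneg_left (dk_bound hL0 (hL κ) hδ _) (inv_pos.mpr hδ).le
        _ = L := by field_simp
    · rw [hχ, Set.indicator_of_notMem ht, hkd]
      simp only
      rw [dk_zero (hcont κ) (hρ κ) hδ, mul_zero, abs_zero]
      obtain ⟨f1, f2⟩ := floor_near hδ t
      rw [Set.mem_Icc, not_and_or, not_le, not_le] at ht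
      rw [le_abs]
      rcases ht with ht | ht
      · right; linarith
      · left; linarith
  have mkd : ∀ δ, Measurable fun p : (ℝ × ℝ) × ℝ => kd δ (σ p.1) p.2 := by
    intro δ
    have m1 : Measurable fun q : ι × ℤ => δ⁻¹ * dk (c q.1).prim δ q.2 := measurable_of_countable _
    have m2 : Measurable fun p : (ℝ × ℝ) × ℝ => ((σ p.1, ⌊p.2 / δ⌋) : ι × ℤ) :=
      (hσ.comp measurable_fst).prodMk (Int.measurable_floor.comp (measurable_snd.div_const δ))
    have m3 := m1.comp m2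
    simp only [Function.comp_def] at m3
    simp only [hkd]
    exact m3
  set W : (ℝ × ℝ) × ℝ → ℝ := fun p => h p.1 * F (p.1 + (p.2, 0)) * G (p.1 + (0, p.2)) with hW
  have mv1 : Measurable fun t : ℝ => ((t, 0) : ℝ × ℝ) := measurable_id.prodMk measurable_const
  have mv2 : Measurable fun t : ℝ => ((0, t) : ℝ × ℝ) := measurable_const.prodMk measurable_id
  have mW : Measurable W :=
    ((mh.comp measurable_fst).mul (mF.comp (measurable_fst.add (mv1.comp measurable_snd)))).mul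
      (mG.comp (measurable_fst.add (mv2.comp measurable_snd)))
  set bd : (ℝ × ℝ) × ℝ → ℝ := fun p => |h (p.1 + 0)| ^ 3 * χ p.2 +
    |F (p.1 + (p.2, 0))| ^ 3 * χ p.2 + |G (p.1 + (0, p.2))| ^ 3 * χ p.2 with hbd
  have ibd : Integrable bd (volume.prod volume) :=
    ((integrable_shear (mh.abs.pow_const 3) ih measurable_const mχ iχ).add
      (integrable_shear (mF.abs.pow_const 3) iF mv1 mχ iχ)).add
      (integrable_shear (mG.abs.pow_const 3) iG mv2 mχ iχ)
  have hle : ∀ δ, 0 < δ → δ ≤ 1 → ∀ p : (ℝ × ℝ) × ℝ, ‖W p * kd δ (σ p.1) p.2‖ ≤ bd p := by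
    intro δ hδ hδ1 p
    rw [Real.norm_eq_abs, abs_mul, hbd, hW]
    simp only [add_zero]
    rw [← add_mul, ← add_mul]
    exact mul_le_mul (abs_mul3_le _ _ _) (kd_le δ hδ hδ1 _ _) (abs_nonneg _) (by positivity)
  set X := 9 * A * ((∫ z, |h z| ^ 3) + (∫ z, |F z| ^ 3) + ∫ z, |G z| ^ 3) with hX
  have step2 : ∀ δ, 0 < δ → δ ≤ 1 →
      ∫ p, W p * kd δ (σ p.1) p.2 ∂(volume.prod volume) ≤ X := by
    intro δ hδ hδ1
    have i1 : Integrable (fun p => W p * kd δ (σ p.1) p.2) (volume.prod volume) :=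
      ibd.mono' (mW.mul (mkd δ)).aestronglyMeasurable (Eventually.of_forall (hle δ hδ hδ1))
    rw [integral_prod_symm _ i1]
    have i2 := i1.integral_prod_right
    set Ψ : ℝ → ℝ := fun t => ∫ z : ℝ × ℝ, W (z, t) * kd δ (σ z) t with hΨ
    have e1 : ∫ t, Ψ t = ∫ τ, δ * Ψ (δ * τ) := by
      rw [integral_const_mul, Measure.integral_comp_mul_left, abs_of_pos (inv_pos.mpr hδ),
        smul_eq_mul, ← mul_assoc, mul_inv_cancel₀ hδ.ne', one_mul]
    change ∫ t, Ψ t ≤ X
    rw [e1]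
    obtain ⟨M, hM⟩ := exists_nat_ge ((ρ + 3 * δ) / δ)
    rw [div_le_iff₀ hδ] at hM
    have hM' : ∀ κ (N : ℤ), (M : ℤ) < |N| → dk (c κ).prim δ N = 0 := by
      intro κ N hN
      refine dk_zero (hcont κ) (hρ κ) hδ N (hM.trans ?_)
      rw [abs_mul, abs_of_pos hδ, mul_comm]
      refine mul_le_mul_of_nonneg_left ?_ hδ.le
      have : ((M : ℤ) : ℝ) ≤ ((|N| : ℤ) : ℝ) := Int.cast_le.mpr hN.le
      simpa using this
    have e2 : ∀ x ∈ Set.Ioo (0 : ℝ) 1, ∀ N : ℤ, δ * Ψ (δ * (x + N)) =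
        ∫ z, h z * F (z + (δ * x + δ * N, 0)) * G (z + (0, δ * x + δ * N)) *
          dk (c (σ z)).prim δ N := by
      intro x hx N
      have hf : ⌊δ * (x + N) / δ⌋ = N := by
        rw [mul_div_cancel_left₀ _ hδ.ne', Int.floor_eq_iff]
        constructor <;> linarith [hx.1, hx.2]
      rw [hΨ]
      simp only
      rw [← integral_const_mul]
      refine integral_congr_ae (Eventually.of_forall fun z => ?_)
      simp only [hW, hkd]
      rw [hf, mul_add δ x]
      field_simp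
    refine integral_le_of_cells (Ψ := fun τ => δ * Ψ (δ * τ))
      ((i2.comp_mul_left' hδ.ne').const_mul δ) (Finset.Icc (-(M : ℤ)) M) X ?_ ?_
    · intro x hx N hN
      have hN' : (M : ℤ) < |N| := by
        rw [Finset.mem_Icc] at hN
        rw [lt_abs]
        omega
      rw [e2 x hx N]
      simp [hM' _ N hN']
    · intro x hx
      rw [Finset.sum_congr rfl fun N _ => e2 x hx N]
      exact step1 hA hC (fun κ => scale (c κ) δ hδ) hc σ hσ mh mF mG ih iF iG δ (δ * x) M (L * δ)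
        (fun κ N => dk (c κ).prim δ N) (fun κ N => by rw [scale_prim]; rfl)
        (fun κ N => dk_bound hL0 (hL κ) hδ N) hM'
  have hδ : ∀ k : ℕ, 0 < 1 / ((k : ℝ) + 1) ∧ 1 / ((k : ℝ) + 1) ≤ 1 := fun k =>
    ⟨by positivity, by rw [div_le_one (by positivity)]; linarith [Nat.cast_nonneg (α := ℝ) k]⟩
  have hae : ∀ᵐ p : (ℝ × ℝ) × ℝ ∂(volume.prod volume),
      Tendsto (fun k : ℕ => W p * kd (1 / ((k : ℝ) + 1)) (σ p.1) p.2) atTop
        (𝓝 (W p * ker (c (σ p.1)) p.2)) := by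
    have h1 : ∀ᵐ t : ℝ, ∀ κ, HasStrictDerivAt (c κ).prim (ker (c κ) t) t :=
      ae_all_iff.mpr fun κ => prim_deriv (c κ)
    filter_upwards [Measure.quasiMeasurePreserving_snd.ae h1] with p hp
    exact (dk_tendsto (hcont _) (hp _)).const_mul _
  have hlim := tendsto_integral_of_dominated_convergence bd
    (fun k => (mW.mul (mkd _)).aestronglyMeasurable) ibd
    (fun k => Eventually.of_forall (hle _ (hδ k).1 (hδ k).2)) hae
  have hfin := le_of_tendsto' hlim fun k => step2 _ (hδ k).1 (hδ k).2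
  have mker : Measurable fun p : (ℝ × ℝ) × ℝ => ker (c (σ p.1)) p.2 := by
    have m1 : Measurable fun q : ι × ℝ => ker (c q.1) q.2 :=
      measurable_from_prod_countable_right fun κ => measurable_ker (c κ)
    have m2 : Measurable fun p : (ℝ × ℝ) × ℝ => ((σ p.1, p.2) : ι × ℝ) :=
      (hσ.comp measurable_fst).prodMk measurable_snd
    have m3 := m1.comp m2
    simp only [Function.comp_def] at m3
    exact m3
  have i3 : Integrable (fun p => W p * ker (c (σ p.1)) p.2) (volume.prod volume) := by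
    refine ibd.mono' (mW.mul mker).aestronglyMeasurable ?_
    filter_upwards [hae] with p hp
    exact le_of_tendsto' hp.norm fun k => hle _ (hδ k).1 (hδ k).2 p
  have e3 : (fun z => h z * ∫ t, F (z + (t, 0)) * G (z + (0, t)) * ker (c (σ z)) t) =
      fun z => ∫ t, W (z, t) * ker (c (σ z)) t := by
    funext z
    rw [← integral_const_mul]
    refine integral_congr_ae (Eventually.of_forall fun t => ?_)
    simp only [hW]
    ring
  rw [e3]
  refine ⟨i3.integral_prod_left, ?_⟩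
  rw [integral_prod _ i3] at hfin
  exact hfin

end Crest.Agent.R72.Red
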