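import Crest.Agent.R72.RedB

/-! Row 72, reduction of S0096 to the discrete core: the norm bound for real functions. -/

set_option autoImplicit false

namespace Crest.Agent.R72.Red

open MeasureTheory Filter Topology
open scoped ENNReal

/-- The signed sum of truncated transforms of real functions. -/
noncomputable def T (c : Cfg) (F G : ℝ × ℝ → ℝ) (z : ℝ × ℝ) : ℝ :=
  ∫ t, F (z + (t, 0)) * G (z + (0, t)) * ker c t

lemma measurable_T (c : Cfg) {F G : ℝ × ℝ → ℝ} (mF : Measurable F) (mG : Measurable G) :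
    Measurable (T c F G) := by
  have mv1 : Measurable fun t : ℝ => ((t, 0) : ℝ × ℝ) := measurable_id.prodMk measurable_const
  have mv2 : Measurable fun t : ℝ => ((0, t) : ℝ × ℝ) := measurable_const.prodMk measurable_id
  have m : Measurable fun p : (ℝ × ℝ) × ℝ =>
      F (p.1 + (p.2, 0)) * G (p.1 + (0, p.2)) * ker c p.2 :=
    ((mF.comp (measurable_fst.add (mv1.comp measurable_snd))).mul
      (mG.comp (measurable_fst.add (mv2.comp measurable_snd)))).mul
      ((measurable_ker c).comp measurable_snd)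
  exact (StronglyMeasurable.integral_prod_right
    (f := fun (z : ℝ × ℝ) (t : ℝ) => F (z + (t, 0)) * G (z + (0, t)) * ker c t)
    m.stronglyMeasurable).measurable

lemma opt3 {X K α β γ : ℝ} (hK : 0 ≤ K) (hα : 0 ≤ α) (hβ : 0 ≤ β) (hγ : 0 ≤ γ)
    (h : ∀ a b c : ℝ, 0 < a → 0 < b → 0 < c →
      a * b * c * X ≤ K * (a ^ 3 * α ^ 3 + b ^ 3 * β ^ 3 + c ^ 3 * γ ^ 3)) :
    X ≤ 3 * K * (α * β * γ) := by
  have h1 : ∀ η : ℝ, 0 < η → X ≤ 3 * K * ((α + η) * (β + η) * (γ + η)) := by
    intro η hη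
    have ha : 0 < α + η := by linarith
    have hb : 0 < β + η := by linarith
    have hc : 0 < γ + η := by linarith
    have h2 := h _ _ _ (inv_pos.mpr ha) (inv_pos.mpr hb) (inv_pos.mpr hc)
    have k : ∀ x : ℝ, 0 ≤ x → (x + η)⁻¹ ^ 3 * x ^ 3 ≤ 1 := by
      intro x hx
      rw [← mul_pow]
      refine pow_le_one₀ (by positivity) ?_
      rw [inv_mul_le_iff₀ (by linarith)]
      linarith
    have h3 : (α + η)⁻¹ * (β + η)⁻¹ * (γ + η)⁻¹ * X ≤ K * 3 :=
      h2.trans (mul_le_mul_of_nonneg_left (by linarith [k α hα, k β hβ, k γ hγ]) hK)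
    have h4 := mul_le_mul_of_nonneg_left h3 (show 0 ≤ (α + η) * (β + η) * (γ + η) by positivity)
    have h5 : (α + η) * (β + η) * (γ + η) * ((α + η)⁻¹ * (β + η)⁻¹ * (γ + η)⁻¹ * X) = X := by
      field_simp
    linarith
  have hc : Continuous fun η : ℝ => 3 * K * ((α + η) * (β + η) * (γ + η)) := by fun_prop
  have ht : Tendsto (fun η : ℝ => 3 * K * ((α + η) * (β + η) * (γ + η))) (𝓝[>] 0)
      (𝓝 (3 * K * ((α + 0) * (β + 0) * (γ + 0)))) :=
    (hc.tendsto 0).mono_left nhdsWithin_le_nhds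
  simp only [add_zero] at ht
  exact ge_of_tendsto ht (eventually_nhdsWithin_of_forall fun η hη => h1 η hη)

/-- cube root of the integral of the cube -/
noncomputable def n3 (F : ℝ × ℝ → ℝ) : ℝ := (∫ z, |F z| ^ 3) ^ ((3 : ℕ) : ℝ)⁻¹

lemma n3_nonneg (F : ℝ × ℝ → ℝ) : 0 ≤ n3 F :=
  Real.rpow_nonneg (integral_nonneg fun z => by positivity) _

lemma n3_pow (F : ℝ × ℝ → ℝ) : n3 F ^ 3 = ∫ z, |F z| ^ 3 :=
  Real.rpow_inv_natCast_pow (integral_nonneg fun z => by positivity) (by norm_num)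

theorem linearised_prod {ι : Type} [Finite ι] [MeasurableSpace ι] [MeasurableSingletonClass ι]
    {n : ℕ} {A : ℝ} (hA : 0 ≤ A) (hC : CoreAt n A) (c : ι → Cfg) (hc : ∀ κ, (c κ).m ≤ n)
    (σ : ℝ × ℝ → ι) (hσ : Measurable σ) {h F G : ℝ × ℝ → ℝ} (mh : Measurable h)
    (mF : Measurable F) (mG : Measurable G) (ih : Integrable fun z => |h z| ^ 3)
    (iF : Integrable fun z => |F z| ^ 3) (iG : Integrable fun z => |G z| ^ 3) :
    ∫ z, h z * T (c (σ z)) F G z ≤ 27 * A * (n3 h * n3 F * n3 G) := by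
  have key := opt3 (X := ∫ z, h z * T (c (σ z)) F G z) (K := 9 * A) (by positivity)
    (n3_nonneg h) (n3_nonneg F) (n3_nonneg G) fun a b d ha hb hd => by
      have e : ∀ (f : ℝ × ℝ → ℝ) (a : ℝ), 0 < a → ∀ z, |a * f z| ^ 3 = a ^ 3 * |f z| ^ 3 := by
        intro f a ha z
        rw [abs_mul, abs_of_pos ha, mul_pow]
      have := (linearised hA hC c hc σ hσ (h := fun z => a * h z) (F := fun z => b * F z)
        (G := fun z => d * G z) (mh.const_mul a) (mF.const_mul b) (mG.const_mul d)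
        (by simp only [e h a ha]; exact ih.const_mul _)
        (by simp only [e F b hb]; exact iF.const_mul _)
        (by simp only [e G d hd]; exact iG.const_mul _)).2
      simp only [e h a ha, e F b hb, e G d hd, integral_const_mul] at this
      rw [n3_pow, n3_pow, n3_pow, ← integral_const_mul]
      refine le_trans (le_of_eq ?_) this
      refine integral_congr_ae (Eventually.of_forall fun z => ?_)
      have e2 : ∫ t, b * F (z + (t, 0)) * (d * G (z + (0, t))) * ker (c (σ z)) t =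
          b * d * T (c (σ z)) F G z := by
        rw [T, ← integral_const_mul]
        refine integral_congr_ae (Eventually.of_forall fun t => ?_)
        simp only
        ring
      simp only
      rw [e2]
      ring
  linarith

lemma exists_select (f : ℕ → ℝ × ℝ → ℝ) (hf : ∀ i, Measurable (f i)) (k : ℕ) :
    ∃ σ : ℝ × ℝ → Fin (k + 1), Measurable σ ∧ ∀ z, ∀ i ≤ k, f i z ≤ f (σ z) z := by
  classical
  have hex : ∀ z, ∃ N, N ≤ k ∧ ∀ i ≤ k, f i z ≤ f N z := by
    intro z
    obtain ⟨N, hN, h⟩ := Finset.exists_max_image (Finset.range (k + 1)) (fun i => f i z)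
      ⟨0, by simp⟩
    exact ⟨N, Nat.lt_succ_iff.mp (Finset.mem_range.mp hN),
      fun i hi => h i (Finset.mem_range.mpr (Nat.lt_succ_iff.mpr hi))⟩
  have hm : ∀ N, MeasurableSet {z | N ≤ k ∧ ∀ i ≤ k, f i z ≤ f N z} := by
    intro N
    have : {z | N ≤ k ∧ ∀ i ≤ k, f i z ≤ f N z} =
        {_z | N ≤ k} ∩ ⋂ i, ⋂ _ : i ≤ k, {z | f i z ≤ f N z} := by
      ext z
      simp
    rw [this]
    exact (MeasurableSet.const _).inter (MeasurableSet.iInter fun i =>
      MeasurableSet.iInter fun _ => measurableSet_le (hf i) (hf N))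
  have m1 := measurable_find hex hm
  refine ⟨fun z => Fin.ofNat (k + 1) (Nat.find (hex z)),
    (measurable_of_countable (Fin.ofNat (k + 1))).comp m1, fun z i hi => ?_⟩
  obtain ⟨h1, h2⟩ := Nat.find_spec (hex z)
  have : ((Fin.ofNat (k + 1) (Nat.find (hex z)) : Fin (k + 1)) : ℕ) = Nat.find (hex z) := by
    simp only [Fin.val_ofNat]
    exact Nat.mod_eq_of_lt (Nat.lt_succ_iff.mpr h1)
  rw [this]
  exact h2 i hi

theorem real_bound {n : ℕ} {A : ℝ} (hA : 0 ≤ A) (hC : CoreAt n A) (c : ℕ → Cfg)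
    (hc : ∀ i, (c i).m ≤ n) {F G : ℝ × ℝ → ℝ} (mF : Measurable F) (mG : Measurable G)
    (iF : Integrable fun z => |F z| ^ 3) (iG : Integrable fun z => |G z| ^ 3) :
    (∫⁻ z, (⨆ i, ENNReal.ofReal (T (c i) F G z)) ^ (3 / 2 : ℝ)) ^ (1 / (3 / 2) : ℝ) ≤
      ENNReal.ofReal (27 * A * (n3 F * n3 G)) := by
  set Y := 27 * A * (n3 F * n3 G) with hY
  have hY0 : 0 ≤ Y := by
    have := n3_nonneg F
    have := n3_nonneg G
    positivity
  choose σ hσ hsel using exists_select (fun i => T (c i) F G) (fun i => measurable_T _ mF mG)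
  set M : ℕ → ℝ × ℝ → ℝ := fun k z => T (c (σ k z)) F G z with hM
  have mM : ∀ k, Measurable (M k) := by
    intro k
    have m1 : Measurable fun q : Fin (k + 1) × (ℝ × ℝ) => T (c q.1) F G q.2 :=
      measurable_from_prod_countable_right fun κ => measurable_T (c κ) mF mG
    have m2 : Measurable fun z : ℝ × ℝ => ((σ k z, z) : Fin (k + 1) × (ℝ × ℝ)) :=
      (hσ k).prodMk measurable_id
    have m3 := m1.comp m2
    simp only [Function.comp_def] at m3
    exact m3
  set h : ℕ → ℝ × ℝ → ℝ := fun k =>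
    (Metric.closedBall (0 : ℝ × ℝ) k).indicator fun z => Real.sqrt (min k (M k z)) with hh
  have mh : ∀ k, Measurable (h k) := fun k =>
    (measurable_const.min (mM k)).sqrt.indicator measurableSet_closedBall
  have h0 : ∀ k z, 0 ≤ h k z := fun k z =>
    Set.indicator_nonneg (fun _ _ => Real.sqrt_nonneg _) z
  have ih : ∀ k, Integrable fun z => |h k z| ^ 3 := by
    intro k
    have i1 : Integrable ((Metric.closedBall (0 : ℝ × ℝ) k).indicator fun _ => Real.sqrt k ^ 3) :=
      (integrableOn_const (C := Real.sqrt k ^ 3) measure_closedBall_lt_top.ne).integrable_indicator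
        measurableSet_closedBall
    refine i1.mono' ((mh k).abs.pow_const 3).aestronglyMeasurable (Eventually.of_forall fun z => ?_)
    rw [Real.norm_eq_abs, abs_pow, abs_abs, abs_of_nonneg (h0 k z)]
    by_cases hz : z ∈ Metric.closedBall (0 : ℝ × ℝ) k
    · simp only [hh, Set.indicator_of_mem hz]
      exact pow_le_pow_left₀ (Real.sqrt_nonneg _) (Real.sqrt_le_sqrt (min_le_left _ _)) 3
    · simp only [hh, Set.indicator_of_notMem hz]
      simp
  have hle : ∀ k z, |h k z| ^ 3 ≤ h k z * M k z := by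
    intro k z
    rw [abs_of_nonneg (h0 k z)]
    by_cases hz : z ∈ Metric.closedBall (0 : ℝ × ℝ) k
    · simp only [hh, Set.indicator_of_mem hz]
      rcases le_or_gt 0 (min (k : ℝ) (M k z)) with h1 | h1
      · rw [pow_succ', Real.sq_sqrt h1]
        exact mul_le_mul_of_nonneg_left (min_le_right _ _) (Real.sqrt_nonneg _)
      · rw [Real.sqrt_eq_zero_of_nonpos h1.le]
        simp
    · simp only [hh, Set.indicator_of_notMem hz]
      simp
  have hk : ∀ k, ∫ z, |h k z| ^ 3 ≤ Y ^ (3 / 2 : ℝ) := by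
    intro k
    have h1 := linearised_prod hA hC (fun κ : Fin (k + 1) => c κ) (fun κ => hc κ) (σ k) (hσ k)
      (mh k) mF mG (ih k) iF iG
    have h2 := (linearised hA hC (fun κ : Fin (k + 1) => c κ) (fun κ => hc κ) (σ k) (hσ k)
      (mh k) mF mG (ih k) iF iG).1
    have h3 : ∫ z, |h k z| ^ 3 ≤ ∫ z, h k z * M k z := integral_mono (ih k) h2 (hle k)
    have h4 : n3 (h k) ^ 3 ≤ n3 (h k) * Y := by
      rw [n3_pow]
      refine h3.trans (h1.trans (le_of_eq ?_))
      rw [hY]
      ring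
    have h5 : n3 (h k) ^ 2 ≤ Y := by
      rcases (n3_nonneg (h k)).eq_or_lt with h6 | h6
      · rw [← h6]
        simpa using hY0
      · rw [pow_succ'] at h4
        exact le_of_mul_le_mul_left h4 h6
    rw [← n3_pow]
    calc n3 (h k) ^ 3 = (n3 (h k) ^ 2) ^ (3 / 2 : ℝ) := by
          rw [← Real.rpow_natCast, ← Real.rpow_natCast, ← Real.rpow_mul (n3_nonneg _)]
          norm_num
      _ ≤ _ := Real.rpow_le_rpow (sq_nonneg _) h5 (by norm_num)
  have hk' : ∀ k, ∫⁻ z, ENNReal.ofReal (|h k z| ^ 3) ≤ ENNReal.ofReal Y ^ (3 / 2 : ℝ) := by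
    intro k
    rw [← ofReal_integral_eq_lintegral_ofReal (ih k) (Eventually.of_forall fun z => by positivity),
      ENNReal.ofReal_rpow_of_nonneg hY0 (by norm_num)]
    exact ENNReal.ofReal_le_ofReal (hk k)
  have hpt : ∀ z, (⨆ i, ENNReal.ofReal (T (c i) F G z)) ^ (3 / 2 : ℝ) ≤
      liminf (fun k => ENNReal.ofReal (|h k z| ^ 3)) atTop := by
    intro z
    rw [← ENNReal.le_rpow_inv_iff (by norm_num)]
    refine iSup_le fun i => ?_
    rw [ENNReal.le_rpow_inv_iff (by norm_num)]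
    refine le_liminf_of_le (by isBoundedDefault) ?_
    obtain ⟨k0, hk0⟩ := exists_nat_ge (max ‖z‖ (T (c i) F G z))
    filter_upwards [eventually_ge_atTop k0, eventually_ge_atTop i] with k hk1 hk2
    have hk3 : (k0 : ℝ) ≤ k := Nat.cast_le.mpr hk1
    have hz : z ∈ Metric.closedBall (0 : ℝ × ℝ) k := by
      rw [mem_closedBall_zero_iff]
      exact ((le_max_left _ _).trans hk0).trans hk3
    rcases le_or_gt (T (c i) F G z) 0 with h1 | h1
    · rw [ENNReal.ofReal_of_nonpos h1, ENNReal.zero_rpow_of_pos (by norm_num)]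
      exact zero_le
    rw [ENNReal.ofReal_rpow_of_nonneg h1.le (by norm_num)]
    refine ENNReal.ofReal_le_ofReal ?_
    rw [abs_of_nonneg (h0 k z)]
    simp only [hh, Set.indicator_of_mem hz]
    have h2 : T (c i) F G z ≤ min (k : ℝ) (M k z) :=
      le_min (((le_max_right _ _).trans hk0).trans hk3) (hsel k z i hk2)
    calc T (c i) F G z ^ (3 / 2 : ℝ) = Real.sqrt (T (c i) F G z) ^ 3 := by
          rw [Real.sqrt_eq_rpow, ← Real.rpow_natCast, ← Real.rpow_mul h1.le]
          norm_num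
      _ ≤ _ := pow_le_pow_left₀ (Real.sqrt_nonneg _) (Real.sqrt_le_sqrt h2) 3
  have hfin : ∫⁻ z, (⨆ i, ENNReal.ofReal (T (c i) F G z)) ^ (3 / 2 : ℝ) ≤
      ENNReal.ofReal Y ^ (3 / 2 : ℝ) := by
    refine (lintegral_mono hpt).trans ((lintegral_liminf_le fun k => ?_).trans ?_)
    · exact ((mh k).abs.pow_const 3).ennreal_ofReal
    · exact liminf_le_of_frequently_le' (Frequently.of_forall hk')
  refine (ENNReal.rpow_le_rpow hfin (by norm_num)).trans (le_of_eq ?_)
  rw [← ENNReal.rpow_mul]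
  norm_num

end Crest.Agent.R72.Red
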