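import Crest.Agent.R72.Weights

/-! Row 72: size and change of the plane functional, strong maximal function. -/

set_option autoImplicit false
set_option linter.unusedSectionVars false
set_option linter.unusedSimpArgs false

namespace Crest.Agent.R72.Core

open Matrix Finset MeasureTheory

/-- the cyclic rotation of the plane `a₀ + a₁ + a₂ = 0` -/
def rot : ℝ × ℝ ≃ₜ ℝ × ℝ where
  toFun z := (-z.1 - z.2, z.1)
  invFun z := (z.2, -z.1 - z.2)
  left_inv z := by ext <;> simp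
  right_inv z := by
    ext
    · simp only; ring
    · simp
  continuous_toFun := by fun_prop
  continuous_invFun := by fun_prop

lemma rot_mp : MeasurePreserving rot (volume : Measure (ℝ × ℝ)) volume := by
  have h1 := measurePreserving_prod_add (volume : Measure ℝ) (volume : Measure ℝ)
  have h2 := (MeasurePreserving.id (volume : Measure ℝ)).prod
    (Measure.measurePreserving_neg (volume : Measure ℝ))
  have h3 := Measure.measurePreserving_swap (μ := (volume : Measure ℝ)) (ν := (volume : Measure ℝ))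
  have e : (rot : ℝ × ℝ → ℝ × ℝ) = (Prod.swap ∘ Prod.map id Neg.neg) ∘ fun z => (z.1, z.1 + z.2) := by
    funext z
    show (-z.1 - z.2, z.1) = (-(z.1 + z.2), z.1)
    rw [neg_add']
  rw [e]
  exact (h3.comp h2).comp h1

lemma integral_rot (f : ℝ × ℝ → ℝ) : ∫ z : ℝ × ℝ, f (-z.1 - z.2, z.1) = ∫ z, f z :=
  rot_mp.integral_comp rot.measurableEmbedding f

lemma integral_rot2 (f : ℝ × ℝ → ℝ) : ∫ z : ℝ × ℝ, f (z.2, -z.1 - z.2) = ∫ z, f z := by
  rw [← integral_rot]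
  congr 1; ext z; congr 1; ext <;> simp

lemma integrable_rot {f : ℝ × ℝ → ℝ} (hf : Integrable f) :
    Integrable fun z : ℝ × ℝ => f (-z.1 - z.2, z.1) :=
  rot_mp.integrable_comp_of_integrable hf

lemma integrable_rot2 {f : ℝ × ℝ → ℝ} (hf : Integrable f) :
    Integrable fun z : ℝ × ℝ => f (z.2, -z.1 - z.2) := by
  convert integrable_rot (integrable_rot hf) using 3
  simp

section
variable {n m k : Type*} [Fintype n] [DecidableEq n] [Fintype m] [DecidableEq m]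
  [Fintype k] [DecidableEq k]

lemma wt_integrable {p : ℝ → m → ℝ} (hp : Wt p) (i : m) : Integrable fun x => p x i := by
  obtain ⟨L, hL⟩ := hp.supp
  have := hp.cont
  exact integrable_of_zero (by fun_prop) L fun y hy => by simp [hL y hy]

variable {p : ℝ → m → ℝ} {q : ℝ → k → ℝ} {s : ℝ → n → ℝ}

lemma pq_int (hp : Wt1 p) (hq : Wt1 q) (i : m) (j : k) :
    Integrable (fun z : ℝ × ℝ => p z.1 i * q (-z.1 - z.2) j) ∧
      ∫ z : ℝ × ℝ, p z.1 i * q (-z.1 - z.2) j ≤ 1 := by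
  have h := (wt_integrable hq.toWt j).mul_prod (wt_integrable hp.toWt i)
  refine ⟨by simpa only [mul_comm] using integrable_rot h, ?_⟩
  have e := integral_rot fun z => q z.1 j * p z.2 i
  simp only [mul_comm (q _ j)] at e
  rw [e]
  simp only [mul_comm (p _ i)]
  rw [Measure.volume_eq_prod, integral_prod_mul (fun x => q x j) (fun x => p x i)]
  exact mul_le_one₀ (hq.int_le j) (integral_nonneg fun x => hp.nonneg x i) (hp.int_le i)

lemma qs_int (hq : Wt1 q) (hs : Wt1 s) (j : k) (l : n) :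
    Integrable (fun z : ℝ × ℝ => q (-z.1 - z.2) j * s z.2 l) ∧
      ∫ z : ℝ × ℝ, q (-z.1 - z.2) j * s z.2 l ≤ 1 := by
  have h := (wt_integrable hs.toWt l).mul_prod (wt_integrable hq.toWt j)
  refine ⟨by simpa only [mul_comm] using integrable_rot2 h, ?_⟩
  have e := integral_rot2 fun z => s z.1 l * q z.2 j
  simp only [mul_comm (s _ l)] at e
  rw [e]
  simp only [mul_comm (q _ j)]
  rw [Measure.volume_eq_prod, integral_prod_mul (fun x => s x l) (fun x => q x j)]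
  exact mul_le_one₀ (hs.int_le l) (integral_nonneg fun x => hq.nonneg x j) (hq.int_le j)

lemma int_sum2 {α β : Type*} [Fintype α] [Fintype β] {f : α → β → ℝ × ℝ → ℝ} (c : α → β → ℝ)
    (hc : ∀ i j, 0 ≤ c i j) (h : ∀ i j, Integrable (f i j) ∧ ∫ z, f i j z ≤ 1) :
    Integrable (fun z => ∑ i, ∑ j, f i j z * c i j) ∧
      ∫ z, ∑ i, ∑ j, f i j z * c i j ≤ ∑ i, ∑ j, c i j := by
  have i1 : ∀ i, Integrable fun z => ∑ j, f i j z * c i j := fun i =>
    integrable_finsetSum _ fun j _ => (h i j).1.mul_const _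
  refine ⟨integrable_finsetSum _ fun i _ => i1 i, ?_⟩
  rw [integral_finsetSum _ fun i _ => i1 i]
  refine sum_le_sum fun i _ => ?_
  rw [integral_finsetSum _ fun j _ => (h i j).1.mul_const _]
  refine sum_le_sum fun j _ => ?_
  rw [integral_mul_const]
  exact mul_le_of_le_one_left (hc i j) (h i j).2

variable (a : Matrix m k ℝ) (b : Matrix k n ℝ)

lemma FF_le (hp : Wt1 p) (hq : Wt1 q) (hs : Wt1 s) :
    FF a b p q s 0 ≤ 3 / 2 * (∑ i, ∑ j, |a i j| ^ 3 + ∑ j, ∑ l, |b j l| ^ 3) := by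
  obtain ⟨i1, b1⟩ := int_sum2 (fun i j => |a i j| ^ 3) (fun _ _ => by positivity) (pq_int hp hq)
  obtain ⟨i2, b2⟩ := int_sum2 (fun i j => |b i j| ^ 3) (fun _ _ => by positivity) (qs_int hq hs)
  have i3 : Integrable fun z : ℝ × ℝ => ∑ i, ∑ j, p z.1 i * q (-z.1 - z.2) j * |a i j| ^ 3 +
    ∑ j, ∑ l, q (-z.1 - z.2) j * s z.2 l * |b j l| ^ 3 := i1.add i2
  have := integral_mono (integrable_Psi a b hp.toWt hq.toWt hs.toWt 0) (i3.const_mul (3 / 2))
    fun z => by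
      simp only [zero_sub]
      exact Psi_le a b (hp.nonneg _) (hq.nonneg _) (hs.nonneg _) (hp.sum_le _) (hq.sum_le _)
        (hs.sum_le _)
  rw [integral_const_mul, integral_add i1 i2] at this
  unfold FF
  linarith

lemma WW_le (hp : Wt1 p) (hq : Wt1 q) (hs : Wt1 s) :
    WW a b p q s ≤ 9 / 2 * (∑ i, ∑ j, |a i j| ^ 3 + ∑ j, ∑ l, |b j l| ^ 3) := by
  have h1 := FF_le a b hp hq hs
  have h2 := FF_le a b hp hq Wt1.zero
  have h3 := FF_le a b Wt1.zero hq hs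
  unfold WW; linarith

lemma FF_change (a' : Matrix m k ℝ) (hp : Wt1 p) (hq : Wt1 q) (hs : Wt s) (G : m → k → ℝ)
    (hG0 : ∀ i j, 0 ≤ G i j)
    (hG : ∀ x y i j, p x i ≠ 0 → q (-x - y) j ≠ 0 → Real.sqrt (∑ j', q (-x - y) j' * a' i j' ^ 2) *
      Real.sqrt (∑ i', p x i' * a' i' j ^ 2 + ∑ l, s y l * b j l ^ 2) ≤ G i j) :
    FF a' b p q s 0 - FF a b p q s 0 ≤ 3 * ∑ i, ∑ j, |a' i j - a i j| * G i j := by
  obtain ⟨i1, b1⟩ := int_sum2 (fun i j => |a' i j - a i j| * G i j)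
    (fun i j => mul_nonneg (abs_nonneg _) (hG0 i j)) (pq_int hp hq)
  have j1 := integrable_Psi a' b hp.toWt hq.toWt hs 0
  have j2 := integrable_Psi a b hp.toWt hq.toWt hs 0
  have := integral_mono (j1.sub j2) (i1.const_mul 3) fun z => by
    simp only [zero_sub, Pi.sub_apply]
    refine (Psi_change a b a' (hp.nonneg _) (hq.nonneg _) (hs.nonneg _)).trans ?_
    refine mul_le_mul_of_nonneg_left (sum_le_sum fun i _ => sum_le_sum fun j _ => ?_) (by norm_num)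
    by_cases h1 : p z.1 i = 0
    · simp [h1]
    by_cases h2 : q (-z.1 - z.2) j = 0
    · simp [h2]
    rw [mul_assoc]
    exact mul_le_mul_of_nonneg_left (mul_le_mul_of_nonneg_left (hG _ _ i j h1 h2) (abs_nonneg _))
      (mul_nonneg (hp.nonneg _ _) (hq.nonneg _ _))
  simp only [Pi.sub_apply] at this
  rw [integral_const_mul, integral_sub j1 j2] at this
  unfold FF
  linarith

lemma WW_change (a' : Matrix m k ℝ) (hp : Wt1 p) (hq : Wt1 q) (hs : Wt s) (G : m → k → ℝ)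
    (hG0 : ∀ i j, 0 ≤ G i j)
    (hG : ∀ x y i j, p x i ≠ 0 → q (-x - y) j ≠ 0 → Real.sqrt (∑ j', q (-x - y) j' * a' i j' ^ 2) *
      Real.sqrt (∑ i', p x i' * a' i' j ^ 2 + ∑ l, s y l * b j l ^ 2) ≤ G i j) :
    WW a' b p q s - WW a b p q s ≤ 6 * ∑ i, ∑ j, |a' i j - a i j| * G i j := by
  have h1 := FF_change a b a' hp hq hs G hG0 hG
  have h2 := FF_change a b a' hp hq Wt.zero G hG0 fun x y i j h h' => by
    refine le_trans (mul_le_mul_of_nonneg_left (Real.sqrt_le_sqrt ?_) (Real.sqrt_nonneg _))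
      (hG x y i j h h')
    simp only [Pi.zero_apply, zero_mul, sum_const_zero, add_zero, le_add_iff_nonneg_right]
    exact sum_nonneg fun l _ => mul_nonneg (hs.nonneg _ _) (sq_nonneg _)
  have h3 : FF a' b 0 q s 0 = FF a b 0 q s 0 := by
    unfold FF; congr 1; ext z; exact Psi_zero_p _ _ _ _ _
  unfold WW; linarith

lemma gapq_flip (p : m → ℝ) (q₁ q₂ : k → ℝ) (s : n → ℝ) :
    gapq a b p q₁ q₂ s = gapq bᵀ aᵀ s q₁ q₂ p := by
  simp only [gapq, Psi_flip a b]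

end

/-- `g` is a strong maximal function of `f` -/
structure SM (S : Finset ℤ) (f g : ℤ → ℤ → ℝ) : Prop where
  nonneg : ∀ i j, 0 ≤ g i j
  le : ∀ (i j : ℤ) (R R' : ℕ), ∑ i' ∈ S.filter (fun i' => |i' - i| ≤ (R : ℤ)),
    ∑ j' ∈ S.filter (fun j' => |j' - j| ≤ (R' : ℤ)), f i' j' ^ 2 ≤
      (2 * R + 1) * ((2 * R' + 1) * g i j ^ 2)

lemma exists_SM (hM : MaxStmt) : ∃ C : ℝ, 0 ≤ C ∧ ∀ (S : Finset ℤ) (f : ℤ → ℤ → ℝ),
    ∃ g, SM S f g ∧ ∀ U : Finset (ℤ × ℤ), ∑ u ∈ U, g u.1 u.2 ^ 3 ≤ C * cube S f := by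
  obtain ⟨C, hC, hM⟩ := hM
  refine ⟨C * C, by positivity, fun S f => ?_⟩
  choose g₁ h₁ h₂ h₃ using fun i => hM S (f i)
  choose g₂ k₁ k₂ k₃ using fun j => hM S (fun i => g₁ i j)
  refine ⟨fun i j => g₂ j i, ⟨fun i j => k₁ j i, fun i j R R' => ?_⟩, fun U => ?_⟩
  · refine (sum_le_sum fun i' _ => h₂ i' j R').trans ?_
    rw [← mul_sum, mul_left_comm]
    exact mul_le_mul_of_nonneg_left (k₂ j i R) (by positivity)
  · calc ∑ u ∈ U, g₂ u.2 u.1 ^ 3 ≤ ∑ u ∈ U.image Prod.fst ×ˢ U.image Prod.snd, g₂ u.2 u.1 ^ 3 :=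
          sum_le_sum_of_subset_of_nonneg subset_product fun u _ _ => pow_nonneg (k₁ _ _) 3
      _ = ∑ j ∈ U.image Prod.snd, ∑ i ∈ U.image Prod.fst, g₂ j i ^ 3 := sum_product_right _ _ _
      _ ≤ ∑ j ∈ U.image Prod.snd, C * ∑ i ∈ S, |g₁ i j| ^ 3 := sum_le_sum fun j _ => k₃ j _
      _ = C * ∑ i ∈ S, ∑ j ∈ U.image Prod.snd, g₁ i j ^ 3 := by
          rw [← mul_sum, sum_comm]
          simp only [abs_of_nonneg (h₁ _ _)]
      _ ≤ C * ∑ i ∈ S, C * ∑ j ∈ S, |f i j| ^ 3 :=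
          mul_le_mul_of_nonneg_left (sum_le_sum fun i _ => h₃ i _) hC
      _ = C * C * cube S f := by rw [← mul_sum, cube, mul_assoc]

lemma wsum_le {S : Finset ℤ} (w : S → ℝ) (F : ℤ → ℝ) (hF : ∀ i, 0 ≤ F i) {β : ℝ} (hβ : 0 ≤ β)
    (hw : ∀ i, w i ≤ β) (i₀ : ℤ) (R : ℕ) (hs : ∀ i, w i ≠ 0 → |(i : ℤ) - i₀| ≤ R) :
    ∑ i, w i * F i ≤ β * ∑ i ∈ S.filter (fun i => |i - i₀| ≤ (R : ℤ)), F i := by
  rw [sum_filter, ← sum_coe_sort S, mul_sum]
  refine sum_le_sum fun i _ => ?_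
  by_cases h : w i = 0
  · rw [h, zero_mul]; have := hF i; positivity
  · rw [if_pos (hs i h)]; exact mul_le_mul_of_nonneg_right (hw i) (hF i)

/-- the window of a weight -/
lemma exists_window {D r : ℝ} (hD : 0 ≤ D) (hr : 0 < r) :
    ∃ R : ℕ, D * (r + 1) ≤ R ∧ min 1 (1 / r) * (2 * R + 1) ≤ 4 * D + 3 := by
  refine ⟨⌈D * (r + 1)⌉₊, Nat.le_ceil _, ?_⟩
  have h := Nat.ceil_lt_add_one (show 0 ≤ D * (r + 1) by positivity)
  rcases le_total r 1 with h1 | h1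
  · refine (mul_le_of_le_one_left (by positivity) (min_le_left _ _)).trans ?_
    nlinarith
  · refine (mul_le_mul_of_nonneg_right (min_le_right _ _) (by positivity)).trans ?_
    rw [one_div, inv_mul_le_iff₀ hr]
    nlinarith

variable {S : Finset ℤ} {f g : ℤ → ℤ → ℝ}

lemma SM.two (h : SM S f g) (w v : S → ℝ) {β β' D D' r r' : ℝ} (hβ : 0 ≤ β) (hβ' : 0 ≤ β')
    (hD : 0 ≤ D) (hD' : 0 ≤ D') (hr : 0 < r) (hr' : 0 < r') (hw0 : ∀ i, 0 ≤ w i)
    (hw : ∀ i, w i ≤ β * min 1 (1 / r)) (hv : ∀ i, v i ≤ β' * min 1 (1 / r')) (i₀ j₀ : ℤ)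
    (sw : ∀ i, w i ≠ 0 → |((i : ℤ) : ℝ) - i₀| ≤ D * (r + 1))
    (sv : ∀ i, v i ≠ 0 → |((i : ℤ) : ℝ) - j₀| ≤ D' * (r' + 1)) :
    ∑ i, ∑ j, w i * v j * f i j ^ 2 ≤ β * β' * ((4 * D + 3) * (4 * D' + 3)) * g i₀ j₀ ^ 2 := by
  obtain ⟨R, hR, hR2⟩ := exists_window hD hr
  obtain ⟨R', hR', hR2'⟩ := exists_window hD' hr'
  have m1 : 0 ≤ min 1 (1 / r) := by positivity
  have m2 : 0 ≤ min 1 (1 / r') := by positivity
  calc ∑ i, ∑ j, w i * v j * f i j ^ 2 = ∑ i, w i * ∑ j, v j * f i j ^ 2 := by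
        simp only [mul_sum, mul_assoc]
    _ ≤ ∑ i, w i * (β' * min 1 (1 / r') *
          ∑ j ∈ S.filter (fun j => |j - j₀| ≤ (R' : ℤ)), f i j ^ 2) :=
        sum_le_sum fun i _ => mul_le_mul_of_nonneg_left (wsum_le v (fun j => f i j ^ 2)
          (fun _ => sq_nonneg _) (by positivity) hv j₀ R' fun j hj => by
            exact_mod_cast (sv j hj).trans hR') (hw0 i)
    _ ≤ β * min 1 (1 / r) * ∑ i ∈ S.filter (fun i => |i - i₀| ≤ (R : ℤ)), (β' * min 1 (1 / r') *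
          ∑ j ∈ S.filter (fun j => |j - j₀| ≤ (R' : ℤ)), f i j ^ 2) :=
        wsum_le w (fun i => β' * min 1 (1 / r') *
          ∑ j ∈ S.filter (fun j => |j - j₀| ≤ (R' : ℤ)), f i j ^ 2) (fun _ => by positivity)
          (by positivity) hw i₀ R fun i hi => by exact_mod_cast (sw i hi).trans hR
    _ ≤ β * min 1 (1 / r) * (β' * min 1 (1 / r') * ((2 * R + 1) * ((2 * R' + 1) * g i₀ j₀ ^ 2))) := by
        rw [← mul_sum]
        exact mul_le_mul_of_nonneg_left (mul_le_mul_of_nonneg_left (h.le i₀ j₀ R R')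
          (by positivity)) (by positivity)
    _ = β * β' * ((min 1 (1 / r) * (2 * R + 1)) * (min 1 (1 / r') * (2 * R' + 1))) * g i₀ j₀ ^ 2 := by
        ring
    _ ≤ _ := by gcongr

lemma SM.row (h : SM S f g) (v : S → ℝ) {D r : ℝ} (hD : 0 ≤ D) (hr : 0 < r)
    (hv : ∀ i, v i ≤ min 1 (1 / r)) (i₀ : S) (j₀ : ℤ)
    (sv : ∀ i, v i ≠ 0 → |((i : ℤ) : ℝ) - j₀| ≤ D * (r + 1)) :
    ∑ j, v j * f i₀ j ^ 2 ≤ 3 * (4 * D + 3) * g i₀ j₀ ^ 2 := by
  have := h.two (fun i => if i = i₀ then 1 else 0) v (β := 1) (β' := 1) (D := 0) (r := 1) zero_le_one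
    zero_le_one le_rfl hD one_pos hr (fun i => by positivity) (fun i => by split_ifs <;> simp)
    (by simpa using hv) i₀ j₀ (fun i hi => by
      have : i = i₀ := by simpa using hi
      simp [this]) sv
  simpa [ite_mul] using this

lemma SM.col (h : SM S f g) (w : S → ℝ) {D r : ℝ} (hD : 0 ≤ D) (hr : 0 < r) (hw0 : ∀ i, 0 ≤ w i)
    (hw : ∀ i, w i ≤ min 1 (1 / r)) (i₀ : ℤ) (j₀ : S)
    (sw : ∀ i, w i ≠ 0 → |((i : ℤ) : ℝ) - i₀| ≤ D * (r + 1)) :
    ∑ i, w i * f i j₀ ^ 2 ≤ 3 * (4 * D + 3) * g i₀ j₀ ^ 2 := by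
  have := h.two w (fun i => if i = j₀ then 1 else 0) (β := 1) (β' := 1) (D' := 0) (r' := 1)
    zero_le_one zero_le_one hD le_rfl hr one_pos hw0 (by simpa using hw)
    (fun i => by split_ifs <;> simp) i₀ j₀ sw (fun i hi => by
      have : i = j₀ := by simpa using hi
      simp [this])
  simp only [mul_ite, mul_one, mul_zero, ite_mul, zero_mul, sum_ite_eq', mem_univ, if_true,
    one_mul, zero_add] at this
  linarith

end Crest.Agent.R72.Core
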