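import Crest.Prelude.Def_TriangularHilbert
import Mathlib

/-! Row 72, sub-task B: the `r`-variation bound from the annulus-count bound. -/

set_option autoImplicit false

namespace Crest.Agent.R72

open MeasureTheory Finset Crest.AnalysisR
open scoped ENNReal

theorem rpow_sum_le {ι : Type*} (s : Finset ι) (a : ι → ℝ≥0∞) {p : ℝ} (hp : 0 < p) (hp1 : p ≤ 1) :
    (∑ i ∈ s, a i) ^ p ≤ ∑ i ∈ s, a i ^ p := by
  classical
  induction s using Finset.induction_on with
  | empty => simp [ENNReal.zero_rpow_of_pos hp]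
  | insert i s hi ih =>
    rw [sum_insert hi, sum_insert hi]
    exact (ENNReal.rpow_add_le_add_rpow _ _ hp.le hp1).trans (add_le_add le_rfl ih)

/-- The sorting argument, without sorting. -/
theorem sum_rpow_le_blocks {m : ℕ} (a : Fin m → ℝ≥0∞) (S : ℕ → ℝ≥0∞)
    (hS : ∀ k, ∀ A : Finset (Fin m), A.card = 2 ^ k → ∑ j ∈ A, a j ≤ S k) {r : ℝ} (hr : 0 ≤ r) :
    ∑ j, a j ^ r ≤ ∑ k ∈ range (m + 1), (2 : ℝ≥0∞) ^ (k + 1) * (S k / 2 ^ k) ^ r := by
  classical
  set c : Fin m → ℕ := fun j => (univ.filter (fun i => a j ≤ a i)).card with hc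
  have hc1 : ∀ j, c j ≠ 0 := fun j =>
    (card_pos.2 ⟨j, by simp⟩).ne'
  have hcm : ∀ j, c j ≤ m := fun j => (card_le_univ _).trans (by simp)
  have hmaps : ∀ j ∈ (univ : Finset (Fin m)), Nat.log 2 (c j) ∈ range (m + 1) := by
    intro j _
    rw [mem_range]
    have := Nat.log_le_self 2 (c j)
    have := hcm j
    omega
  rw [← sum_fiberwise_of_maps_to hmaps]
  refine sum_le_sum fun k _ => ?_
  have h1 : ∀ j ∈ univ.filter (fun j => Nat.log 2 (c j) = k), a j ^ r ≤ (S k / 2 ^ k) ^ r := by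
    intro j hj
    have hk := (mem_filter.1 hj).2
    refine ENNReal.rpow_le_rpow ?_ hr
    have h2 : 2 ^ k ≤ c j := hk ▸ Nat.pow_log_le_self 2 (hc1 j)
    obtain ⟨A, hA, hAc⟩ := exists_subset_card_eq h2
    rw [ENNReal.le_div_iff_mul_le (Or.inl (by simp)) (Or.inl (by simp))]
    refine le_trans ?_ (hS k A hAc)
    have := card_nsmul_le_sum A a (a j) fun i hi => (mem_filter.1 (hA hi)).2
    rw [hAc, nsmul_eq_mul] at this
    push_cast at this
    rwa [mul_comm]
  have h2 : (univ.filter (fun j => Nat.log 2 (c j) = k)).card ≤ 2 ^ (k + 1) := by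
    rcases (univ.filter (fun j => Nat.log 2 (c j) = k)).eq_empty_or_nonempty with h | h
    · simp [h]
    · obtain ⟨j, hj, hmin⟩ := exists_min_image _ a h
      have hk := (mem_filter.1 hj).2
      have h3 : c j < 2 ^ (k + 1) := hk ▸ Nat.lt_pow_succ_log_self (by norm_num) _
      refine le_trans (card_le_card fun i hi => ?_) h3.le
      exact mem_filter.2 ⟨mem_univ _, hmin i hi⟩
  refine (sum_le_card_nsmul _ _ _ h1).trans ?_
  rw [nsmul_eq_mul]
  gcongr
  exact_mod_cast h2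

theorem sub_le_annulusCount (F G : ℝ × ℝ → ℂ) (z : ℝ × ℝ) (J : ℕ) (t : Fin (J + 2) → ℚ)
    (ht : StrictMono t) (h0 : 0 < t 0) (n : ℕ) (A : Finset (Fin (J + 1))) (hA : A.card = n) :
    ∑ j ∈ A, ‖annularTriangularHT F G (t (Fin.castSucc j) : ℝ) (t (Fin.succ j) : ℝ) z‖ₑ ≤
      annulusCount n F G z := by
  set e := A.orderEmbOfFin hA with he
  have hsum : ∑ j ∈ A, ‖annularTriangularHT F G (t (Fin.castSucc j) : ℝ) (t (Fin.succ j) : ℝ) z‖ₑ
      = ∑ j : Fin n, ‖annularTriangularHT F G (t (Fin.castSucc (e j)) : ℝ)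
          (t (Fin.succ (e j)) : ℝ) z‖ₑ := by
    conv_lhs => rw [← A.map_orderEmbOfFin_univ hA]
    rw [sum_map]
    rfl
  rw [hsum]
  have hle : ∀ i j : Fin n, i < j → t (Fin.succ (e i)) ≤ t (Fin.castSucc (e j)) := by
    intro i j hij
    apply ht.monotone
    have : e i < e j := e.strictMono hij
    rw [Fin.le_def]
    simp only [Fin.val_succ, Fin.val_castSucc]
    exact this
  unfold annulusCount
  refine le_iSup_of_le n (le_iSup_of_le le_rfl (le_iSup_of_le (fun j => t (Fin.castSucc (e j)))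
    (le_iSup_of_le (fun j => t (Fin.succ (e j))) (le_iSup_of_le ?_ (le_iSup_of_le ?_ le_rfl)))))
  · intro j
    exact ⟨h0.trans_le (ht.monotone (Fin.zero_le _)), ht Fin.castSucc_lt_succ⟩
  · intro i j hij
    rcases lt_or_gt_of_ne hij with h | h
    · exact Or.inl (hle i j h)
    · exact Or.inr (hle j i h)

theorem var_pointwise (r : ℝ) (hr : 2 < r) (F G : ℝ × ℝ → ℂ) (z : ℝ × ℝ) :
    annularVariation r F G z ^ (3 / 2 : ℝ) ≤
      ∑' k : ℕ, (((2 : ℝ≥0∞) ^ (k + 1)) ^ (3 / (2 * r)) * (1 / 2 ^ k) ^ (3 / 2 : ℝ)) *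
        annulusCount (2 ^ k) F G z ^ (3 / 2 : ℝ) := by
  have hr0 : 0 < r := by linarith
  set W := ∑' k : ℕ, (((2 : ℝ≥0∞) ^ (k + 1)) ^ (3 / (2 * r)) * (1 / 2 ^ k) ^ (3 / 2 : ℝ)) *
        annulusCount (2 ^ k) F G z ^ (3 / 2 : ℝ) with hW
  have hV : annularVariation r F G z ≤ W ^ (2 / 3 : ℝ) := by
    unfold annularVariation
    refine iSup_le fun J => iSup_le fun t => iSup_le fun ht => iSup_le fun h0 => ?_
    have h1 := sum_rpow_le_blocks
      (fun j : Fin (J + 1) =>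
        ‖annularTriangularHT F G (t (Fin.castSucc j) : ℝ) (t (Fin.succ j) : ℝ) z‖ₑ)
      (fun k => annulusCount (2 ^ k) F G z)
      (fun k A hA => sub_le_annulusCount F G z J t ht h0 _ A hA) hr0.le
    have hθ : (0 : ℝ) < 3 / (2 * r) := by positivity
    have hθ1 : 3 / (2 * r) ≤ 1 := by
      rw [div_le_one (by positivity)]; linarith
    have h2 := (ENNReal.rpow_le_rpow h1 hθ.le).trans (rpow_sum_le _ _ hθ hθ1)
    have h3 : (1 / r) = 3 / (2 * r) * (2 / 3) := by field_simp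
    rw [h3, ENNReal.rpow_mul]
    refine ENNReal.rpow_le_rpow (h2.trans ?_) (by norm_num)
    refine le_trans (le_of_eq (sum_congr rfl fun k _ => ?_)) (ENNReal.sum_le_tsum (range (J + 1 + 1)))
    rw [ENNReal.mul_rpow_of_nonneg _ _ hθ.le, ← ENNReal.rpow_mul,
      show r * (3 / (2 * r)) = 3 / 2 by field_simp, mul_assoc,
      ← ENNReal.mul_rpow_of_nonneg _ _ (by norm_num : (0 : ℝ) ≤ 3 / 2)]
    congr 2
    rw [one_div, ENNReal.div_eq_inv_mul]
  refine (ENNReal.rpow_le_rpow hV (by norm_num)).trans (le_of_eq ?_)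
  rw [← ENNReal.rpow_mul]
  norm_num

theorem aesm_annular {F G : ℝ × ℝ → ℂ} (hF : AEStronglyMeasurable F volume)
    (hG : AEStronglyMeasurable G volume) (ε R : ℝ) :
    AEStronglyMeasurable (annularTriangularHT F G ε R) volume := by
  unfold annularTriangularHT
  have q1 : Measure.QuasiMeasurePreserving (fun p : (ℝ × ℝ) × ℝ => (p.1.1 + p.2, p.1.2))
      ((volume : Measure (ℝ × ℝ)).prod (volume.restrict {t : ℝ | ε < abs t ∧ abs t < R}))
      (volume : Measure (ℝ × ℝ)) := by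
    refine QuasiMeasurePreserving.prod_of_left (by fun_prop) (Filter.Eventually.of_forall fun t => ?_)
    have := (measurePreserving_add_right (volume : Measure (ℝ × ℝ)) (t, 0)).quasiMeasurePreserving
    convert this using 2 with z
    ext <;> simp
  have q2 : Measure.QuasiMeasurePreserving (fun p : (ℝ × ℝ) × ℝ => (p.1.1, p.1.2 + p.2))
      ((volume : Measure (ℝ × ℝ)).prod (volume.restrict {t : ℝ | ε < abs t ∧ abs t < R}))
      (volume : Measure (ℝ × ℝ)) := by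
    refine QuasiMeasurePreserving.prod_of_left (by fun_prop) (Filter.Eventually.of_forall fun t => ?_)
    have := (measurePreserving_add_right (volume : Measure (ℝ × ℝ)) (0, t)).quasiMeasurePreserving
    convert this using 2 with z
    ext <;> simp
  have h : AEStronglyMeasurable
      (fun p : (ℝ × ℝ) × ℝ => F (p.1.1 + p.2, p.1.2) * G (p.1.1, p.1.2 + p.2) / (p.2 : ℂ))
      ((volume : Measure (ℝ × ℝ)).prod (volume.restrict {t : ℝ | ε < abs t ∧ abs t < R})) := by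
    refine AEMeasurable.aestronglyMeasurable ?_
    refine AEMeasurable.div (AEMeasurable.mul ?_ ?_) (Measurable.aemeasurable (by fun_prop))
    · exact (hF.comp_quasiMeasurePreserving q1).aemeasurable
    · exact (hG.comp_quasiMeasurePreserving q2).aemeasurable
  exact h.integral_prod_right'

theorem aem_annulusCount {F G : ℝ × ℝ → ℂ} (hF : AEStronglyMeasurable F volume)
    (hG : AEStronglyMeasurable G volume) (n : ℕ) :
    AEMeasurable (annulusCount n F G) volume := by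
  unfold annulusCount
  refine AEMeasurable.iSup fun m => AEMeasurable.iSup fun _ => AEMeasurable.iSup fun ε =>
    AEMeasurable.iSup fun R => AEMeasurable.iSup fun _ => AEMeasurable.iSup fun _ => ?_
  exact Finset.aemeasurable_fun_sum _ fun j _ => (aesm_annular hF hG _ _).enorm

theorem coef_summable (r : ℝ) (hr : 2 < r) (C : ℝ) :
    ∑' k : ℕ, (((2 : ℝ≥0∞) ^ (k + 1)) ^ (3 / (2 * r)) * (1 / 2 ^ k) ^ (3 / 2 : ℝ)) *
      ENNReal.ofReal (C * Real.sqrt ((2 ^ k : ℕ) : ℝ) * Real.log (2 + ((2 ^ k : ℕ) : ℝ))) ^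
        (3 / 2 : ℝ) ≠ ⊤ := by
  have hr0 : 0 < r := by linarith
  set θ : ℝ := 3 / (2 * r) with hθ
  have hθ0 : 0 < θ := by positivity
  have hθ1 : θ - 3 / 4 < 0 := by
    rw [hθ, sub_neg, div_lt_iff₀ (by positivity)]; linarith
  set q : ℝ := (2 : ℝ) ^ (θ - 3 / 4) with hq
  have hq0 : 0 < q := by positivity
  have hq1 : q < 1 := Real.rpow_lt_one_of_one_lt_of_neg (by norm_num) hθ1
  set D : ℝ := (2 : ℝ) ^ θ * |C| ^ (3 / 2 : ℝ) with hD
  have hD0 : 0 ≤ D := by positivity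
  have hs : Summable fun k : ℕ => D * (((k : ℝ) + 2) ^ 2 * q ^ k) := by
    refine Summable.mul_left _ ?_
    have h0 := summable_pow_mul_geometric_of_norm_lt_one (R := ℝ) 0 (r := q)
      (by rwa [Real.norm_of_nonneg hq0.le])
    have h1 := summable_pow_mul_geometric_of_norm_lt_one (R := ℝ) 1 (r := q)
      (by rwa [Real.norm_of_nonneg hq0.le])
    have h2 := summable_pow_mul_geometric_of_norm_lt_one (R := ℝ) 2 (r := q)
      (by rwa [Real.norm_of_nonneg hq0.le])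
    refine ((h2.add (h1.mul_left 4)).add (h0.mul_left 4)).congr fun k => ?_
    ring
  refine ne_top_of_le_ne_top (b := ∑' k : ℕ, ENNReal.ofReal (D * (((k : ℝ) + 2) ^ 2 * q ^ k)))
    ?_ (ENNReal.tsum_le_tsum fun k => ?_)
  · rw [← ENNReal.ofReal_tsum_of_nonneg (fun k => by positivity) hs]
    exact ENNReal.ofReal_ne_top
  · have hlog : Real.log (2 + ((2 ^ k : ℕ) : ℝ)) ≤ k + 2 := by
      have h1 : (2 + ((2 ^ k : ℕ) : ℝ)) ≤ 2 ^ (k + 2) := by
        push_cast
        have : (1 : ℝ) ≤ 2 ^ k := one_le_pow₀ (by norm_num)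
        rw [pow_add]; linarith
      refine (Real.log_le_log (by positivity) h1).trans ?_
      rw [Real.log_pow]
      have h2 : Real.log 2 ≤ 1 := by
        have := Real.log_le_sub_one_of_pos (show (0 : ℝ) < 2 by norm_num); linarith
      push_cast
      have : (0 : ℝ) ≤ k + 2 := by positivity
      nlinarith
    have hlog0 : 0 ≤ Real.log (2 + ((2 ^ k : ℕ) : ℝ)) := by
      apply Real.log_nonneg
      have : (0 : ℝ) ≤ ((2 ^ k : ℕ) : ℝ) := Nat.cast_nonneg _
      linarith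
    have h1 : ENNReal.ofReal (C * Real.sqrt ((2 ^ k : ℕ) : ℝ) * Real.log (2 + ((2 ^ k : ℕ) : ℝ))) ≤
        ENNReal.ofReal (|C| * Real.sqrt ((2 ^ k : ℕ) : ℝ) * (k + 2)) := by
      apply ENNReal.ofReal_le_ofReal
      calc _ ≤ |C| * Real.sqrt ((2 ^ k : ℕ) : ℝ) * Real.log (2 + ((2 ^ k : ℕ) : ℝ)) := by
            gcongr; exact le_abs_self C
        _ ≤ _ := by gcongr
    have e1 : ((2 : ℝ≥0∞) ^ (k + 1)) = ENNReal.ofReal ((2 : ℝ) ^ (k + 1)) := by
      rw [ENNReal.ofReal_pow (by norm_num)]; simp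
    have e2 : (1 / (2 : ℝ≥0∞) ^ k) = ENNReal.ofReal (1 / (2 : ℝ) ^ k) := by
      rw [ENNReal.ofReal_div_of_pos (by positivity), ENNReal.ofReal_pow (by norm_num)]; simp
    refine le_trans (mul_le_mul_right (ENNReal.rpow_le_rpow h1 (by norm_num)) _) ?_
    rw [e1, e2, ENNReal.ofReal_rpow_of_nonneg (by positivity) hθ0.le,
      ENNReal.ofReal_rpow_of_nonneg (by positivity) (by norm_num),
      ENNReal.ofReal_rpow_of_nonneg (by positivity) (by norm_num),
      ← ENNReal.ofReal_mul (by positivity), ← ENNReal.ofReal_mul (by positivity)]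
    apply ENNReal.ofReal_le_ofReal
    have f1 : ((2 : ℝ) ^ (k + 1)) ^ θ = (2 : ℝ) ^ θ * (2 : ℝ) ^ (θ * k) := by
      rw [← Real.rpow_natCast, ← Real.rpow_mul (by norm_num), ← Real.rpow_add (by norm_num)]
      congr 1; push_cast; ring
    have f2 : (1 / (2 : ℝ) ^ k) ^ (3 / 2 : ℝ) = (2 : ℝ) ^ (-(3 / 2 : ℝ) * k) := by
      rw [one_div, ← Real.rpow_natCast, ← Real.rpow_neg (by norm_num),
        ← Real.rpow_mul (by norm_num)]
      congr 1; ring
    have f3 : (Real.sqrt ((2 ^ k : ℕ) : ℝ)) ^ (3 / 2 : ℝ) = (2 : ℝ) ^ ((3 / 4 : ℝ) * k) := by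
      rw [Real.sqrt_eq_rpow]
      push_cast
      rw [← Real.rpow_natCast, ← Real.rpow_mul (by norm_num), ← Real.rpow_mul (by norm_num)]
      congr 1; ring
    have f4 : q ^ k = (2 : ℝ) ^ (θ * k) * (2 : ℝ) ^ (-(3 / 2 : ℝ) * k) *
        (2 : ℝ) ^ ((3 / 4 : ℝ) * k) := by
      rw [hq, ← Real.rpow_natCast, ← Real.rpow_mul (by norm_num), ← Real.rpow_add (by norm_num),
        ← Real.rpow_add (by norm_num)]
      congr 1; ring
    have f5 : ((k : ℝ) + 2) ^ (3 / 2 : ℝ) ≤ ((k : ℝ) + 2) ^ 2 := by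
      rw [← Real.rpow_two]
      apply Real.rpow_le_rpow_of_exponent_le _ (by norm_num)
      have : (0 : ℝ) ≤ k := Nat.cast_nonneg _
      linarith
    rw [Real.mul_rpow (by positivity) (by positivity), Real.mul_rpow (by positivity) (by positivity),
      f1, f2, f3, f4, hD]
    have := mul_le_mul_of_nonneg_left f5 (show 0 ≤ (2 : ℝ) ^ θ * |C| ^ (3 / 2 : ℝ) *
      ((2 : ℝ) ^ (θ * k) * (2 : ℝ) ^ (-(3 / 2 : ℝ) * k) * (2 : ℝ) ^ ((3 / 4 : ℝ) * k)) by positivity)
    linarith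

theorem S0095_of
    (h : ∃ C : ℝ, ∀ n : ℕ, 1 ≤ n → ∀ F G : ℝ × ℝ → ℂ,
      MeasureTheory.MemLp F 3 MeasureTheory.volume → MeasureTheory.MemLp G 3 MeasureTheory.volume →
        (∫⁻ z, Crest.AnalysisR.annulusCount n F G z ^ (3 / 2 : ℝ)) ^ (2 / 3 : ℝ) ≤
          ENNReal.ofReal (C * Real.sqrt n * Real.log (2 + n)) *
            MeasureTheory.eLpNorm F 3 MeasureTheory.volume *
            MeasureTheory.eLpNorm G 3 MeasureTheory.volume)
    (r : ℝ) (hr : 2 < r) :
    ∃ C : ℝ, ∀ F G : ℝ × ℝ → ℂ,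
      MeasureTheory.MemLp F 3 MeasureTheory.volume → MeasureTheory.MemLp G 3 MeasureTheory.volume →
        (∫⁻ z, Crest.AnalysisR.annularVariation r F G z ^ (3 / 2 : ℝ)) ^ (2 / 3 : ℝ) ≤
          ENNReal.ofReal C * MeasureTheory.eLpNorm F 3 MeasureTheory.volume *
            MeasureTheory.eLpNorm G 3 MeasureTheory.volume := by
  obtain ⟨C, hC⟩ := h
  have hD := coef_summable r hr C
  set w : ℕ → ℝ≥0∞ := fun k =>
    ((2 : ℝ≥0∞) ^ (k + 1)) ^ (3 / (2 * r)) * (1 / 2 ^ k) ^ (3 / 2 : ℝ) with hw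
  set b : ℕ → ℝ≥0∞ := fun k =>
    ENNReal.ofReal (C * Real.sqrt ((2 ^ k : ℕ) : ℝ) * Real.log (2 + ((2 ^ k : ℕ) : ℝ))) with hb
  set D := ∑' k : ℕ, w k * b k ^ (3 / 2 : ℝ) with hDdef
  refine ⟨(D ^ (2 / 3 : ℝ)).toReal, fun F G hF hG => ?_⟩
  rw [ENNReal.ofReal_toReal (ENNReal.rpow_ne_top_of_nonneg (by norm_num) hD)]
  set X := eLpNorm F 3 volume * eLpNorm G 3 volume with hX
  have h1 : ∫⁻ z, annularVariation r F G z ^ (3 / 2 : ℝ) ≤ D * X ^ (3 / 2 : ℝ) := by
    refine (lintegral_mono fun z => var_pointwise r hr F G z).trans ?_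
    have hm : ∀ k : ℕ, AEMeasurable (fun z => annulusCount (2 ^ k) F G z ^ (3 / 2 : ℝ)) volume :=
      fun k => (aem_annulusCount hF.1 hG.1 _).pow_const _
    rw [lintegral_tsum fun k => (hm k).const_mul _, hDdef, ← ENNReal.tsum_mul_right]
    refine ENNReal.tsum_le_tsum fun k => ?_
    rw [lintegral_const_mul'' _ (hm k), mul_assoc (w k)]
    refine mul_le_mul_right ?_ _
    have h2 := ENNReal.rpow_le_rpow (hC (2 ^ k) Nat.one_le_two_pow F G hF hG)
      (show (0 : ℝ) ≤ 3 / 2 by norm_num)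
    rw [← ENNReal.rpow_mul, show (2 / 3 : ℝ) * (3 / 2) = 1 by norm_num, ENNReal.rpow_one,
      mul_assoc, ENNReal.mul_rpow_of_nonneg _ _ (by norm_num)] at h2
    exact h2
  refine (ENNReal.rpow_le_rpow h1 (by norm_num)).trans (le_of_eq ?_)
  rw [ENNReal.mul_rpow_of_nonneg _ _ (by norm_num), ← ENNReal.rpow_mul, mul_assoc]
  norm_num [hX]

end Crest.Agent.R72
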